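import Vale.Agent.P032.H240.W.MdW

/-!
# P032: wedge palettes over the wild model `MdW`

`WG M` : `MW x t sd q` : the colour `q` is in the directions perpendicular (at `+90`) to the directions just before
(`sd = 0`) / just after (`sd = 1`) the direction `t` at the word point `x`.  The opposite wedge is `MW x (ad K t (3 K)) sd`.
`wpos K sd t s` : this direction has a positive cosine with the direction `s`.
-/

namespace Vale.Agent.P032.H254

open Vale.Agent.P032.H820.K (df ad hcell gk gt)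
open Vale.Agent.P032.H240.W (MdW)

/-- the wedge at `+90` of the direction just before / after `t` is in the half plane of the direction `s` -/
def wpos (K sd t s : ℕ) : Bool :=
  bif Nat.beq (df K t s) 0 then Nat.beq sd 0 else
    bif Nat.beq (df K t s) (Nat.mul 3 K) then Nat.beq sd 1 else Nat.ble (Nat.succ (Nat.mul 3 K)) (df K t s)

/-- the wedges `(t, sd)` and the letter `(s, sd')` are in general position -/
def wgen (K sd sd' t s : ℕ) : Bool :=
  !(Nat.beq sd sd') || !(Nat.beq (df K t s) 0 || Nat.beq (df K t s) (Nat.mul 3 K))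

/-- wedge palettes -/
structure WG {K NP NW : ℕ} {nb : ℕ → ℕ → ℕ} (M : MdW K NP NW nb) where
  MW : ℕ → ℕ → ℕ → ℕ → Prop
  ne : ∀ {x t sd}, x < NW → t < 6 * K → sd < 2 → ∃ q < 6, MW x t sd q
  tw : ∀ {x t sd q}, x < NW → t < 6 * K → sd < 2 → q < 6 → MW x t sd q → M.T x q
  -- the wedge is in a sector
  secR : ∀ {x t q}, x < NW → t < 6 * K → q < 6 → MW x t 1 q → M.V 0 x t q
  secL : ∀ {x t q}, x < NW → t < 6 * K → q < 6 → MW x (ad K t 1) 0 q → M.V 0 x t q
  -- against the letter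
  disj : ∀ {x t sd q}, x < NW → t < 6 * K → sd < 2 → q < 6 → MW x t sd q → ¬ M.LU x t sd q
  disj' : ∀ {x t sd q}, x < NW → t < 6 * K → sd < 2 → q < 6 → MW x (ad K t (3 * K)) sd q → ¬ M.LU x t sd q
  both : ∀ {x t sd io q}, x < NW → t < 6 * K → sd < 2 → io < 2 → q < 6 → MW x t sd q → ∃ r < 6, r ≠ q ∧ M.LT x t sd io r
  both' : ∀ {x t sd io q}, x < NW → t < 6 * K → sd < 2 → io < 2 → q < 6 → MW x (ad K t (3 * K)) sd q →
    ∃ r < 6, r ≠ q ∧ M.LT x t sd io r
  -- a one coloured wedge is a source: the neighbours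
  kin : ∀ {x t s sd q}, x < NW → t < 6 * K → s < 6 * K → sd < 2 → q < 6 → nb x s < NP → wpos K sd t s = true →
    (∀ r < 6, r ≠ q → ¬ MW x t sd r) →
      ¬ M.PH (nb x s) s q ∧ ¬ M.PV 2 (nb x s) s q ∧ ¬ M.PV 2 (nb x s) (ad K s (3 * K)) q
  kout : ∀ {x t s sd q}, x < NW → t < 6 * K → s < 6 * K → sd < 2 → q < 6 → nb x s < NP → wpos K sd t s = false →
    (∀ r < 6, r ≠ q → ¬ MW x t sd r) → ¬ M.PH (nb x s) (ad K s (3 * K)) q
  -- the letters of `x`
  oin : ∀ {x t s sd sd' q}, x < NW → t < 6 * K → s < 6 * K → sd < 2 → sd' < 2 → q < 6 → wgen K sd sd' t s = true →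
    wpos K sd t s = true → (∀ r < 6, r ≠ q → ¬ MW x t sd r) → ¬ M.LT x s sd' 1 q
  oout : ∀ {x t s sd sd' q}, x < NW → t < 6 * K → s < 6 * K → sd < 2 → sd' < 2 → q < 6 → wgen K sd sd' t s = true →
    wpos K sd t s = false → (∀ r < 6, r ≠ q → ¬ MW x t sd r) → ¬ M.LT x s sd' 0 q
  -- a colour of the wedge against a one coloured letter
  hin : ∀ {x t s sd sd' q}, x < NW → t < 6 * K → s < 6 * K → sd < 2 → sd' < 2 → q < 6 → wgen K sd sd' t s = true →
    wpos K sd t s = false → MW x t sd q → ∃ r < 6, r ≠ q ∧ M.LT x s sd' 0 r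
  hout : ∀ {x t s sd sd' q}, x < NW → t < 6 * K → s < 6 * K → sd < 2 → sd' < 2 → q < 6 → wgen K sd sd' t s = true →
    wpos K sd t s = true → MW x t sd q → ∃ r < 6, r ≠ q ∧ M.LT x s sd' 1 r

end Vale.Agent.P032.H254
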