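import Vale.Agent.P032.H240.W.Gen3
import Vale.Agent.P032.H254.WG

/-!
# P032: the clauses of the wedge palettes, by code

`BitW M G` : the bits `M.B x t sd q` (`sd < 2`) are the wedge palettes `G.MW x t sd q`.
`gG K NP NW TB n` : the clause of the code `n` (point `fx`, fields `t = fa`, `s = fb`, `fc = 2 sd + sd'`, `fd = q + 8 i`,
sub kind `fe`); `gG_ho` : it holds in every model.
-/

namespace Vale.Agent.P032.H254

open Vale.Agent.P032.H820.K (df ad hcell gk gt nbf En mp ps ng trv cd lb lb_iff ad_lt fx fa fb fc fd fe)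
open Vale.Agent.P032.H240.W

/-- the bits of the wedge palettes -/
structure BitW {K NP NW : ℕ} {nb : ℕ → ℕ → ℕ} (M : MdW K NP NW nb) (G : WG M) : Prop where
  bw : ∀ {x t sd q}, x < NW → t < 6 * K → sd < 2 → q < 6 → (M.B x t sd q ↔ G.MW x t sd q)

/-- wedge atom -/
def mA (x t sd q : ℕ) : ℕ := En 14 x t sd q

/-- set letter atom -/
def tA (x t sd io q : ℕ) : ℕ := En 11 x t (Nat.add (Nat.mul 2 sd) io) q

/-- letter atom -/
def uA (x t sd q : ℕ) : ℕ := En 11 x t (Nat.add sd 4) q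

/-- the wedge or the opposite wedge -/
def op (K t b : ℕ) : ℕ := bif Nat.beq b 0 then t else ad K t (Nat.mul 3 K)

def w0 (K NP NW TB x t sd : ℕ) : List ℕ :=
  cd (lb x NW && lb t (Nat.mul 6 K) && lb sd 2) (mp (fun q => ps (mA x t sd q)) 6 [])

def w1 (K NP NW TB x t sd q : ℕ) : List ℕ :=
  cd (lb x NW && lb t (Nat.mul 6 K) && lb sd 2 && lb q 6) [ng (mA x t sd q), ps (En 4 x 0 0 q)]

def w2 (K NP NW TB x t q : ℕ) : List ℕ :=
  cd (lb x NW && lb t (Nat.mul 6 K) && lb q 6) [ng (mA x t 1 q), ps (En 0 x t 0 q)]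

def w3 (K NP NW TB x t q : ℕ) : List ℕ :=
  cd (lb x NW && lb t (Nat.mul 6 K) && lb q 6) [ng (mA x (ad K t 1) 0 q), ps (En 0 x t 0 q)]

def w4 (K NP NW TB x t sd q b : ℕ) : List ℕ :=
  cd (lb x NW && lb t (Nat.mul 6 K) && lb sd 2 && lb q 6) [ng (mA x (op K t b) sd q), ng (uA x t sd q)]

def w5 (K NP NW TB x t sd io q b : ℕ) : List ℕ :=
  cd (lb x NW && lb t (Nat.mul 6 K) && lb sd 2 && lb io 2 && lb q 6)
    (ng (mA x (op K t b) sd q) :: ne (fun r => ps (tA x t sd io r)) q [])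

def w6 (K NP NW TB x t s sd q i : ℕ) : List ℕ :=
  cd (lb x NW && lb t (Nat.mul 6 K) && lb s (Nat.mul 6 K) && lb sd 2 && lb q 6 && lb i 4 && lb (nbf K TB x s) NP &&
      (bif Nat.beq i 3 then !(wpos K sd t s) else wpos K sd t s))
    (ng (tgt K (nbf K TB x s) s q i) :: ne (fun r => ps (mA x t sd r)) q [])

def w7 (K NP NW TB x t s sd sd' q : ℕ) : List ℕ :=
  cd (lb x NW && lb t (Nat.mul 6 K) && lb s (Nat.mul 6 K) && lb sd 2 && lb sd' 2 && lb q 6 && wgen K sd sd' t s)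
    (ng (tA x s sd' (bif wpos K sd t s then 1 else 0) q) :: ne (fun r => ps (mA x t sd r)) q [])

def w8 (K NP NW TB x t s sd sd' q : ℕ) : List ℕ :=
  cd (lb x NW && lb t (Nat.mul 6 K) && lb s (Nat.mul 6 K) && lb sd 2 && lb sd' 2 && lb q 6 && wgen K sd sd' t s)
    (ng (mA x t sd q) :: ne (fun r => ps (tA x s sd' (bif wpos K sd t s then 1 else 0) r)) q [])

/-- the clause of a code -/
def gG (K NP NW TB n : ℕ) : List ℕ :=
  bif Nat.beq (fe n) 6 then w6 K NP NW TB (fx n) (fa n) (fb n) (Nat.div (fc n) 2) (Nat.mod (fd n) 8) (Nat.div (fd n) 8) else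
  bif Nat.beq (fe n) 7 then w7 K NP NW TB (fx n) (fa n) (fb n) (Nat.div (fc n) 2) (Nat.mod (fc n) 2) (fd n) else
  bif Nat.beq (fe n) 8 then w8 K NP NW TB (fx n) (fa n) (fb n) (Nat.div (fc n) 2) (Nat.mod (fc n) 2) (fd n) else
  bif Nat.beq (fe n) 4 then w4 K NP NW TB (fx n) (fa n) (fc n) (fd n) (fb n) else
  bif Nat.beq (fe n) 5 then w5 K NP NW TB (fx n) (fa n) (Nat.div (fc n) 2) (Nat.mod (fc n) 2) (fd n) (fb n) else
  bif Nat.beq (fe n) 0 then w0 K NP NW TB (fx n) (fa n) (fc n) else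
  bif Nat.beq (fe n) 1 then w1 K NP NW TB (fx n) (fa n) (fc n) (fd n) else
  bif Nat.beq (fe n) 2 then w2 K NP NW TB (fx n) (fa n) (fd n) else
  bif Nat.beq (fe n) 3 then w3 K NP NW TB (fx n) (fa n) (fd n) else trv

section
variable {K NP NW TB : ℕ} {M : MdW K NP NW (nbf K TB)} {G : WG M} (hb : BitW M G) {v : ℕ → Prop} (hv : Ag M v)
include hb hv

theorem bM {x t sd q : ℕ} (hx : x < NW) (ht : t < 6 * K) (hsd : sd < 2) (hq : q < 6) :
    v (mA x t sd q) ↔ G.MW x t sd q := by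
  have hNP := M.hNP
  have hNW := M.hNW
  have hK := M.hK
  exact (bB hv (by omega) (by omega) (by omega)).trans (hb.bw hx ht hsd hq)

omit hb in
theorem bTA {x t sd io q : ℕ} (hx : x < NW) (ht : t < 6 * K) (hsd : sd < 2) (hio : io < 2) :
    v (tA x t sd io q) ↔ M.LT x t sd io q := by
  have hNP := M.hNP
  have hNW := M.hNW
  have hK := M.hK
  have e : v (tA x t sd io q) ↔ v (En 11 x t (2 * sd + io) q) := Iff.rfl
  have h1 := bLT hv (x := x) (j := t) (k := 2 * sd + io) (q := q) (by omega) (by omega) (by omega)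
  rw [show (2 * sd + io) / 2 = sd by omega, show (2 * sd + io) % 2 = io by omega] at h1
  exact e.trans h1

omit hb in
theorem bUA {x t sd q : ℕ} (hx : x < NW) (ht : t < 6 * K) (hsd : sd < 2) : v (uA x t sd q) ↔ M.LU x t sd q := by
  have hNP := M.hNP
  have hNW := M.hNW
  have hK := M.hK
  exact bLU hv (by omega) (by omega) hsd

omit hb hv in
theorem op_lt {t b : ℕ} (hK : 0 < K) (ht : t < 6 * K) : op K t b < 6 * K := by
  unfold op
  cases Nat.beq b 0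
  · exact ad_lt hK
  · exact ht

theorem k0 (x t sd : ℕ) : Ho v (w0 K NP NW TB x t sd) := by
  refine ho_cd fun h => ?_
  simp only [Bool.and_eq_true, lb_iff, Nat.mul_eq] at h
  obtain ⟨⟨hx, ht⟩, hsd⟩ := h
  obtain ⟨q, hq, h1⟩ := G.ne hx ht hsd
  exact ho_mp hq (lv_ps.2 ((bM hb hv hx ht hsd hq).2 h1))

theorem k1 (x t sd q : ℕ) : Ho v (w1 K NP NW TB x t sd q) := by
  refine ho_cd fun h => ?_
  have hNP := M.hNP
  have hNW := M.hNW
  simp only [Bool.and_eq_true, lb_iff, Nat.mul_eq] at h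
  obtain ⟨⟨⟨hx, ht⟩, hsd⟩, hq⟩ := h
  exact hn fun h1 => hp ((bT hv (by omega)).2 (G.tw hx ht hsd hq ((bM hb hv hx ht hsd hq).1 h1)))

theorem k2 (x t q : ℕ) : Ho v (w2 K NP NW TB x t q) := by
  refine ho_cd fun h => ?_
  have hNP := M.hNP
  have hNW := M.hNW
  have hK := M.hK
  simp only [Bool.and_eq_true, lb_iff, Nat.mul_eq] at h
  obtain ⟨⟨hx, ht⟩, hq⟩ := h
  exact hn fun h1 => hp ((bV hv (by omega) (by omega) (by omega)).2
    (G.secR hx ht hq ((bM hb hv hx ht (by norm_num) hq).1 h1)))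

theorem k3 (x t q : ℕ) : Ho v (w3 K NP NW TB x t q) := by
  refine ho_cd fun h => ?_
  have hNP := M.hNP
  have hNW := M.hNW
  have hK := M.hK
  simp only [Bool.and_eq_true, lb_iff, Nat.mul_eq] at h
  obtain ⟨⟨hx, ht⟩, hq⟩ := h
  exact hn fun h1 => hp ((bV hv (by omega) (by omega) (by omega)).2
    (G.secL hx ht hq ((bM hb hv hx (ad_lt M.hK0) (by norm_num) hq).1 h1)))

theorem k4 (x t sd q b : ℕ) : Ho v (w4 K NP NW TB x t sd q b) := by
  refine ho_cd fun h => ?_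
  simp only [Bool.and_eq_true, lb_iff, Nat.mul_eq] at h
  obtain ⟨⟨⟨hx, ht⟩, hsd⟩, hq⟩ := h
  refine hn fun h1 => hng fun h2 => ?_
  have h1 := (bM hb hv hx (op_lt M.hK0 ht) hsd hq).1 h1
  have h2 := (bUA hv hx ht hsd).1 h2
  unfold op at h1
  cases hbb : Nat.beq b 0
  · rw [hbb] at h1; exact G.disj' hx ht hsd hq h1 h2
  · rw [hbb] at h1; exact G.disj hx ht hsd hq h1 h2

theorem k5 (x t sd io q b : ℕ) : Ho v (w5 K NP NW TB x t sd io q b) := by
  refine ho_cd fun h => ?_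
  simp only [Bool.and_eq_true, lb_iff, Nat.mul_eq] at h
  obtain ⟨⟨⟨⟨hx, ht⟩, hsd⟩, hio⟩, hq⟩ := h
  refine hn fun h1 => ?_
  have h1 := (bM hb hv hx (op_lt M.hK0 ht) hsd hq).1 h1
  unfold op at h1
  have key : ∃ r < 6, r ≠ q ∧ M.LT x t sd io r := by
    cases hbb : Nat.beq b 0
    · rw [hbb] at h1; exact G.both' hx ht hsd hio hq h1
    · rw [hbb] at h1; exact G.both hx ht hsd hio hq h1
  obtain ⟨r, hr, hrq, h2⟩ := key
  exact ho_ne_or fun h3 => absurd (lv_ps.2 ((bTA hv hx ht hsd hio).2 h2)) (h3 r hr hrq)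

theorem k6 (x t s sd q i : ℕ) : Ho v (w6 K NP NW TB x t s sd q i) := by
  refine ho_cd fun h => ?_
  have hNP := M.hNP
  have hNW := M.hNW
  have hK := M.hK
  have hadl := ad_lt (K := K) (a := s) (s := 3 * K) M.hK0
  simp only [Bool.and_eq_true, lb_iff, Nat.mul_eq] at h
  obtain ⟨⟨⟨⟨⟨⟨⟨hx, ht⟩, hs⟩, hsd⟩, hq⟩, hi⟩, hn'⟩, hc⟩ := h
  refine hn fun h1 => ho_ne_or fun h2 => ?_
  have hso : ∀ r < 6, r ≠ q → ¬ G.MW x t sd r := fun r hr hrq h3 =>
    h2 r hr hrq (lv_ps.2 ((bM hb hv hx ht hsd hr).2 h3))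
  exfalso
  interval_cases i
  · exact (G.kin hx ht hs hsd hq hn' hc hso).1 ((bPH hv (by omega) (by omega)).1 h1)
  · exact (G.kin hx ht hs hsd hq hn' hc hso).2.1 ((bPV hv (by omega) (by omega) (by omega)).1 h1)
  · exact (G.kin hx ht hs hsd hq hn' hc hso).2.2 ((bPV hv (by omega) (by omega) (by omega)).1 h1)
  · have hc : wpos K sd t s = false := by simpa using hc
    exact G.kout hx ht hs hsd hq hn' hc hso ((bPH hv (by omega) (by omega)).1 h1)

theorem k7 (x t s sd sd' q : ℕ) : Ho v (w7 K NP NW TB x t s sd sd' q) := by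
  refine ho_cd fun h => ?_
  simp only [Bool.and_eq_true, lb_iff, Nat.mul_eq] at h
  obtain ⟨⟨⟨⟨⟨⟨hx, ht⟩, hs⟩, hsd⟩, hsd'⟩, hq⟩, hg⟩ := h
  refine hn fun h1 => ho_ne_or fun h2 => ?_
  have hso : ∀ r < 6, r ≠ q → ¬ G.MW x t sd r := fun r hr hrq h3 =>
    h2 r hr hrq (lv_ps.2 ((bM hb hv hx ht hsd hr).2 h3))
  exfalso
  cases hp : wpos K sd t s
  · rw [hp] at h1
    exact G.oout hx ht hs hsd hsd' hq hg hp hso ((bTA hv hx hs hsd' (by norm_num)).1 h1)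
  · rw [hp] at h1
    exact G.oin hx ht hs hsd hsd' hq hg hp hso ((bTA hv hx hs hsd' (by norm_num)).1 h1)

theorem k8 (x t s sd sd' q : ℕ) : Ho v (w8 K NP NW TB x t s sd sd' q) := by
  refine ho_cd fun h => ?_
  simp only [Bool.and_eq_true, lb_iff, Nat.mul_eq] at h
  obtain ⟨⟨⟨⟨⟨⟨hx, ht⟩, hs⟩, hsd⟩, hsd'⟩, hq⟩, hg⟩ := h
  refine hn fun h1 => ?_
  have h1 := (bM hb hv hx ht hsd hq).1 h1
  cases hp : wpos K sd t s
  · obtain ⟨r, hr, hrq, h2⟩ := G.hin hx ht hs hsd hsd' hq hg hp h1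
    exact ho_ne_or fun h3 => absurd (lv_ps.2 ((bTA hv hx hs hsd' (by norm_num)).2 h2)) (h3 r hr hrq)
  · obtain ⟨r, hr, hrq, h2⟩ := G.hout hx ht hs hsd hsd' hq hg hp h1
    exact ho_ne_or fun h3 => absurd (lv_ps.2 ((bTA hv hx hs hsd' (by norm_num)).2 h2)) (h3 r hr hrq)

/-- **every clause of the wedges holds in the model** -/
theorem gG_ho (n : ℕ) : Ho v (gG K NP NW TB n) := by
  unfold gG
  exact ho_bif (k6 hb hv _ _ _ _ _ _) (ho_bif (k7 hb hv _ _ _ _ _ _) (ho_bif (k8 hb hv _ _ _ _ _ _)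
    (ho_bif (k4 hb hv _ _ _ _ _) (ho_bif (k5 hb hv _ _ _ _ _ _) (ho_bif (k0 hb hv _ _ _)
      (ho_bif (k1 hb hv _ _ _ _) (ho_bif (k2 hb hv _ _ _) (ho_bif (k3 hb hv _ _ _) ho_trv))))))))

end

end Vale.Agent.P032.H254
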