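import Vale.Agent.P032.H240.W.MdW

/-!
# P032: the rules of a two-pair centre over the wild model `MdW`

`DZ M` : the word point `0` has the palette `{0, 1, 2, 3}` and the pairs `0 1 | 2 3`.  `Zc t k` is the zone code just before
(`k = 0`), at (`k = 1`) and just after (`k = 2`) the direction `t`: `0` zone with `0` inside, `2` zone of the pair `2 3`
(inside colour `2`, or `3` if `E`), `4`, `6` the opposite zones, odd codes are the gaps.  `MW t sd q` : the wedge colours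
perpendicular (at `+90`) to the directions just before / after `t`.
-/

namespace Vale.Agent.P032.H254

open Vale.Agent.P032.H820.K (df ad hcell gk gt)
open Vale.Agent.P032.H240.W (MdW)

/-- near the point `x + u(t)`: no `i` outside and no `j` inside the circle about `x`, `y` is the number of the point -/
structure NS2 {K NP NW : ℕ} {nb : ℕ → ℕ → ℕ} (M : MdW K NP NW nb) (y t i j : ℕ) : Prop where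
  far : ¬ M.PH y t i
  m1 : ¬ M.PV 2 y t i
  m2 : ¬ M.PV 2 y (ad K t (3 * K)) i
  near : ¬ M.PH y (ad K t (3 * K)) j

/-- the letter at `(t, sd)` has the colours `i`, `j` and no colour outside `T 0` -/
structure Exl {K NP NW : ℕ} {nb : ℕ → ℕ → ℕ} (M : MdW K NP NW nb) (t sd i j : ℕ) : Prop where
  l1 : M.LU 0 t sd i
  l2 : M.LU 0 t sd j
  f4 : ¬ M.LU 0 t sd 4
  f5 : ¬ M.LU 0 t sd 5

/-- the rules of the two-pair centre -/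
structure DZ {K NP NW : ℕ} {nb : ℕ → ℕ → ℕ} (M : MdW K NP NW nb) where
  Zc : ℕ → ℕ → ℕ
  Za : ℕ → ℕ
  E : Prop
  MW : ℕ → ℕ → ℕ → Prop
  t0 : ∀ {q}, q < 6 → (M.T 0 q ↔ q < 4)
  x0 : M.X 0
  -- order of the codes
  zlt : ∀ {t k}, Zc t k < 8
  zhalf : ∀ {t k}, t < 6 * K → k < 3 → Zc (ad K t (3 * K)) k = (Zc t k + 4) % 8
  za0 : Za 0 = 0
  zatop : Za (9 * K) = 4
  zamono : ∀ {i}, Za i ≤ Za (i + 1)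
  zcza : ∀ {t k}, t < 6 * K → k < 3 → Zc t k = (Zc 0 0 + Za (3 * t + k)) % 8
  zeven : ∀ {t}, t < 6 * K → Zc t 1 % 2 = 0 → Zc t 0 = Zc t 1 ∧ Zc t 2 = Zc t 1
  -- letters
  lA : ∀ {t sd}, t < 6 * K → sd < 2 → (Zc t (2 * sd) ≤ 2 ∨ 6 ≤ Zc t (2 * sd)) → ¬ M.LT 0 t sd 1 0 ∧ ¬ M.LT 0 t sd 0 1
  lB : ∀ {t sd}, t < 6 * K → sd < 2 → 2 ≤ Zc t (2 * sd) → Zc t (2 * sd) ≤ 6 → ¬ M.LT 0 t sd 1 1 ∧ ¬ M.LT 0 t sd 0 0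
  lC : ∀ {t sd}, t < 6 * K → sd < 2 → Zc t (2 * sd) ≤ 4 → ¬ E → ¬ M.LT 0 t sd 1 2 ∧ ¬ M.LT 0 t sd 0 3
  lC' : ∀ {t sd}, t < 6 * K → sd < 2 → Zc t (2 * sd) ≤ 4 → E → ¬ M.LT 0 t sd 1 3 ∧ ¬ M.LT 0 t sd 0 2
  lD : ∀ {t sd}, t < 6 * K → sd < 2 → (Zc t (2 * sd) = 0 ∨ 4 ≤ Zc t (2 * sd)) → ¬ E →
    ¬ M.LT 0 t sd 1 3 ∧ ¬ M.LT 0 t sd 0 2
  lD' : ∀ {t sd}, t < 6 * K → sd < 2 → (Zc t (2 * sd) = 0 ∨ 4 ≤ Zc t (2 * sd)) → E →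
    ¬ M.LT 0 t sd 1 2 ∧ ¬ M.LT 0 t sd 0 3
  /-- an exact letter is `0 1` or `2 3` -/
  lex : ∀ {t sd}, t < 6 * K → sd < 2 → ¬ M.LU 0 t sd 4 → ¬ M.LU 0 t sd 5 → Exl M t sd 0 1 ∨ Exl M t sd 2 3
  /-- and has no other colour -/
  lex1 : ∀ {t sd q}, t < 6 * K → sd < 2 → q < 6 → Exl M t sd 0 1 → M.LU 0 t sd q → q < 2
  lex2 : ∀ {t sd q}, t < 6 * K → sd < 2 → q < 6 → Exl M t sd 2 3 → M.LU 0 t sd q → 2 ≤ q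
  lAB : ∀ {t sd}, t < 6 * K → sd < 2 → Exl M t sd 0 1 → Zc t (2 * sd) = 0 ∨ Zc t (2 * sd) = 4
  lCD : ∀ {t sd}, t < 6 * K → sd < 2 → Exl M t sd 2 3 → Zc t (2 * sd) = 2 ∨ Zc t (2 * sd) = 6
  -- points of the circle
  nA : ∀ {t}, t < 6 * K → nb 0 t < NP → (Zc t 1 ≤ 2 ∨ 6 ≤ Zc t 1) → NS2 M (nb 0 t) t 0 1
  nB : ∀ {t}, t < 6 * K → nb 0 t < NP → 2 ≤ Zc t 1 → Zc t 1 ≤ 6 → NS2 M (nb 0 t) t 1 0
  nC : ∀ {t}, t < 6 * K → nb 0 t < NP → Zc t 1 ≤ 4 → ¬ E → NS2 M (nb 0 t) t 2 3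
  nC' : ∀ {t}, t < 6 * K → nb 0 t < NP → Zc t 1 ≤ 4 → E → NS2 M (nb 0 t) t 3 2
  nD : ∀ {t}, t < 6 * K → nb 0 t < NP → (Zc t 1 = 0 ∨ 4 ≤ Zc t 1) → ¬ E → NS2 M (nb 0 t) t 3 2
  nD' : ∀ {t}, t < 6 * K → nb 0 t < NP → (Zc t 1 = 0 ∨ 4 ≤ Zc t 1) → E → NS2 M (nb 0 t) t 2 3
  pCD : ∀ {t}, t < 6 * K → nb 0 t < NP → (Zc t 1 = 0 ∨ Zc t 1 = 4) → ¬ M.P (nb 0 t) 2 ∧ ¬ M.P (nb 0 t) 3
  pAB : ∀ {t}, t < 6 * K → nb 0 t < NP → (Zc t 1 = 2 ∨ Zc t 1 = 6) → ¬ M.P (nb 0 t) 0 ∧ ¬ M.P (nb 0 t) 1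
  -- wedges
  mR : ∀ {t q}, t < 6 * K → q < 6 → MW t 1 q → M.V 0 0 t q
  mL : ∀ {t q}, t < 6 * K → q < 6 → MW (ad K t 1) 0 q → M.V 0 0 t q
  mne : ∀ {t sd}, t < 6 * K → sd < 2 → ∃ q < 4, MW t sd q
  d0 : ∀ {t sd q}, t < 6 * K → sd < 2 → q < 6 → Exl M t sd 0 1 → Zc t (2 * sd) = 0 → ¬ E →
    (MW t sd q ↔ q = 2) ∧ (MW (ad K t (3 * K)) sd q ↔ q = 3)
  d0' : ∀ {t sd q}, t < 6 * K → sd < 2 → q < 6 → Exl M t sd 0 1 → Zc t (2 * sd) = 0 → E →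
    (MW t sd q ↔ q = 3) ∧ (MW (ad K t (3 * K)) sd q ↔ q = 2)
  d4 : ∀ {t sd q}, t < 6 * K → sd < 2 → q < 6 → Exl M t sd 0 1 → Zc t (2 * sd) = 4 → ¬ E →
    (MW t sd q ↔ q = 3) ∧ (MW (ad K t (3 * K)) sd q ↔ q = 2)
  d4' : ∀ {t sd q}, t < 6 * K → sd < 2 → q < 6 → Exl M t sd 0 1 → Zc t (2 * sd) = 4 → E →
    (MW t sd q ↔ q = 2) ∧ (MW (ad K t (3 * K)) sd q ↔ q = 3)
  d2 : ∀ {t sd q}, t < 6 * K → sd < 2 → q < 6 → Exl M t sd 2 3 → Zc t (2 * sd) = 2 →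
    (MW t sd q ↔ q = 1) ∧ (MW (ad K t (3 * K)) sd q ↔ q = 0)
  d6 : ∀ {t sd q}, t < 6 * K → sd < 2 → q < 6 → Exl M t sd 2 3 → Zc t (2 * sd) = 6 →
    (MW t sd q ↔ q = 0) ∧ (MW (ad K t (3 * K)) sd q ↔ q = 1)
  /-- wedge colours are not in the letter -/
  mdis : ∀ {t sd q}, t < 6 * K → sd < 2 → q < 6 → MW t sd q → ¬ M.LU 0 t sd q
  mdis' : ∀ {t sd q}, t < 6 * K → sd < 2 → q < 6 → MW (ad K t (3 * K)) sd q → ¬ M.LU 0 t sd q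

end Vale.Agent.P032.H254
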