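import Vale.Agent.P032.H254.Tick
import Vale.Agent.P032.H892.GermC
import Vale.Agent.P032.H61.GenW

/-!
# P032: the boundaries of the zones as closed sets of directions

* `fam θ = θ + 3 ℤ` : closed, `fam_Ioo`, `fam_Ioc` : points of the family between two directions from floor and ceiling,
* `Bd w : Fin 4 → Fin 6 → Set ℝ` : the four families of the windows `w`,
* `cnt` : number of the bits, `codL_cnt`, `codR_cnt` : **the zone code at a direction from the code at the start of the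
  slot and the bits `A`** (`cAl`, `cAr`, `cS`, `cR` of `H892.GermC`),
* `Zs w u1 A m` : the zone code of a state; `zs_0` .. `zs_3` : its readings are the positions `6 m + 2`, `6 m + 3`,
  `6 m + 5`, `6 m + 6` of the ticks `t2 u1 u`.
-/

open Set Filter Topology Metric

noncomputable section

namespace Vale.Agent.P032.H254

open Vale.Agent.P032.Six Vale.Agent.P032.H892 Vale.Agent.P032.H913 Vale.Agent.P032.S5.H767 Vale.Agent.P032.H357
  Vale.Agent.P032.H556 Vale.Agent.P032.H61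

/-- the directions `θ + 3 n` -/
def fam (θ : ℝ) : Set ℝ := {x | ∃ n : ℤ, (n : ℝ) = (x - θ) / 3}

theorem fam_closed (θ : ℝ) : IsClosed (fam θ) :=
  (Int.isClosedEmbedding_coe_real.isClosed_range).preimage (by fun_prop : Continuous fun x : ℝ => (x - θ) / 3)

section
variable {θ x y : ℝ}

open Classical in
/-- points strictly between -/
theorem fam_Ioo (h : x < y) (h3 : y ≤ x + 3) :
    ⌈(y - θ) / 3⌉ = ⌊(x - θ) / 3⌋ + 1 + (if (fam θ ∩ Ioo x y).Nonempty then 1 else 0) := by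
  have f1 := Int.floor_le ((x - θ) / 3)
  have f2 := Int.lt_floor_add_one ((x - θ) / 3)
  split_ifs with hc
  · obtain ⟨v, ⟨n, hn⟩, h1, h2⟩ := hc
    have e1 : n = ⌊(x - θ) / 3⌋ + 1 := by
      have k1 : (n : ℝ) < (⌊(x - θ) / 3⌋ : ℝ) + 2 := by rw [hn]; linarith
      have k2 : (⌊(x - θ) / 3⌋ : ℝ) < n := by rw [hn]; linarith
      have k3 : n < ⌊(x - θ) / 3⌋ + 2 := by exact_mod_cast k1
      have k4 : ⌊(x - θ) / 3⌋ < n := by exact_mod_cast k2
      omega
    rw [Int.ceil_eq_iff]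
    push_cast
    have e2 : (n : ℝ) = (⌊(x - θ) / 3⌋ : ℝ) + 1 := by rw [e1]; push_cast; ring
    exact ⟨by linarith, by linarith⟩
  · rw [Int.ceil_eq_iff]
    push_cast
    refine ⟨by linarith, ?_⟩
    by_contra hcon
    rw [not_le] at hcon
    refine hc ⟨θ + 3 * ((⌊(x - θ) / 3⌋ : ℝ) + 1), ⟨⌊(x - θ) / 3⌋ + 1, by push_cast; ring⟩, by linarith, by linarith⟩

open Classical in
/-- points between, the end included -/
theorem fam_Ioc (h : x < y) (h3 : y < x + 3) :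
    ⌊(y - θ) / 3⌋ = ⌊(x - θ) / 3⌋ + (if (fam θ ∩ Ioc x y).Nonempty then 1 else 0) := by
  have f1 := Int.floor_le ((x - θ) / 3)
  have f2 := Int.lt_floor_add_one ((x - θ) / 3)
  split_ifs with hc
  · obtain ⟨v, ⟨n, hn⟩, h1, h2⟩ := hc
    have e1 : n = ⌊(x - θ) / 3⌋ + 1 := by
      have k1 : (n : ℝ) < (⌊(x - θ) / 3⌋ : ℝ) + 2 := by rw [hn]; linarith
      have k2 : (⌊(x - θ) / 3⌋ : ℝ) < n := by rw [hn]; linarith
      have k3 : n < ⌊(x - θ) / 3⌋ + 2 := by exact_mod_cast k1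
      have k4 : ⌊(x - θ) / 3⌋ < n := by exact_mod_cast k2
      omega
    rw [Int.floor_eq_iff]
    push_cast
    have e2 : (n : ℝ) = (⌊(x - θ) / 3⌋ : ℝ) + 1 := by rw [e1]; push_cast; ring
    exact ⟨by linarith, by linarith⟩
  · rw [Int.floor_eq_iff]
    push_cast
    refine ⟨by linarith, ?_⟩
    by_contra hcon
    rw [not_lt] at hcon
    refine hc ⟨θ + 3 * ((⌊(x - θ) / 3⌋ : ℝ) + 1), ⟨⌊(x - θ) / 3⌋ + 1, by push_cast; ring⟩, by linarith, by linarith⟩

theorem fam_not_accR : ¬ AccR (fam θ) x := by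
  intro h
  have f1 := Int.floor_le ((x - θ) / 3)
  have f2 := Int.lt_floor_add_one ((x - θ) / 3)
  have h3 : x < θ + 3 * ((⌊(x - θ) / 3⌋ : ℝ) + 1) := by linarith
  have h : ∃ᶠ v in 𝓝[>] x, v ∈ fam θ := h
  obtain ⟨v, ⟨n, hn⟩, h1, h2⟩ := (h.and_eventually (Ioo_mem_nhdsGT h3)).exists
  have k1 : (n : ℝ) < (⌊(x - θ) / 3⌋ : ℝ) + 1 := by rw [hn]; linarith
  have k2 : (⌊(x - θ) / 3⌋ : ℝ) < n := by rw [hn]; linarith
  have k3 : n < ⌊(x - θ) / 3⌋ + 1 := by exact_mod_cast k1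
  have k4 : ⌊(x - θ) / 3⌋ < n := by exact_mod_cast k2
  omega

end

/-- the four boundary directions -/
def thw (w : Wn) (i : Fin 4) : ℝ :=
  if i = 0 then w.a0 else if i = 1 then w.a1 else if i = 2 then w.c0 else w.c1

/-- the families of the boundaries (the colour does not matter) -/
def Bd (w : Wn) (i : Fin 4) (_ : Fin 6) : Set ℝ := fam (thw w i)

theorem bd_closed (w : Wn) (i : Fin 4) (q : Fin 6) : IsClosed (Bd w i q) := fam_closed _

theorem bd_0 (w : Wn) (q : Fin 6) : Bd w 0 q = fam w.a0 := rfl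

theorem bd_1 (w : Wn) (q : Fin 6) : Bd w 1 q = fam w.a1 := rfl

theorem bd_2 (w : Wn) (q : Fin 6) : Bd w 2 q = fam w.c0 := rfl

theorem bd_3 (w : Wn) (q : Fin 6) : Bd w 3 q = fam w.c1 := rfl

open Classical in
/-- the number of the bits of the slot -/
def cnt (A : GB (Fin 4)) (m : Fin 6) : ℤ :=
  (if A 0 m 0 then 1 else 0) + (if A 1 m 0 then 1 else 0) + (if A 2 m 0 then 1 else 0) + (if A 3 m 0 then 1 else 0)

variable {w : Wn} {u1 u x y : ℝ}

open Classical in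
theorem codL_cnt (h : x < y) (h3 : y ≤ x + 1) {A : GB (Fin 4)} {m : Fin 6}
    (hA : ∀ i, A i m 0 ↔ (Bd w i 0 ∩ Ioo x y).Nonempty) : w.codL y = w.codR x + cnt A m := by
  unfold Wn.codL Wn.codR cnt
  rw [fam_Ioo (θ := w.a0) h (by linarith), fam_Ioo (θ := w.a1) h (by linarith), fam_Ioo (θ := w.c0) h (by linarith),
    fam_Ioo (θ := w.c1) h (by linarith)]
  have e0 : (if A 0 m 0 then (1 : ℤ) else 0) = if (fam w.a0 ∩ Ioo x y).Nonempty then 1 else 0 :=
    if_congr (hA 0) rfl rfl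
  have e1 : (if A 1 m 0 then (1 : ℤ) else 0) = if (fam w.a1 ∩ Ioo x y).Nonempty then 1 else 0 :=
    if_congr (hA 1) rfl rfl
  have e2 : (if A 2 m 0 then (1 : ℤ) else 0) = if (fam w.c0 ∩ Ioo x y).Nonempty then 1 else 0 :=
    if_congr (hA 2) rfl rfl
  have e3 : (if A 3 m 0 then (1 : ℤ) else 0) = if (fam w.c1 ∩ Ioo x y).Nonempty then 1 else 0 :=
    if_congr (hA 3) rfl rfl
  rw [e0, e1, e2, e3]
  ring

open Classical in
theorem codR_cnt (h : x < y) (h3 : y ≤ x + 1) {A : GB (Fin 4)} {m : Fin 6}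
    (hA : ∀ i, A i m 0 ↔ (Bd w i 0 ∩ Ioc x y).Nonempty) : w.codR y = w.codR x + cnt A m := by
  unfold Wn.codR cnt
  rw [fam_Ioc (θ := w.a0) h (by linarith), fam_Ioc (θ := w.a1) h (by linarith), fam_Ioc (θ := w.c0) h (by linarith),
    fam_Ioc (θ := w.c1) h (by linarith)]
  have e0 : (if A 0 m 0 then (1 : ℤ) else 0) = if (fam w.a0 ∩ Ioc x y).Nonempty then 1 else 0 :=
    if_congr (hA 0) rfl rfl
  have e1 : (if A 1 m 0 then (1 : ℤ) else 0) = if (fam w.a1 ∩ Ioc x y).Nonempty then 1 else 0 :=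
    if_congr (hA 1) rfl rfl
  have e2 : (if A 2 m 0 then (1 : ℤ) else 0) = if (fam w.c0 ∩ Ioc x y).Nonempty then 1 else 0 :=
    if_congr (hA 2) rfl rfl
  have e3 : (if A 3 m 0 then (1 : ℤ) else 0) = if (fam w.c1 ∩ Ioc x y).Nonempty then 1 else 0 :=
    if_congr (hA 3) rfl rfl
  rw [e0, e1, e2, e3]
  ring

/-- the zone code of a state in the slot `m`: the code just after `u1 + m` and the bits `A` -/
def Zs (w : Wn) (u1 : ℝ) (A : GB (Fin 4)) (m : Fin 6) : ℤ := w.codR (u1 + m.val) + cnt A m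

theorem cnt_zero {A : GB (Fin 4)} {m : Fin 6} (hA : ∀ i, ¬ A i m 0) : cnt A m = 0 := by
  unfold cnt
  rw [if_neg (hA 0), if_neg (hA 1), if_neg (hA 2), if_neg (hA 3)]
  rfl

/-- start: position `6 m + 2` -/
theorem zs_0 (m : Fin 6) : zp w (t2 u1 u) (6 * m.val + 2) = Zs w u1 (cR (Bd w) u1) m := by
  rw [show 6 * m.val + 2 = 3 * (2 * m.val) + 2 by ring, zp_2, t2_even]
  unfold Zs
  rw [cnt_zero fun i => fam_not_accR, add_zero]

/-- before: position `6 m + 3` -/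
theorem zs_1 (hu : u ∈ Ioo u1 (u1 + 1)) (m : Fin 6) :
    zp w (t2 u1 u) (6 * m.val + 3) = Zs w u1 (cAl (Bd w) u1 u) m := by
  rw [show 6 * m.val + 3 = 3 * (2 * m.val + 1) by ring, zp_0, t2_odd]
  exact codL_cnt (by linarith [hu.1]) (by linarith [hu.2]) fun i => Iff.rfl

/-- after: position `6 m + 5` -/
theorem zs_2 (hu : u ∈ Ioo u1 (u1 + 1)) (m : Fin 6) :
    zp w (t2 u1 u) (6 * m.val + 5) = Zs w u1 (cAr (Bd w) u1 u) m := by
  rw [show 6 * m.val + 5 = 3 * (2 * m.val + 1) + 2 by ring, zp_2, t2_odd]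
  exact codR_cnt (by linarith [hu.1]) (by linarith [hu.2]) fun i => Iff.rfl

/-- end: position `6 m + 6` -/
theorem zs_3 (m : Fin 6) : zp w (t2 u1 u) (6 * m.val + 6) = Zs w u1 (cS (Bd w) u1) m := by
  rw [show 6 * m.val + 6 = 3 * (2 * (m.val + 1)) by ring, zp_0, t2_even]
  have e : u1 + ((m.val + 1 : ℕ) : ℝ) = u1 + m.val + 1 := by push_cast; ring
  rw [e]
  exact codL_cnt (by linarith) le_rfl fun i => Iff.rfl

end Vale.Agent.P032.H254
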