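import Vale.Agent.P032.H254.Zones

/-!
# P032: windows and zone codes of a two-pair point, frame `Irr U T`

* `Wn` : four numbers `a0 < a1 ≤ c0 < c1 ≤ a0 + 3` (`Wn.Ok`), `Wn.cod : ℝ → ℤ` monotone with `cod (s + 3) = cod s + 4`:
  `4 k` on `(a0, a1) + 3 k`, `4 k + 1` on `[a1, c0] + 3 k`, `4 k + 2` on `(c0, c1) + 3 k`, `4 k + 3` on `[c1, a0 + 3] + 3 k`,
  one sided values `codL`, `codR`,
* `Win ZA ZC w`, `exists_win`,
* `Zn U T z A B C D w` : orientation and windows; `exists_Zn` : existence for every two-pair point,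
* `Zn.sdA_in` .. `Zn.sdC_out` : sides at every point of `S(z)` from the code modulo 8, `Zn.exact_A`, `Zn.exact_C`.
-/

open Set Filter Topology Metric

noncomputable section

namespace Vale.Agent.P032.H254

open Vale.Agent.P032.Six Vale.Agent.P032.H892 Vale.Agent.P032.H913 Vale.Agent.P032.S5.H767

/-! ### the code -/

/-- the four numbers -/
structure Wn where
  a0 : ℝ
  a1 : ℝ
  c0 : ℝ
  c1 : ℝ

namespace Wn

/-- the order -/
structure Ok (w : Wn) : Prop where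
  h1 : w.a0 < w.a1
  h2 : w.a1 ≤ w.c0
  h3 : w.c0 < w.c1
  h4 : w.c1 ≤ w.a0 + 3

/-- the zone code -/
def cod (w : Wn) (φ : ℝ) : ℤ := ⌈(φ - w.a0) / 3⌉ + ⌊(φ - w.a1) / 3⌋ + ⌈(φ - w.c0) / 3⌉ + ⌊(φ - w.c1) / 3⌋ + 1

/-- the zone code just after `φ` -/
def codR (w : Wn) (φ : ℝ) : ℤ := ⌊(φ - w.a0) / 3⌋ + ⌊(φ - w.a1) / 3⌋ + ⌊(φ - w.c0) / 3⌋ + ⌊(φ - w.c1) / 3⌋ + 3

/-- the zone code just before `φ` -/
def codL (w : Wn) (φ : ℝ) : ℤ := ⌈(φ - w.a0) / 3⌉ + ⌈(φ - w.a1) / 3⌉ + ⌈(φ - w.c0) / 3⌉ + ⌈(φ - w.c1) / 3⌉ - 1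

variable {w : Wn} {φ ψ : ℝ}

theorem div_add_three (x a : ℝ) : (x + 3 - a) / 3 = (x - a) / 3 + 1 := by ring

theorem cod_add_three (w : Wn) (φ : ℝ) : w.cod (φ + 3) = w.cod φ + 4 := by
  unfold cod
  simp only [div_add_three, Int.ceil_add_one, Int.floor_add_one]
  ring

theorem codR_add_three (w : Wn) (φ : ℝ) : w.codR (φ + 3) = w.codR φ + 4 := by
  unfold codR
  simp only [div_add_three, Int.floor_add_one]
  ring

theorem codL_add_three (w : Wn) (φ : ℝ) : w.codL (φ + 3) = w.codL φ + 4 := by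
  unfold codL
  simp only [div_add_three, Int.ceil_add_one]
  ring

theorem mono (w : Wn) (h : φ ≤ ψ) : w.cod φ ≤ w.cod ψ := by
  unfold cod
  have h1 := Int.ceil_mono (show (φ - w.a0) / 3 ≤ (ψ - w.a0) / 3 by linarith)
  have h2 := Int.floor_mono (show (φ - w.a1) / 3 ≤ (ψ - w.a1) / 3 by linarith)
  have h3 := Int.ceil_mono (show (φ - w.c0) / 3 ≤ (ψ - w.c0) / 3 by linarith)
  have h4 := Int.floor_mono (show (φ - w.c1) / 3 ≤ (ψ - w.c1) / 3 by linarith)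
  omega

theorem floor_le_ceil' (x : ℝ) : ⌊x⌋ ≤ ⌈x⌉ := Int.floor_le_ceil x

theorem ceil_le_floor' (x : ℝ) : ⌈x⌉ ≤ ⌊x⌋ + 1 := Int.ceil_le_floor_add_one x

theorem codL_le (w : Wn) (φ : ℝ) : w.codL φ ≤ w.cod φ := by
  unfold codL cod
  have h2 := ceil_le_floor' ((φ - w.a1) / 3)
  have h4 := ceil_le_floor' ((φ - w.c1) / 3)
  omega

theorem le_codR (w : Wn) (φ : ℝ) : w.cod φ ≤ w.codR φ := by
  unfold codR cod
  have h2 := ceil_le_floor' ((φ - w.a0) / 3)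
  have h4 := ceil_le_floor' ((φ - w.c0) / 3)
  omega

theorem floor_lt_ceil' {x y : ℝ} (h : x < y) : ⌊x⌋ + 1 ≤ ⌈y⌉ := by
  have h1 : (⌊x⌋ : ℝ) < y := lt_of_le_of_lt (Int.floor_le x) h
  have := Int.lt_ceil.2 h1
  omega

theorem codR_le_codL (w : Wn) (h : φ < ψ) : w.codR φ ≤ w.codL ψ := by
  unfold codR codL
  have h1 := floor_lt_ceil' (show (φ - w.a0) / 3 < (ψ - w.a0) / 3 by linarith)
  have h2 := floor_lt_ceil' (show (φ - w.a1) / 3 < (ψ - w.a1) / 3 by linarith)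
  have h3 := floor_lt_ceil' (show (φ - w.c0) / 3 < (ψ - w.c0) / 3 by linarith)
  have h4 := floor_lt_ceil' (show (φ - w.c1) / 3 < (ψ - w.c1) / 3 by linarith)
  omega

theorem ev_R (a φ : ℝ) : ∀ᶠ v in 𝓝[>] φ, ⌈(v - a) / 3⌉ = ⌊(φ - a) / 3⌋ + 1 ∧ ⌊(v - a) / 3⌋ = ⌊(φ - a) / 3⌋ := by
  have h1 := Int.floor_le ((φ - a) / 3)
  have h2 := Int.lt_floor_add_one ((φ - a) / 3)
  have h3 : φ < a + 3 * ((⌊(φ - a) / 3⌋ : ℝ) + 1) := by linarith
  filter_upwards [Ioo_mem_nhdsGT h3] with v hv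
  constructor
  · rw [Int.ceil_eq_iff]
    push_cast
    exact ⟨by linarith [hv.1], by linarith [hv.2]⟩
  · rw [Int.floor_eq_iff]
    exact ⟨by linarith [hv.1], by linarith [hv.2]⟩

theorem ev_L (a φ : ℝ) : ∀ᶠ v in 𝓝[<] φ, ⌈(v - a) / 3⌉ = ⌈(φ - a) / 3⌉ ∧ ⌊(v - a) / 3⌋ = ⌈(φ - a) / 3⌉ - 1 := by
  have h1 := Int.le_ceil ((φ - a) / 3)
  have h2 := Int.ceil_lt_add_one ((φ - a) / 3)
  have h3 : a + 3 * ((⌈(φ - a) / 3⌉ : ℝ) - 1) < φ := by linarith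
  filter_upwards [Ioo_mem_nhdsLT h3] with v hv
  constructor
  · rw [Int.ceil_eq_iff]
    exact ⟨by linarith [hv.1], by linarith [hv.2]⟩
  · rw [Int.floor_eq_iff]
    push_cast
    exact ⟨by linarith [hv.1], by linarith [hv.2]⟩

/-- **the code just after `φ`** -/
theorem ev_codR (w : Wn) (φ : ℝ) : ∀ᶠ v in 𝓝[>] φ, w.cod v = w.codR φ := by
  filter_upwards [ev_R w.a0 φ, ev_R w.a1 φ, ev_R w.c0 φ, ev_R w.c1 φ] with v h1 h2 h3 h4
  unfold cod codR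
  rw [h1.1, h2.2, h3.1, h4.2]
  ring

/-- **the code just before `φ`** -/
theorem ev_codL (w : Wn) (φ : ℝ) : ∀ᶠ v in 𝓝[<] φ, w.cod v = w.codL φ := by
  filter_upwards [ev_L w.a0 φ, ev_L w.a1 φ, ev_L w.c0 φ, ev_L w.c1 φ] with v h1 h2 h3 h4
  unfold cod codL
  rw [h1.1, h2.2, h3.1, h4.2]
  ring

section
variable (O : w.Ok)
include O

theorem cod_A {k : ℤ} (h : φ ∈ Ioo (w.a0 + 3 * k) (w.a1 + 3 * k)) : w.cod φ = 4 * k := by
  obtain ⟨h1, h2, h3, h4⟩ := O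
  obtain ⟨h5, h6⟩ := h
  have e1 : ⌈(φ - w.a0) / 3⌉ = k + 1 := by
    rw [Int.ceil_eq_iff]; push_cast; exact ⟨by linarith, by linarith⟩
  have e2 : ⌊(φ - w.a1) / 3⌋ = k - 1 := by
    rw [Int.floor_eq_iff]; push_cast; exact ⟨by linarith, by linarith⟩
  have e3 : ⌈(φ - w.c0) / 3⌉ = k := by
    rw [Int.ceil_eq_iff]; exact ⟨by linarith, by linarith⟩
  have e4 : ⌊(φ - w.c1) / 3⌋ = k - 1 := by
    rw [Int.floor_eq_iff]; push_cast; exact ⟨by linarith, by linarith⟩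
  unfold cod
  rw [e1, e2, e3, e4]; ring

theorem cod_AC {k : ℤ} (h : φ ∈ Icc (w.a1 + 3 * k) (w.c0 + 3 * k)) : w.cod φ = 4 * k + 1 := by
  obtain ⟨h1, h2, h3, h4⟩ := O
  obtain ⟨h5, h6⟩ := h
  have e1 : ⌈(φ - w.a0) / 3⌉ = k + 1 := by
    rw [Int.ceil_eq_iff]; push_cast; exact ⟨by linarith, by linarith⟩
  have e2 : ⌊(φ - w.a1) / 3⌋ = k := by
    rw [Int.floor_eq_iff]; exact ⟨by linarith, by linarith⟩
  have e3 : ⌈(φ - w.c0) / 3⌉ = k := by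
    rw [Int.ceil_eq_iff]; exact ⟨by linarith, by linarith⟩
  have e4 : ⌊(φ - w.c1) / 3⌋ = k - 1 := by
    rw [Int.floor_eq_iff]; push_cast; exact ⟨by linarith, by linarith⟩
  unfold cod
  rw [e1, e2, e3, e4]; ring

theorem cod_C {k : ℤ} (h : φ ∈ Ioo (w.c0 + 3 * k) (w.c1 + 3 * k)) : w.cod φ = 4 * k + 2 := by
  obtain ⟨h1, h2, h3, h4⟩ := O
  obtain ⟨h5, h6⟩ := h
  have e1 : ⌈(φ - w.a0) / 3⌉ = k + 1 := by
    rw [Int.ceil_eq_iff]; push_cast; exact ⟨by linarith, by linarith⟩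
  have e2 : ⌊(φ - w.a1) / 3⌋ = k := by
    rw [Int.floor_eq_iff]; exact ⟨by linarith, by linarith⟩
  have e3 : ⌈(φ - w.c0) / 3⌉ = k + 1 := by
    rw [Int.ceil_eq_iff]; push_cast; exact ⟨by linarith, by linarith⟩
  have e4 : ⌊(φ - w.c1) / 3⌋ = k - 1 := by
    rw [Int.floor_eq_iff]; push_cast; exact ⟨by linarith, by linarith⟩
  unfold cod
  rw [e1, e2, e3, e4]; ring

theorem cod_CB {k : ℤ} (h : φ ∈ Icc (w.c1 + 3 * k) (w.a0 + 3 * k + 3)) : w.cod φ = 4 * k + 3 := by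
  obtain ⟨h1, h2, h3, h4⟩ := O
  obtain ⟨h5, h6⟩ := h
  have e1 : ⌈(φ - w.a0) / 3⌉ = k + 1 := by
    rw [Int.ceil_eq_iff]; push_cast; exact ⟨by linarith, by linarith⟩
  have e2 : ⌊(φ - w.a1) / 3⌋ = k := by
    rw [Int.floor_eq_iff]; exact ⟨by linarith, by linarith⟩
  have e3 : ⌈(φ - w.c0) / 3⌉ = k + 1 := by
    rw [Int.ceil_eq_iff]; push_cast; exact ⟨by linarith, by linarith⟩
  have e4 : ⌊(φ - w.c1) / 3⌋ = k := by
    rw [Int.floor_eq_iff]; exact ⟨by linarith, by linarith⟩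
  unfold cod
  rw [e1, e2, e3, e4]; ring

/-- the four cases -/
theorem cases4 (φ : ℝ) : ∃ k : ℤ, (φ ∈ Ioo (w.a0 + 3 * k) (w.a1 + 3 * k) ∧ w.cod φ = 4 * k) ∨
    (φ ∈ Icc (w.a1 + 3 * k) (w.c0 + 3 * k) ∧ w.cod φ = 4 * k + 1) ∨
    (φ ∈ Ioo (w.c0 + 3 * k) (w.c1 + 3 * k) ∧ w.cod φ = 4 * k + 2) ∨
    (φ ∈ Icc (w.c1 + 3 * k) (w.a0 + 3 * k + 3) ∧ w.cod φ = 4 * k + 3) := by
  have h1 := Int.le_ceil ((φ - w.a0) / 3)
  have h2 := Int.ceil_lt_add_one ((φ - w.a0) / 3)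
  refine ⟨⌈(φ - w.a0) / 3⌉ - 1, ?_⟩
  set k : ℤ := ⌈(φ - w.a0) / 3⌉ - 1 with hk
  have hk' : ((k : ℤ) : ℝ) = (⌈(φ - w.a0) / 3⌉ : ℝ) - 1 := by rw [hk]; push_cast; ring
  have h3 : w.a0 + 3 * k < φ := by rw [hk']; linarith
  have h4 : φ ≤ w.a0 + 3 * k + 3 := by rw [hk']; linarith
  rcases lt_or_ge φ (w.a1 + 3 * k) with h5 | h5
  · exact Or.inl ⟨⟨h3, h5⟩, cod_A O ⟨h3, h5⟩⟩
  rcases le_or_gt φ (w.c0 + 3 * k) with h6 | h6
  · exact Or.inr (Or.inl ⟨⟨h5, h6⟩, cod_AC O ⟨h5, h6⟩⟩)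
  rcases lt_or_ge φ (w.c1 + 3 * k) with h7 | h7
  · exact Or.inr (Or.inr (Or.inl ⟨⟨h6, h7⟩, cod_C O ⟨h6, h7⟩⟩))
  · exact Or.inr (Or.inr (Or.inr ⟨⟨h7, h4⟩, cod_CB O ⟨h7, h4⟩⟩))

/-- an even code is locally constant -/
theorem cod_even (h : w.cod φ % 2 = 0) : w.codL φ = w.cod φ ∧ w.codR φ = w.cod φ := by
  have key : ∀ᶠ v in 𝓝 φ, w.cod v = w.cod φ := by
    obtain ⟨k, h1 | h1 | h1 | h1⟩ := cases4 O φ
    · filter_upwards [Ioo_mem_nhds h1.1.1 h1.1.2] with v hv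
      rw [h1.2]; exact cod_A O hv
    · rw [h1.2] at h; omega
    · filter_upwards [Ioo_mem_nhds h1.1.1 h1.1.2] with v hv
      rw [h1.2]; exact cod_C O hv
    · rw [h1.2] at h; omega
  constructor
  · obtain ⟨v, h1, h2⟩ := ((key.filter_mono nhdsWithin_le_nhds).and (w.ev_codL φ)).exists
    rw [← h2, h1]
  · obtain ⟨v, h1, h2⟩ := ((key.filter_mono nhdsWithin_le_nhds).and (w.ev_codR φ)).exists
    rw [← h2, h1]

end

end Wn

/-! ### windows -/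

/-- the windows of the oriented directions -/
structure Win (ZA ZC : Set ℝ) (w : Wn) : Prop where
  ok : w.Ok
  inA : ∀ t ∈ ZA, ∃ n : ℤ, t - 6 * n ∈ Ioo w.a0 w.a1
  inC : ∀ t ∈ ZC, ∃ n : ℤ, t - 6 * n ∈ Ioo w.c0 w.c1
  lowA : ∀ x, w.a0 < x → ∃ t ∈ ZA, w.a0 < t ∧ t < x ∧ t < w.a1
  highA : ∀ x, x < w.a1 → ∃ t ∈ ZA, x < t ∧ t < w.a1 ∧ w.a0 < t
  lowC : ∀ x, w.c0 < x → ∃ t ∈ ZC, w.c0 < t ∧ t < x ∧ t < w.c1
  highC : ∀ x, x < w.c1 → ∃ t ∈ ZC, x < t ∧ t < w.c1 ∧ w.c0 < t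

theorem inf_lt {P : Set ℝ} (hP : IsOpen P) (hb : BddBelow P) {t : ℝ} (ht : t ∈ P) : sInf P < t := by
  obtain ⟨ε, hε, hb'⟩ := Metric.isOpen_iff.1 hP t ht
  have h1 : t - ε / 2 ∈ P := hb' (by rw [mem_ball, Real.dist_eq]; rw [abs_lt]; constructor <;> linarith)
  have := csInf_le hb h1
  linarith

theorem lt_sup {P : Set ℝ} (hP : IsOpen P) (hb : BddAbove P) {t : ℝ} (ht : t ∈ P) : t < sSup P := by
  obtain ⟨ε, hε, hb'⟩ := Metric.isOpen_iff.1 hP t ht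
  have h1 : t + ε / 2 ∈ P := hb' (by rw [mem_ball, Real.dist_eq]; rw [abs_lt]; constructor <;> linarith)
  have := le_csSup hb h1
  linarith

/-- **Existence of the windows** -/
theorem exists_win {ZA ZC : Set ℝ} (oA : IsOpen ZA) (oC : IsOpen ZC) (nA : ZA.Nonempty) (nC : ZC.Nonempty)
    (iA : ∀ t ∈ ZA, ∀ n : ℤ, t - 6 * n ∈ ZA) (iC : ∀ t ∈ ZC, ∀ n : ℤ, t - 6 * n ∈ ZC)
    (pos : ∀ t ∈ ZA, ∀ s ∈ ZC, 0 < sn (s - t)) : ∃ w, Win ZA ZC w := by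
  obtain ⟨t0, ht0⟩ := nA
  obtain ⟨s', hs'⟩ := nC
  obtain ⟨n, hn1, hn2⟩ := exists_int (pos t0 ht0 s' hs')
  set s0 := s' - 6 * n with hs0d
  have hs0 : s0 ∈ ZC := iC s' hs' n
  have hn1 : t0 < s0 := by rw [hs0d]; linarith
  have hn2 : s0 < t0 + 3 := by rw [hs0d]; linarith
  set PA := ZA ∩ Ioo (s0 - 3) s0 with hPA
  set PC := ZC ∩ Ioo t0 (t0 + 3) with hPC
  have opA : IsOpen PA := oA.inter isOpen_Ioo
  have opC : IsOpen PC := oC.inter isOpen_Ioo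
  have mA : t0 ∈ PA := ⟨ht0, by linarith, hn1⟩
  have mC : s0 ∈ PC := ⟨hs0, hn1, hn2⟩
  have bA : BddBelow PA := ⟨s0 - 3, fun t ht => ht.2.1.le⟩
  have bA' : BddAbove PA := ⟨s0, fun t ht => ht.2.2.le⟩
  have bC : BddBelow PC := ⟨t0, fun t ht => ht.2.1.le⟩
  have bC' : BddAbove PC := ⟨t0 + 3, fun t ht => ht.2.2.le⟩
  have hts : ∀ t ∈ PA, ∀ s ∈ PC, t < s ∧ s < t + 3 := by
    intro t ht s hs
    have := mem_of_sn (pos t ht.1 s hs.1) (by linarith [ht.2.2, hs.2.1]) (by linarith [ht.2.1, hs.2.2])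
    exact ⟨by linarith [this.1], by linarith [this.2]⟩
  refine ⟨⟨sInf PA, sSup PA, sInf PC, sSup PC⟩, ⟨?_, ?_, ?_, ?_⟩, ?_, ?_, ?_, ?_, ?_, ?_⟩
  · exact (inf_lt opA bA mA).trans (lt_sup opA bA' mA)
  · exact csSup_le ⟨t0, mA⟩ fun t ht => le_csInf ⟨s0, mC⟩ fun s hs => (hts t ht s hs).1.le
  · exact (inf_lt opC bC mC).trans (lt_sup opC bC' mC)
  · have h1 : sSup PC - 3 ≤ sInf PA := le_csInf ⟨t0, mA⟩ fun t ht => by
      have : sSup PC ≤ t + 3 := csSup_le ⟨s0, mC⟩ fun s hs => (hts t ht s hs).2.le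
      linarith
    show sSup PC ≤ sInf PA + 3
    linarith
  · intro t ht
    obtain ⟨m, hm1, hm2⟩ := exists_int (pos t ht s0 hs0)
    have h1 : t - 6 * ((-m : ℤ) : ℝ) ∈ PA := ⟨iA t ht _, by push_cast; linarith, by push_cast; linarith⟩
    exact ⟨-m, inf_lt opA bA h1, lt_sup opA bA' h1⟩
  · intro s hs
    obtain ⟨m, hm1, hm2⟩ := exists_int (pos t0 ht0 s hs)
    have h1 : s - 6 * (m : ℝ) ∈ PC := ⟨iC s hs _, by linarith, by linarith⟩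
    exact ⟨m, inf_lt opC bC h1, lt_sup opC bC' h1⟩
  · intro x hx
    obtain ⟨t, ht, htx⟩ := exists_lt_of_csInf_lt ⟨t0, mA⟩ hx
    exact ⟨t, ht.1, inf_lt opA bA ht, htx, lt_sup opA bA' ht⟩
  · intro x hx
    obtain ⟨t, ht, htx⟩ := exists_lt_of_lt_csSup ⟨t0, mA⟩ hx
    exact ⟨t, ht.1, htx, lt_sup opA bA' ht, inf_lt opA bA ht⟩
  · intro x hx
    obtain ⟨t, ht, htx⟩ := exists_lt_of_csInf_lt ⟨s0, mC⟩ hx
    exact ⟨t, ht.1, inf_lt opC bC ht, htx, lt_sup opC bC' ht⟩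
  · intro x hx
    obtain ⟨t, ht, htx⟩ := exists_lt_of_lt_csSup ⟨s0, mC⟩ hx
    exact ⟨t, ht.1, htx, lt_sup opC bC' ht, inf_lt opC bC ht⟩

namespace Win

variable {ZA ZC : Set ℝ} {w : Wn} {φ : ℝ} (W : Win ZA ZC w)
include W

/-- an `A` direction less than a half turn behind -/
theorem backA {m r : ℤ} (hc : w.cod φ = 8 * m + r) (h0 : 0 ≤ r) (h4 : r ≤ 4) : ∃ t ∈ ZA, 0 < sn (φ - t) := by
  have O := W.ok
  have key : w.a0 + 6 * m < φ ∧ φ < w.a1 + 6 * m + 3 := by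
    obtain ⟨k, h | h | h | h⟩ := Wn.cases4 O φ
    · rcases (show k = 2 * m ∨ k = 2 * m + 1 by omega) with rfl | rfl
      · push_cast at h; exact ⟨by linarith [h.1.1], by linarith [h.1.2]⟩
      · push_cast at h; exact ⟨by linarith [h.1.1], by linarith [h.1.2]⟩
    · obtain rfl : k = 2 * m := by omega
      push_cast at h; exact ⟨by linarith [h.1.1, O.h1], by linarith [h.1.2, O.h1, O.h2, O.h3, O.h4]⟩
    · obtain rfl : k = 2 * m := by omega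
      push_cast at h; exact ⟨by linarith [h.1.1, O.h1, O.h2], by linarith [h.1.2, O.h1, O.h2, O.h3, O.h4]⟩
    · obtain rfl : k = 2 * m := by omega
      push_cast at h; exact ⟨by linarith [h.1.1, O.h1, O.h2, O.h3], by linarith [h.1.2, O.h1]⟩
  have e : ∀ t, sn (φ - t) = sn (φ - 6 * m - t) := by
    intro t; rw [show φ - 6 * (m : ℝ) - t = φ - t - 6 * m by ring, sn_int]
  rcases le_or_gt w.a1 (φ - 6 * m) with h5 | h5
  · obtain ⟨t, ht, h6, h7, h8⟩ := W.highA (φ - 6 * m - 3) (by linarith [key.2])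
    refine ⟨t, ht, ?_⟩
    rw [e]; exact sn_pos (by linarith) (by linarith)
  · obtain ⟨t, ht, h6, h7, h8⟩ := W.lowA (φ - 6 * m) (by linarith [key.1])
    refine ⟨t, ht, ?_⟩
    rw [e]; exact sn_pos (by linarith) (by linarith [O.h2, O.h3, O.h4])

/-- an `A` direction less than a half turn ahead -/
theorem aheadA {m r : ℤ} (hc : w.cod φ = 8 * m + r) (h0 : 4 ≤ r) (h4 : r ≤ 8) : ∃ t ∈ ZA, sn (φ - t) < 0 := by
  have h1 : w.cod (φ - 3) = 8 * m + (r - 4) := by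
    have := w.cod_add_three (φ - 3)
    rw [sub_add_cancel] at this
    omega
  obtain ⟨t, ht, h2⟩ := W.backA h1 (by omega) (by omega)
  refine ⟨t, ht, ?_⟩
  rw [show φ - 3 - t = φ - t - 3 by ring, sn_sub_three] at h2
  linarith

/-- a `C` direction less than a half turn behind -/
theorem backC {m r : ℤ} (hc : w.cod φ = 8 * m + r) (h0 : 2 ≤ r) (h4 : r ≤ 6) : ∃ t ∈ ZC, 0 < sn (φ - t) := by
  have O := W.ok
  have key : w.c0 + 6 * m < φ ∧ φ < w.c1 + 6 * m + 3 := by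
    obtain ⟨k, h | h | h | h⟩ := Wn.cases4 O φ
    · obtain rfl : k = 2 * m + 1 := by omega
      push_cast at h; exact ⟨by linarith [h.1.1, O.h1, O.h2, O.h3, O.h4], by linarith [h.1.2, O.h1, O.h2, O.h3]⟩
    · obtain rfl : k = 2 * m + 1 := by omega
      push_cast at h; exact ⟨by linarith [h.1.1, O.h1, O.h2, O.h3, O.h4], by linarith [h.1.2, O.h1, O.h2, O.h3]⟩
    · rcases (show k = 2 * m ∨ k = 2 * m + 1 by omega) with rfl | rfl
      · push_cast at h; exact ⟨by linarith [h.1.1], by linarith [h.1.2]⟩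
      · push_cast at h; exact ⟨by linarith [h.1.1], by linarith [h.1.2]⟩
    · obtain rfl : k = 2 * m := by omega
      push_cast at h; exact ⟨by linarith [h.1.1, O.h3], by linarith [h.1.2, O.h1, O.h2, O.h3]⟩
  have e : ∀ t, sn (φ - t) = sn (φ - 6 * m - t) := by
    intro t; rw [show φ - 6 * (m : ℝ) - t = φ - t - 6 * m by ring, sn_int]
  rcases le_or_gt w.c1 (φ - 6 * m) with h5 | h5
  · obtain ⟨t, ht, h6, h7, h8⟩ := W.highC (φ - 6 * m - 3) (by linarith [key.2])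
    refine ⟨t, ht, ?_⟩
    rw [e]; exact sn_pos (by linarith) (by linarith)
  · obtain ⟨t, ht, h6, h7, h8⟩ := W.lowC (φ - 6 * m) (by linarith [key.1])
    refine ⟨t, ht, ?_⟩
    rw [e]; exact sn_pos (by linarith) (by linarith [O.h1, O.h2, O.h4])

/-- a `C` direction less than a half turn ahead -/
theorem aheadC {m r : ℤ} (hc : w.cod φ = 8 * m + r) (h0 : 6 ≤ r) (h4 : r ≤ 10) : ∃ t ∈ ZC, sn (φ - t) < 0 := by
  have h1 : w.cod (φ - 3) = 8 * m + (r - 4) := by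
    have := w.cod_add_three (φ - 3)
    rw [sub_add_cancel] at this
    omega
  obtain ⟨t, ht, h2⟩ := W.backC h1 (by omega) (by omega)
  refine ⟨t, ht, ?_⟩
  rw [show φ - 3 - t = φ - t - 3 by ring, sn_sub_three] at h2
  linarith

theorem cod_of_A {t : ℝ} (ht : t ∈ ZA) : w.cod t % 8 = 0 := by
  obtain ⟨n, hn⟩ := W.inA t ht
  have h1 : w.cod t = 4 * (2 * n) := Wn.cod_A W.ok (by
    push_cast; exact ⟨by linarith [hn.1], by linarith [hn.2]⟩)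
  omega

theorem cod_of_C {t : ℝ} (ht : t ∈ ZC) : w.cod t % 8 = 2 := by
  obtain ⟨n, hn⟩ := W.inC t ht
  have h1 : w.cod t = 4 * (2 * n) + 2 := Wn.cod_C W.ok (by
    push_cast; exact ⟨by linarith [hn.1], by linarith [hn.2]⟩)
  omega

end Win

/-! ### the zones of a two-pair point -/

variable {U : Fin 6 → Set ℂ} {T : ℂ → Set (Fin 6)} {z : ℂ} {s t φ : ℝ} {A B C D : Fin 6} {w : Wn}

/-- orientation and windows of a two-pair point -/
structure Zn (U : Fin 6 → Set ℂ) (T : ℂ → Set (Fin 6)) (z : ℂ) (A B C D : Fin 6) (w : Wn) : Prop where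
  ori : Ori U T z A B C D
  win : Win (Zo U T z A B) (Zo U T z C D) w

/-- **Existence** -/
theorem exists_Zn (h : Irr U T) (hz : DPt T z A B C D) : ∃ w, Zn U T z A B C D w ∨ Zn U T z A B D C w := by
  rcases exists_ori h hz with O | O
  · obtain ⟨w, hw⟩ := exists_win zo_open zo_open (zo_nonempty h O.dpt) (zo_nonempty h O.dpt.swap)
      (fun t ht n => zo_int ht n) (fun t ht n => zo_int ht n) O.pos
    exact ⟨w, Or.inl ⟨O, hw⟩⟩
  · obtain ⟨w, hw⟩ := exists_win zo_open zo_open (zo_nonempty h O.dpt) (zo_nonempty h O.dpt.swap)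
      (fun t ht n => zo_int ht n) (fun t ht n => zo_int ht n) O.pos
    exact ⟨w, Or.inr ⟨O, hw⟩⟩

namespace Zn

variable (Z : Zn U T z A B C D w)
include Z

/-- **`A` only inside, `B` only outside** : codes 6, 7, 0, 1, 2 -/
theorem sdA_in (h : Irr U T) (hc : w.cod φ % 8 ≤ 2 ∨ 6 ≤ w.cod φ % 8) : Sd U z (pt z φ) A B := by
  have : ∃ m r : ℤ, w.cod φ = 8 * m + r ∧ 6 ≤ r ∧ r ≤ 10 := by
    rcases hc with hc | hc
    · exact ⟨w.cod φ / 8 - 1, w.cod φ % 8 + 8, by omega, by omega, by omega⟩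
    · exact ⟨w.cod φ / 8, w.cod φ % 8, by omega, by omega, by omega⟩
  obtain ⟨m, r, h1, h2, h3⟩ := this
  obtain ⟨s, hs, h4⟩ := Z.win.aheadC h1 h2 h3
  exact Z.ori.sdA h hs h4

/-- **`B` only inside, `A` only outside** : codes 2, 3, 4, 5, 6 -/
theorem sdA_out (h : Irr U T) (h2 : 2 ≤ w.cod φ % 8) (h6 : w.cod φ % 8 ≤ 6) : Sd U z (pt z φ) B A := by
  obtain ⟨s, hs, h4⟩ := Z.win.backC (φ := φ) (m := w.cod φ / 8) (r := w.cod φ % 8) (by omega) h2 h6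
  exact Z.ori.sdA' h hs h4

/-- **`C` only inside, `D` only outside** : codes 0, 1, 2, 3, 4 -/
theorem sdC_in (h : Irr U T) (h6 : w.cod φ % 8 ≤ 4) : Sd U z (pt z φ) C D := by
  obtain ⟨s, hs, h4⟩ := Z.win.backA (φ := φ) (m := w.cod φ / 8) (r := w.cod φ % 8) (by omega) (by omega) h6
  exact Z.ori.sdC h hs h4

/-- **`D` only inside, `C` only outside** : codes 4, 5, 6, 7, 0 -/
theorem sdC_out (h : Irr U T) (hc : w.cod φ % 8 = 0 ∨ 4 ≤ w.cod φ % 8) : Sd U z (pt z φ) D C := by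
  have : ∃ m r : ℤ, w.cod φ = 8 * m + r ∧ 4 ≤ r ∧ r ≤ 8 := by
    rcases hc with hc | hc
    · exact ⟨w.cod φ / 8 - 1, 8, by omega, by omega, by omega⟩
    · exact ⟨w.cod φ / 8, w.cod φ % 8, by omega, by omega, by omega⟩
  obtain ⟨m, r, h1, h2, h3⟩ := this
  obtain ⟨s, hs, h4⟩ := Z.win.aheadA h1 h2 h3
  exact Z.ori.sdC' h hs h4

/-- **exact `AB` directions have the codes 0 (`A` inside) and 4 (`B` inside)** -/
theorem exact_A (h : Irr U T) (hs : s ∈ XS T z {A, B}) : w.cod s % 8 = 0 ∨ w.cod s % 8 = 4 := by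
  rcases zo_of_XS h Z.ori.dpt hs with h1 | h1
  · exact Or.inl (Z.win.cod_of_A h1)
  · right
    have h2 := Z.win.cod_of_A h1
    rw [w.cod_add_three] at h2
    omega

/-- **exact `CD` directions have the codes 2 (`C` inside) and 6 (`D` inside)** -/
theorem exact_C (h : Irr U T) (hs : s ∈ XS T z {C, D}) : w.cod s % 8 = 2 ∨ w.cod s % 8 = 6 := by
  rcases zo_of_XS h Z.ori.dpt.swap hs with h1 | h1
  · exact Or.inl (Z.win.cod_of_C h1)
  · right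
    have h2 := Z.win.cod_of_C h1
    rw [w.cod_add_three] at h2
    omega

end Zn

end Vale.Agent.P032.H254
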