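import Vale.Agent.P032.H254.Tick
import Vale.Agent.P032.H556.Wp3
import Vale.Agent.P032.H892.ArcZ

/-!
# P032: wedge palettes of the exact letters of a two-pair point from the zone code, frame `Irr U T`

`Wg T z v` (556) : the colours with limit direction `v + 3/2` at `z`.

* `Zn.wg_A0` : an exact `AB` direction with code 0 (`A` inside): `Wg T z v = {C}`, `Wg T z (v + 3) = {D}`; `wg_A4` : code 4,
* `Zn.wg_C2` : an exact `CD` direction with code 2 (`C` inside): `Wg T z v = {B}`, `Wg T z (v + 3) = {A}`; `wg_C6` : code 6.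
-/

open Set Filter Topology Metric

noncomputable section

namespace Vale.Agent.P032.H254

open Vale.Agent.P032.Six Vale.Agent.P032.H892 Vale.Agent.P032.H913 Vale.Agent.P032.S5.H767 Vale.Agent.P032.H357
  Vale.Agent.P032.H556 Vale.Agent.P032.H61

variable {U : Fin 6 → Set ℂ} {T : ℂ → Set (Fin 6)} {z : ℂ} {s v φ : ℝ} {A B C D i j : Fin 6} {w : Wn}

/-- a solid wedge has one colour in its directions -/
theorem wg_of_wdg {α β θ : ℝ} (W : Wdg T z α β i) (hθ : θ + 3 / 2 ∈ Ioo α β) : Wg T z θ = {i} := by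
  have h1 := W _ hθ
  have h0 : ∃ᶠ p : ℝ × ℝ in 𝓝 ((0 : ℝ), θ + 3 / 2), 0 < p.1 :=
    (tendsto_ray (θ + 3 / 2)).frequently (by
      have : ∀ᶠ r : ℝ in 𝓝[>] 0, 0 < (r, θ + 3 / 2).1 := by
        filter_upwards [self_mem_nhdsWithin] with r hr using hr
      exact this.frequently)
  ext q
  rw [mem_singleton_iff]
  constructor
  · intro hq
    obtain ⟨p, hp, h2⟩ := (Frequently.and_eventually
      (show ∃ᶠ p in 𝓝 ((0 : ℝ), θ + 3 / 2), p ∈ H357.PS (Sq T q) z from hq) h1).exists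
    have h3 : T (po z p) = {q} := hp.2
    rw [h2 hp.1] at h3
    exact (singleton_injective h3).symm
  · rintro rfl
    exact (h0.and_eventually h1).mono fun p hp => ⟨hp.1, hp.2 hp.1⟩

theorem I_dir (s : ℝ) : Complex.I * dir s = dir (s + 3 / 2) := (dir_quarter s).symm

theorem neg_I_dir (s : ℝ) : -(Complex.I * dir s) = dir (s + 9 / 2) := by
  rw [I_dir, ← dir_three]
  congr 1; ring

/-- the two wedges at an exact `CD` direction -/
theorem wg_cases (h : Irr U T) (hz : DPt T z A B C D) (hv : v ∈ XS T z {C, D}) :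
    (Wg T z v = {A} ∧ Wg T z (v + 3) = {B} ∧ PR U z A B v) ∨
      (Wg T z v = {B} ∧ Wg T z (v + 3) = {A} ∧ PR U z B A v) := by
  obtain ⟨ε, hε, hb⟩ := Metric.isOpen_iff.1 (XS_open (T := T) (z := z) {C, D}) v hv
  have hJ : ∀ s ∈ Ioo (v - ε) (v + ε), T (pt z s) = {C, D} := by
    intro s hs
    exact XS_mem (hb (by rw [mem_ball, Real.dist_eq, abs_lt]; constructor <;> linarith [hs.1, hs.2]))
  have m1 : v + 3 / 2 ∈ Ioo (v - ε + 3 / 2) (v + ε + 3 / 2) := ⟨by linarith, by linarith⟩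
  have m2 : v + 3 + 3 / 2 ∈ Ioo (v - ε + 9 / 2) (v + ε + 9 / 2) := ⟨by linarith, by linarith⟩
  have m2' : v + 9 / 2 ∈ Ioo (v - ε + 9 / 2) (v + ε + 9 / 2) := ⟨by linarith, by linarith⟩
  rcases d0_wedge h hz (by linarith) hJ with ⟨W1, W2⟩ | ⟨W1, W2⟩
  · left
    refine ⟨wg_of_wdg W1 m1, wg_of_wdg W2 m2, ?_, ?_⟩
    · rw [I_dir]; exact W1.ray h m1
    · rw [neg_I_dir]; exact W2.ray h m2'
  · right
    refine ⟨wg_of_wdg W1 m1, wg_of_wdg W2 m2, ?_, ?_⟩
    · rw [I_dir]; exact W1.ray h m1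
    · rw [neg_I_dir]; exact W2.ray h m2'

theorem PR.shift (r : PR U z A B (s + 3)) : PR U z B A s := by
  refine ⟨?_, ?_⟩
  · have := r.2; rwa [dir_add_three, mul_neg, neg_neg] at this
  · have := r.1; rwa [dir_add_three, mul_neg] at this

theorem PR.shift' (r : PR U z A B s) : PR U z B A (s + 3) := by
  refine ⟨?_, ?_⟩
  · have := r.2; rwa [← mul_neg, ← dir_add_three] at this
  · rw [dir_add_three, mul_neg, neg_neg]; exact r.1

namespace Zn

variable (Z : Zn U T z A B C D w)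
include Z

/-- an oriented `CD` direction has `B` on the ray `s + 3/2` -/
theorem pr_C (h : Irr U T) (hs : s ∈ Zo U T z C D) (r : PR U z A B s) : False := by
  obtain ⟨t0, ht0⟩ := zo_nonempty h Z.ori.dpt
  have h1 := key1 h ht0 r
  have h2 := Z.ori.pos t0 ht0 s hs
  rw [sn_sub] at h2; linarith

/-- an oriented `AB` direction has `C` on the ray `s + 3/2` -/
theorem pr_A (h : Irr U T) (hs : s ∈ Zo U T z A B) (r : PR U z D C s) : False := by
  obtain ⟨t0, ht0⟩ := zo_nonempty h Z.ori.dpt.swap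
  have h1 := key1' h ht0 r
  have h2 := Z.ori.pos s hs t0 ht0
  linarith

theorem zo_A (h : Irr U T) (hv : v ∈ XS T z {A, B}) (hc : w.cod v % 8 ≠ 4) : v ∈ Zo U T z A B := by
  rcases zo_of_XS h Z.ori.dpt hv with h1 | h1
  · exact h1
  · have h2 := Z.win.cod_of_A h1
    rw [w.cod_add_three] at h2
    omega

theorem zo_A' (h : Irr U T) (hv : v ∈ XS T z {A, B}) (hc : w.cod v % 8 ≠ 0) : v + 3 ∈ Zo U T z A B := by
  rcases zo_of_XS h Z.ori.dpt hv with h1 | h1
  · exact absurd (Z.win.cod_of_A h1) hc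
  · exact h1

theorem zo_C (h : Irr U T) (hv : v ∈ XS T z {C, D}) (hc : w.cod v % 8 ≠ 6) : v ∈ Zo U T z C D := by
  rcases zo_of_XS h Z.ori.dpt.swap hv with h1 | h1
  · exact h1
  · have h2 := Z.win.cod_of_C h1
    rw [w.cod_add_three] at h2
    omega

theorem zo_C' (h : Irr U T) (hv : v ∈ XS T z {C, D}) (hc : w.cod v % 8 ≠ 2) : v + 3 ∈ Zo U T z C D := by
  rcases zo_of_XS h Z.ori.dpt.swap hv with h1 | h1
  · exact absurd (Z.win.cod_of_C h1) hc
  · exact h1

/-- code 0 -/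
theorem wg_A0 (h : Irr U T) (hv : v ∈ XS T z {A, B}) (hc : w.cod v % 8 = 0) :
    Wg T z v = {C} ∧ Wg T z (v + 3) = {D} := by
  have hs := Z.zo_A h hv (by omega)
  rcases wg_cases h Z.ori.dpt.swap hv with h1 | h1
  · exact ⟨h1.1, h1.2.1⟩
  · exact absurd h1.2.2 (Z.pr_A h hs)

/-- code 4 -/
theorem wg_A4 (h : Irr U T) (hv : v ∈ XS T z {A, B}) (hc : w.cod v % 8 = 4) :
    Wg T z v = {D} ∧ Wg T z (v + 3) = {C} := by
  have hs := Z.zo_A' h hv (by omega)
  rcases wg_cases h Z.ori.dpt.swap hv with h1 | h1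
  · exact absurd h1.2.2.shift' (Z.pr_A h hs)
  · exact ⟨h1.1, h1.2.1⟩

/-- code 2 -/
theorem wg_C2 (h : Irr U T) (hv : v ∈ XS T z {C, D}) (hc : w.cod v % 8 = 2) :
    Wg T z v = {B} ∧ Wg T z (v + 3) = {A} := by
  have hs := Z.zo_C h hv (by omega)
  rcases wg_cases h Z.ori.dpt hv with h1 | h1
  · exact absurd h1.2.2 (Z.pr_C h hs)
  · exact ⟨h1.1, h1.2.1⟩

/-- code 6 -/
theorem wg_C6 (h : Irr U T) (hv : v ∈ XS T z {C, D}) (hc : w.cod v % 8 = 6) :
    Wg T z v = {A} ∧ Wg T z (v + 3) = {B} := by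
  have hs := Z.zo_C' h hv (by omega)
  rcases wg_cases h Z.ori.dpt hv with h1 | h1
  · exact ⟨h1.1, h1.2.1⟩
  · exact absurd h1.2.2.shift' (Z.pr_C h hs)

end Zn

end Vale.Agent.P032.H254
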