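import Vale.Agent.P032.H515.GenS
import Vale.Agent.P032.H556.Wp3

/-!
# P032: words and wedge palettes of all points from states of the wild machine

The forms of `H515.exists_wp_states`, `H515.exists_wp_all`, `H515.exists_sw_all` with the wedge palettes `H556.Wm`.
-/

open Set Filter Topology Metric

noncomputable section

namespace Vale.Agent.P032.H254

open Vale.Agent.P032.Six Vale.Agent.P032.Words Vale.Agent.P032.S5.H767 Vale.Agent.P032.H892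
  Vale.Agent.P032.H913 Vale.Agent.P032.H357 Vale.Agent.P032.H61 Vale.Agent.P032.H556 Vale.Agent.P032.H515

variable {U : Fin 6 → Set ℂ} {T : ℂ → Set (Fin 6)}

/-- wedge palettes are locally constant at almost all times -/
theorem wg_DO {M : Type*} [Finite M] (T : ℂ → Set (Fin 6)) (X : M → ℂ) (off : M → ℝ) :
    ∀ᶠ v in DO, ∀ i, ∀ᶠ w in 𝓝 (v + off i), Wg T (X i) w = Wg T (X i) (v + off i) :=
  eventually_all.2 fun i => usc_DO' (usc_wg T (X i)) (off i)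

section states
variable {M : Type*} [Finite M] {X : M → ℂ} {off : M → ℝ} {b : ℝ} {σ : M → Set (Fin 6) × Set (Fin 6)}

theorem wg_rst (hσ : σ ∈ RSt DO (IPs U T X off) b) : ∃ m : M → Set (Fin 6), ∃ᶠ τ in 𝓝[>] (0 : ℝ),
    (∀ i, IP U T (X i) (b + off i + τ) (σ i).1 (σ i).2) ∧ ∀ i, ∀ᶠ w in 𝓝 (b + off i + τ), Wg T (X i) w = m i := by
  have hσ : ∃ᶠ v in 𝓝[>] b ⊓ DO, IPs U T X off v σ := hσ
  have h1 : ∃ᶠ v in 𝓝[>] b ⊓ DO, ∃ m : M → Set (Fin 6), IPs U T X off v σ ∧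
      ∀ i, ∀ᶠ w in 𝓝 (v + off i), Wg T (X i) w = m i :=
    (hσ.and_eventually ((wg_DO T X off).filter_mono inf_le_right)).mono fun v hv => ⟨_, hv.1, hv.2⟩
  obtain ⟨m, hm⟩ := H61.freq_exists h1
  refine ⟨m, ?_⟩
  have h2 : ∃ᶠ v in 𝓝[>] b, IPs U T X off v σ ∧ ∀ i, ∀ᶠ w in 𝓝 (v + off i), Wg T (X i) w = m i :=
    hm.filter_mono inf_le_left
  have h3 : ∃ᶠ τ in 𝓝[>] (0 : ℝ), IPs U T X off (b + τ) σ ∧
      ∀ i, ∀ᶠ w in 𝓝 (b + τ + off i), Wg T (X i) w = m i := by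
    refine to_R'.frequently (h2.mono fun v hv => ?_)
    rwa [add_sub_cancel]
  refine h3.mono fun τ hτ => ⟨fun i => ?_, fun i => ?_⟩
  · have := hτ.1 i
    rwa [show b + τ + off i = b + off i + τ by ring] at this
  · have := hτ.2 i
    rwa [show b + τ + off i = b + off i + τ by ring] at this

theorem wg_lst (hσ : σ ∈ LSt DO (IPs U T X off) b) : ∃ m : M → Set (Fin 6), ∃ᶠ τ in 𝓝[<] (0 : ℝ),
    (∀ i, IP U T (X i) (b + off i + τ) (σ i).1 (σ i).2) ∧ ∀ i, ∀ᶠ w in 𝓝 (b + off i + τ), Wg T (X i) w = m i := by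
  have hσ : ∃ᶠ v in 𝓝[<] b ⊓ DO, IPs U T X off v σ := hσ
  have h1 : ∃ᶠ v in 𝓝[<] b ⊓ DO, ∃ m : M → Set (Fin 6), IPs U T X off v σ ∧
      ∀ i, ∀ᶠ w in 𝓝 (v + off i), Wg T (X i) w = m i :=
    (hσ.and_eventually ((wg_DO T X off).filter_mono inf_le_right)).mono fun v hv => ⟨_, hv.1, hv.2⟩
  obtain ⟨m, hm⟩ := H61.freq_exists h1
  refine ⟨m, ?_⟩
  have h2 : ∃ᶠ v in 𝓝[<] b, IPs U T X off v σ ∧ ∀ i, ∀ᶠ w in 𝓝 (v + off i), Wg T (X i) w = m i :=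
    hm.filter_mono inf_le_left
  have h3 : ∃ᶠ τ in 𝓝[<] (0 : ℝ), IPs U T X off (b + τ) σ ∧
      ∀ i, ∀ᶠ w in 𝓝 (b + τ + off i), Wg T (X i) w = m i := by
    refine to_L'.frequently (h2.mono fun v hv => ?_)
    rwa [add_sub_cancel]
  refine h3.mono fun τ hτ => ⟨fun i => ?_, fun i => ?_⟩
  · have := hτ.1 i
    rwa [show b + τ + off i = b + off i + τ by ring] at this
  · have := hτ.2 i
    rwa [show b + τ + off i = b + off i + τ by ring] at this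

end states

section
variable {J M M2 : Type*} {K : ℕ} {a : ℕ → ℝ} {Y : J → ℂ} {X : M → ℂ} {off : M → ℝ} {X2 : M2 → ℂ} {off2 : M2 → ℝ}
  {b b2 : ℝ} {s : M → Set (Fin 6) × Set (Fin 6)} {s2 : M2 → Set (Fin 6) × Set (Fin 6)}

/-- the wedges at all ticks -/
theorem ext_wg (A : Tick K a) (hK : 0 < 6 * K) {m : M ⊕ (J × Fin (6 * K)) → Set (Fin 6)} {τ : ℝ}
    (hI : ∀ i, ∀ᶠ w in 𝓝 (b + eO off a b J K i + τ), Wg T (eX Y X K i) w = m i) (j : J) (t : ℕ) :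
    ∀ᶠ v in 𝓝 τ, Wg T (Y j) (a t + v) = m (Sum.inr (j, ⟨t % (6 * K), Nat.mod_lt _ hK⟩)) := by
  have h1 := hI (Sum.inr (j, ⟨t % (6 * K), Nat.mod_lt _ hK⟩))
  have h2 : ∀ᶠ w in 𝓝 (a (t % (6 * K)) + τ), Wg T (Y j) w = m (Sum.inr (j, ⟨t % (6 * K), Nat.mod_lt _ hK⟩)) := by
    have e : b + eO off a b J K (Sum.inr (j, ⟨t % (6 * K), Nat.mod_lt _ hK⟩)) + τ = a (t % (6 * K)) + τ := by
      show b + (a (t % (6 * K)) - b) + τ = _
      ring
    rw [e] at h1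
    exact h1
  have h3 : Tendsto (fun v : ℝ => a (t % (6 * K)) + v) (𝓝 τ) (𝓝 (a (t % (6 * K)) + τ)) := by
    have : Continuous fun v : ℝ => a (t % (6 * K)) + v := by fun_prop
    exact this.tendsto τ
  filter_upwards [h3.eventually h2] with v hv
  rw [← hv, tick_mul A t, ← wg_per T (Y j) (a (t % (6 * K)) + v) ((t / (6 * K) : ℕ) : ℤ)]
  congr 1
  ring

/-- **Words and wedges of all points from a right state and a left state.** -/
theorem exists_wm_states (h : Irr U T) [Finite J] [Finite M] [Finite M2] (A : Tick K a) (Y : J → ℂ)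
    (hR : s ∈ RSt DO (IPs U T X off) b) (hL : s2 ∈ LSt DO (IPs U T X2 off2) b2) :
    ∃ W Mw, Wm U T K a Y W Mw ∧
      (∀ i j t, Y j = X i → (∃ n : ℤ, a t = b + off i + 6 * n) → W j t 1 0 = (s i).1 ∧ W j t 1 1 = (s i).2) ∧
      ∀ i j t, Y j = X2 i → (∃ n : ℤ, a t = b2 + off2 i + 6 * n) → W j t 0 0 = (s2 i).1 ∧ W j t 0 1 = (s2 i).2 := by
  have hK : 0 < 6 * K := by have := A.pos; omega
  obtain ⟨σ, hσ, hσs⟩ := ext_RW h (e := (Sum.inl : M → M ⊕ (J × Fin (6 * K)))) (X' := eX Y X K)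
    (off' := eO off a b J K) (fun i => ⟨rfl, 0, by show off i = _; simp⟩) hR
  obtain ⟨ρ, hρ, hρs⟩ := ext_LW h (e := (Sum.inl : M2 → M2 ⊕ (J × Fin (6 * K)))) (X' := eX Y X2 K)
    (off' := eO off2 a b2 J K) (fun i => ⟨rfl, 0, by show off2 i = _; simp⟩) hL
  obtain ⟨m1, FR⟩ := wg_rst hσ
  obtain ⟨m2, FL⟩ := wg_lst hρ
  refine ⟨fun j t sd io => if sd = 1 then
      (if io = 0 then (σ (Sum.inr (j, ⟨t % (6 * K), Nat.mod_lt _ hK⟩))).1
        else (σ (Sum.inr (j, ⟨t % (6 * K), Nat.mod_lt _ hK⟩))).2)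
      else (if io = 0 then (ρ (Sum.inr (j, ⟨t % (6 * K), Nat.mod_lt _ hK⟩))).1
        else (ρ (Sum.inr (j, ⟨t % (6 * K), Nat.mod_lt _ hK⟩))).2),
    fun j t sd => if sd = 1 then m1 (Sum.inr (j, ⟨t % (6 * K), Nat.mod_lt _ hK⟩))
      else m2 (Sum.inr (j, ⟨t % (6 * K), Nat.mod_lt _ hK⟩)), ⟨fun sd => ?_, fun j t sd io => ?_, fun j t sd => ?_⟩,
    ?_, ?_⟩
  · by_cases hs : sd = 1
    · subst hs
      rw [sdf_one]
      refine FR.mono fun τ hτ => ⟨fun i => ?_, fun i => ?_⟩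
      · simpa using ext_tick A hK hτ.1 i.1 i.2
      · simpa using ext_wg A hK hτ.2 i.1 i.2
    · rw [sdf_ne hs]
      refine FL.mono fun τ hτ => ⟨fun i => ?_, fun i => ?_⟩
      · simpa [hs] using ext_tick A hK hτ.1 i.1 i.2
      · simpa [hs] using ext_wg A hK hτ.2 i.1 i.2
  · have e : t % (6 * K) % (6 * K) = t % (6 * K) := Nat.mod_mod _ _
    simp only [e]
  · have e : t % (6 * K) % (6 * K) = t % (6 * K) := Nat.mod_mod _ _
    simp only [e]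
  · rintro i j t hY ⟨n, hn⟩
    obtain ⟨τ, hτ⟩ := FR.exists
    have h1 := ext_old A hK hτ.1 hσs hY hn
    simp [h1]
  · rintro i j t hY ⟨n, hn⟩
    obtain ⟨τ, hτ⟩ := FL.exists
    have h1 := ext_old A hK hτ.1 hρs hY hn
    simp [h1]

end

section four
variable {C J : Type*} {Zc : C → ℂ} {Y : J → ℂ} {e : J → Option C} {u1 u : ℝ}

/-- **Words and wedge palettes of all points from four states.**  Class 0 has the words `W 0`, class 1 the words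
`W 1`. -/
theorem exists_wm_all (h : Irr U T) [Finite C] [Finite J] (he : ∀ j c, e j = some c → Y j = Zc c)
    (hu : u ∈ Ioo u1 (u1 + 1)) {s0 s1 L R : C × Fin 6 → Set (Fin 6) × Set (Fin 6)}
    (h0 : s0 ∈ RSt DO (IPs U T (nX Zc) nO) u1) (h1 : s1 ∈ LSt DO (IPs U T (nX Zc) nO) (u1 + 1))
    (hL : L ∈ LSt DO (IPs U T (nX Zc) nO) u) (hR : R ∈ RSt DO (IPs U T (nX Zc) nO) u) :
    ∃ (W : ℕ → J → ℕ → ℕ → ℕ → Set (Fin 6)) (Mw : ℕ → J → ℕ → ℕ → Set (Fin 6)) (w : ℕ → J → ℕ → ℕ → ℕ → Fin 6),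
      (∀ r, Wm U T 2 (t2 u1 u) Y (W r) (Mw r)) ∧ (∀ r, Sw U T 2 (t2 u1 u) Y (W r) (w r)) ∧
      ∀ j c, e j = some c → ∀ m : ℕ,
        ((W 0 j (2 * m) 1 0 = (s0 (c, f6 m)).1 ∧ W 0 j (2 * m) 1 1 = (s0 (c, f6 m)).2) ∧
        (W 0 j (2 * m) 0 0 = (s1 (c, f6 (m + 5))).1 ∧ W 0 j (2 * m) 0 1 = (s1 (c, f6 (m + 5))).2) ∧
        (W 1 j (2 * m + 1) 1 0 = (R (c, f6 m)).1 ∧ W 1 j (2 * m + 1) 1 1 = (R (c, f6 m)).2) ∧
        (W 1 j (2 * m + 1) 0 0 = (L (c, f6 m)).1 ∧ W 1 j (2 * m + 1) 0 1 = (L (c, f6 m)).2)) ∧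
        (w 0 j (2 * m) 1 0 = (H515.sg U T (nX Zc) s0 (c, f6 m)).1 ∧
          w 0 j (2 * m) 1 1 = (H515.sg U T (nX Zc) s0 (c, f6 m)).2) ∧
        (w 0 j (2 * m) 0 0 = (H515.sg U T (nX Zc) s1 (c, f6 (m + 5))).1 ∧
          w 0 j (2 * m) 0 1 = (H515.sg U T (nX Zc) s1 (c, f6 (m + 5))).2) ∧
        (w 1 j (2 * m + 1) 1 0 = (H515.sg U T (nX Zc) R (c, f6 m)).1 ∧
          w 1 j (2 * m + 1) 1 1 = (H515.sg U T (nX Zc) R (c, f6 m)).2) ∧
        (w 1 j (2 * m + 1) 0 0 = (H515.sg U T (nX Zc) L (c, f6 m)).1 ∧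
          w 1 j (2 * m + 1) 0 1 = (H515.sg U T (nX Zc) L (c, f6 m)).2) := by
  obtain ⟨W0, N0, D0, a0, b0⟩ := exists_wm_states h (tick_t2 hu) Y h0 h1
  obtain ⟨W1, N1, D1, a1, b1⟩ := exists_wm_states h (tick_t2 hu) Y hR hL
  have D : ∀ r : ℕ, Wm U T 2 (t2 u1 u) Y (if r = 0 then W0 else W1) (if r = 0 then N0 else N1) := fun r => by
    by_cases hr : r = 0
    · simp only [hr, if_true]; exact D0
    · simp only [if_neg hr]; exact D1
  refine ⟨fun r => if r = 0 then W0 else W1, fun r => if r = 0 then N0 else N1,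
    fun r => pw U T Y (if r = 0 then W0 else W1), D, fun r => sw_pw (D r).wp h, fun j c hj m => ?_⟩
  have hY : Y j = nX Zc (c, f6 m) := he j c hj
  have hY' : Y j = nX Zc (c, f6 (m + 5)) := he j c hj
  have hY0 : Y j = Zc c := he j c hj
  have k1 := a0 (c, f6 m) j _ hY (even_R c m)
  have k2 := b0 (c, f6 (m + 5)) j _ hY' (even_L c m)
  have k3 := a1 (c, f6 m) j _ hY (odd_U c m)
  have k4 := b1 (c, f6 m) j _ hY (odd_U c m)
  refine ⟨⟨k1, k2, k3, k4⟩, ?_⟩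
  simp only [pw, H515.sg, nX, k1, k2, k3, k4, hY0, if_true, if_neg (show ¬ (1 : ℕ) = 0 by norm_num), and_self]

end four

end Vale.Agent.P032.H254
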