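import Vale.Agent.P032.H254.GenG
import Vale.Agent.P032.H254.DZ

/-!
# P032: the clauses of the zones of a two-pair centre, by code

`BitZ M Z` : `M.B 0 (3 t + k) 6 c` = the zone code before (`k = 0`), at (`k = 1`), after (`k = 2`) the direction `t` is `c`;
`M.B 0 i 7 n` (`1 ≤ n`) = at least `n` steps from the position `0` to the position `i`; `M.B 0 255 7 0` = `E`.
`gZ K NP NW TB n` : the clause of the code `n`, sub kind `fx`; `gZ_ho` : it holds in every model with the rules `DZ`.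
-/

namespace Vale.Agent.P032.H254

open Vale.Agent.P032.H820.K (df ad hcell gk gt nbf En mp ps ng trv cd lb lb_iff ad_lt fx fa fb fc fd fe)
open Vale.Agent.P032.H240.W

/-- the bits of the zones -/
structure BitZ {K NP NW : ℕ} {nb : ℕ → ℕ → ℕ} (M : MdW K NP NW nb) (Z : DZ M) : Prop where
  bz : ∀ {t k c}, t < 6 * K → k < 3 → c < 8 → (M.B 0 (3 * t + k) 6 c ↔ Z.Zc t k = c)
  ba : ∀ {i n}, i ≤ 18 * K → 1 ≤ n → n < 6 → (M.B 0 i 7 n ↔ n ≤ Z.Za i)
  be : M.B 0 255 7 0 ↔ Z.E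

/-- zone atom -/
def zA (t k c : ℕ) : ℕ := En 14 0 (Nat.add (Nat.mul 3 t) k) 6 c

/-- step atom -/
def sA (i n : ℕ) : ℕ := En 14 0 i 7 n

/-- orientation atom -/
def eA : ℕ := En 14 0 255 7 0

/-- the orientation literal in a clause: `b = 0`: no literal, `1`: under `¬ E`, else: under `E` -/
def eL (b : ℕ) (r : List ℕ) : List ℕ := bif Nat.beq b 0 then r else bif Nat.beq b 1 then ps eA :: r else ng eA :: r

/-- codes of the first, second, third, fourth kind of rules -/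
def cC (m c : ℕ) : Bool :=
  bif Nat.beq m 0 then Nat.ble c 2 || Nat.ble 6 c else
  bif Nat.beq m 1 then Nat.ble 2 c && Nat.ble c 6 else
  bif Nat.ble m 3 then Nat.ble c 4 else Nat.beq c 0 || Nat.ble 4 c

/-- the colour which is only inside in the rule `m` -/
def cI (m : ℕ) : ℕ := bif Nat.beq m 0 then 0 else bif Nat.beq m 1 then 1 else bif Nat.beq m 2 then 2 else
  bif Nat.beq m 3 then 3 else bif Nat.beq m 4 then 3 else 2

/-- the colour which is only outside in the rule `m` -/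
def cO (m : ℕ) : ℕ := bif Nat.beq m 0 then 1 else bif Nat.beq m 1 then 0 else bif Nat.beq m 2 then 3 else
  bif Nat.beq m 3 then 2 else bif Nat.beq m 4 then 2 else 3

/-- the orientation of the rule `m` -/
def cE (m : ℕ) : ℕ := bif Nat.ble m 1 then 0 else bif Nat.beq (Nat.mod m 2) 0 then 1 else 2

def z0 (K NP NW TB t k : ℕ) : List ℕ := cd (lb t (Nat.mul 6 K) && lb k 3) (mp (fun c => ps (zA t k c)) 8 [])

def z1 (K NP NW TB t k c c' : ℕ) : List ℕ :=
  cd (lb t (Nat.mul 6 K) && lb k 3 && lb c 8 && lb c' 8 && !(Nat.beq c c')) [ng (zA t k c), ng (zA t k c')]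

def z2 (K NP NW TB t k c : ℕ) : List ℕ :=
  cd (lb t (Nat.mul 6 K) && lb k 3 && lb c 8)
    [ng (zA t k c), ps (zA (ad K t (Nat.mul 3 K)) k (Nat.mod (Nat.add c 4) 8))]

def z3 (K NP NW TB t c b : ℕ) : List ℕ :=
  cd (lb t (Nat.mul 6 K) && lb c 8 && Nat.beq (Nat.mod c 2) 0) [ng (zA t 1 c), ps (zA t (bif Nat.beq b 0 then 0 else 2) c)]

def z4 (K NP NW TB i n b : ℕ) : List ℕ :=
  cd (lb i (Nat.mul 18 K) && lb 0 n && lb n 5)
    (bif Nat.beq b 0 then [ng (sA 0 n)] else bif Nat.beq b 1 then [ps (sA (Nat.mul 9 K) n)] else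
      bif Nat.beq b 2 then [ng (sA i (Nat.succ n)), ps (sA i n)] else [ng (sA i n), ps (sA (Nat.succ i) n)])

/-- the code from the number of steps -/
def z5 (K NP NW TB t k c n : ℕ) : List ℕ :=
  cd (lb t (Nat.mul 6 K) && lb k 3 && lb c 8 && lb n 5) (ng (zA 0 0 c) ::
    bif Nat.beq n 0 then [ps (sA (Nat.add (Nat.mul 3 t) k) 1), ps (zA t k c)] else
      [ng (sA (Nat.add (Nat.mul 3 t) k) n), ps (sA (Nat.add (Nat.mul 3 t) k) (Nat.succ n)),
        ps (zA t k (Nat.mod (Nat.add c n) 8))])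

/-- letters -/
def z6 (K NP NW TB t sd c m b : ℕ) : List ℕ :=
  cd (lb t (Nat.mul 6 K) && lb sd 2 && lb c 8 && lb m 6 && cC m c) (ng (zA t (Nat.mul 2 sd) c) ::
    eL (cE m) [ng (bif Nat.beq b 0 then tA 0 t sd 1 (cI m) else tA 0 t sd 0 (cO m))])

/-- the neighbour -/
def z7 (K NP NW TB t c m i : ℕ) : List ℕ :=
  cd (lb t (Nat.mul 6 K) && lb (nbf K TB 0 t) NP && lb c 8 && lb m 6 && lb i 4 && cC m c) (ng (zA t 1 c) ::
    eL (cE m) [ng (tgt K (nbf K TB 0 t) t (bif Nat.beq i 3 then cO m else cI m) i)])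

/-- absent colours -/
def z8 (K NP NW TB t c q : ℕ) : List ℕ :=
  cd (lb t (Nat.mul 6 K) && lb (nbf K TB 0 t) NP && lb c 8 && lb q 4 && Nat.beq (Nat.mod c 4) (bif lb q 2 then 2 else 0))
    [ng (zA t 1 c), ng (En 5 (nbf K TB 0 t) 0 0 q)]

/-- exact letters -/
def z9 (K NP NW TB t sd b : ℕ) : List ℕ :=
  cd (lb t (Nat.mul 6 K) && lb sd 2) (ps (uA 0 t sd 4) :: ps (uA 0 t sd 5) ::
    bif Nat.beq b 0 then [ps (uA 0 t sd 0), ps (uA 0 t sd 2)] else
    bif Nat.beq b 1 then [ng (uA 0 t sd 0), ps (uA 0 t sd 1)] else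
    bif Nat.beq b 2 then [ng (uA 0 t sd 1), ps (uA 0 t sd 0)] else
    bif Nat.beq b 3 then [ng (uA 0 t sd 2), ps (uA 0 t sd 3)] else
    bif Nat.beq b 4 then [ng (uA 0 t sd 3), ps (uA 0 t sd 2)] else
    bif Nat.beq b 5 then [ng (uA 0 t sd 0), ng (uA 0 t sd 2)] else
    bif Nat.beq b 6 then [ng (uA 0 t sd 0), ps (zA t (Nat.mul 2 sd) 0), ps (zA t (Nat.mul 2 sd) 4)] else
      [ng (uA 0 t sd 2), ps (zA t (Nat.mul 2 sd) 2), ps (zA t (Nat.mul 2 sd) 6)])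

/-- the wedge colour at `+90` (`b = 0`) / at `-90` of an exact letter in the zone `c`, in the orientation `e` -/
def wc (c e b : ℕ) : ℕ :=
  bif Nat.beq c 2 then (bif Nat.beq b 0 then 1 else 0) else
  bif Nat.beq c 6 then (bif Nat.beq b 0 then 0 else 1) else
    bif Nat.beq (Nat.mod (Nat.add (Nat.add (Nat.div c 4) e) b) 2) 1 then 2 else 3

/-- wedges of exact letters -/
def z10 (K NP NW TB t sd c e b q : ℕ) : List ℕ :=
  cd (lb t (Nat.mul 6 K) && lb sd 2 && lb c 8 && Nat.beq (Nat.mod c 2) 0 && lb e 3 && lb 0 e && lb b 2 && lb q 6)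
    (ps (uA 0 t sd 4) :: ps (uA 0 t sd 5) :: ng (uA 0 t sd (bif Nat.beq (Nat.mod c 4) 0 then 0 else 2)) ::
      ng (zA t (Nat.mul 2 sd) c) :: eL e [bif Nat.beq q (wc c e b) then ps (mA 0 (op K t b) sd q) else
        ng (mA 0 (op K t b) sd q)])

/-- the centre -/
def z11 (K NP NW TB q : ℕ) : List ℕ :=
  cd (lb q 7) [bif Nat.beq q 6 then ps (En 6 0 0 0 0) else bif lb q 4 then ps (En 4 0 0 0 q) else ng (En 4 0 0 0 q)]

/-- the clause of a code -/
def gZ (K NP NW TB n : ℕ) : List ℕ :=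
  cd (Nat.ble K 14) (
  bif Nat.beq (fx n) 6 then z6 K NP NW TB (fa n) (fb n) (fc n) (fd n) (fe n) else
  bif Nat.beq (fx n) 7 then z7 K NP NW TB (fa n) (fb n) (fc n) (fd n) else
  bif Nat.beq (fx n) 10 then z10 K NP NW TB (fa n) (fb n) (fc n) (Nat.div (fd n) 8) (Nat.mod (fd n) 8) (fe n) else
  bif Nat.beq (fx n) 9 then z9 K NP NW TB (fa n) (fb n) (fc n) else
  bif Nat.beq (fx n) 8 then z8 K NP NW TB (fa n) (fb n) (fc n) else
  bif Nat.beq (fx n) 0 then z0 K NP NW TB (fa n) (fb n) else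
  bif Nat.beq (fx n) 1 then z1 K NP NW TB (fa n) (fb n) (fc n) (fd n) else
  bif Nat.beq (fx n) 2 then z2 K NP NW TB (fa n) (fb n) (fc n) else
  bif Nat.beq (fx n) 3 then z3 K NP NW TB (fa n) (fb n) (fc n) else
  bif Nat.beq (fx n) 4 then z4 K NP NW TB (fa n) (fb n) (fc n) else
  bif Nat.beq (fx n) 5 then z5 K NP NW TB (fa n) (fb n) (fc n) (fd n) else
  bif Nat.beq (fx n) 11 then z11 K NP NW TB (fa n) else trv)

section
variable {K NP NW TB : ℕ} {M : MdW K NP NW (nbf K TB)} {Z : DZ M} {G : WG M} (hNW : 0 < NW) (hK14 : K ≤ 14)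
  (hb : BitZ M Z) (hw : BitW M G) (hG : G.MW 0 = Z.MW) {v : ℕ → Prop} (hv : Ag M v)

include hK14 hb hv

theorem vZ {t k c : ℕ} (ht : t < 6 * K) (hk : k < 3) (hc : c < 8) : v (zA t k c) ↔ Z.Zc t k = c :=
  (bB hv (x := 0) (j := 3 * t + k) (k := 6) (q := c) (by norm_num) (by omega) (by norm_num)).trans (hb.bz ht hk hc)

theorem vS {i n : ℕ} (hi : i ≤ 18 * K) (h1 : 1 ≤ n) (h6 : n < 6) : v (sA i n) ↔ n ≤ Z.Za i :=
  (bB hv (x := 0) (j := i) (k := 7) (q := n) (by norm_num) (by omega) (by norm_num)).trans (hb.ba hi h1 h6)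

omit hK14 in
theorem vE : v eA ↔ Z.E :=
  (bB hv (x := 0) (j := 255) (k := 7) (q := 0) (by norm_num) (by norm_num) (by norm_num)).trans hb.be

omit hK14 in
/-- under the orientation -/
theorem ho_eL {m : ℕ} {r : List ℕ} (h : (m = 1 → ¬ Z.E) → (m ≠ 0 → m ≠ 1 → Z.E) → Ho v r) : Ho v (eL m r) := by
  unfold eL
  by_cases h0 : m = 0
  · subst h0
    exact h (fun h => absurd h (by norm_num)) (fun h => absurd rfl h)
  · rw [nbf0 h0, cond_false]
    by_cases h1 : m = 1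
    · subst h1
      rw [Nat.beq_refl, cond_true]
      exact hp' fun h2 => h (fun _ h3 => h2 ((vE hb hv).2 h3)) (fun _ h4 => absurd rfl h4)
    · rw [nbf0 h1, cond_false]
      exact hn fun h2 => h (fun h3 => absurd h3 h1) (fun _ _ => (vE hb hv).1 h2)

theorem j0 (t k : ℕ) : Ho v (z0 K NP NW TB t k) := by
  refine ho_cd fun h => ?_
  simp only [Bool.and_eq_true, lb_iff, Nat.mul_eq] at h
  obtain ⟨ht, hk⟩ := h
  exact ho_mp (Z.zlt (t := t) (k := k)) (lv_ps.2 ((vZ hK14 hb hv ht hk Z.zlt).2 rfl))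

theorem j1 (t k c c' : ℕ) : Ho v (z1 K NP NW TB t k c c') := by
  refine ho_cd fun h => ?_
  simp only [Bool.and_eq_true, lb_iff, Nat.mul_eq, nbne] at h
  obtain ⟨⟨⟨⟨ht, hk⟩, hc⟩, hc'⟩, hne⟩ := h
  exact hn fun h1 => hng fun h2 => hne (((vZ hK14 hb hv ht hk hc).1 h1).symm.trans ((vZ hK14 hb hv ht hk hc').1 h2))

theorem j2 (t k c : ℕ) : Ho v (z2 K NP NW TB t k c) := by
  refine ho_cd fun h => ?_
  simp only [Bool.and_eq_true, lb_iff, Nat.mul_eq] at h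
  obtain ⟨⟨ht, hk⟩, hc⟩ := h
  refine hn fun h1 => hp ((vZ hK14 hb hv (ad_lt M.hK0) hk (Nat.mod_lt _ (by norm_num))).2 ?_)
  have h2 := (vZ hK14 hb hv ht hk hc).1 h1
  have h3 := Z.zhalf ht hk
  rw [h2] at h3
  exact h3

theorem j3 (t c b : ℕ) : Ho v (z3 K NP NW TB t c b) := by
  refine ho_cd fun h => ?_
  simp only [Bool.and_eq_true, lb_iff, Nat.mul_eq, nbeq] at h
  obtain ⟨⟨ht, hc⟩, he⟩ := h
  have he : c % 2 = 0 := he
  refine hn fun h1 => hp ?_
  have h2 := (vZ hK14 hb hv ht (by norm_num) hc).1 h1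
  obtain ⟨h3, h4⟩ := Z.zeven ht (by rw [h2]; exact he)
  cases Nat.beq b 0
  · exact (vZ hK14 hb hv ht (by norm_num) hc).2 (h4.trans h2)
  · exact (vZ hK14 hb hv ht (by norm_num) hc).2 (h3.trans h2)

theorem j4 (i n b : ℕ) : Ho v (z4 K NP NW TB i n b) := by
  refine ho_cd fun h => ?_
  simp only [Bool.and_eq_true, lb_iff, Nat.mul_eq] at h
  obtain ⟨⟨hi, h0⟩, h5⟩ := h
  refine ho_bif ?_ (ho_bif ?_ (ho_bif ?_ ?_))
  · refine hng fun h1 => ?_
    have h2 := (vS hK14 hb hv (by omega) h0 (by omega)).1 h1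
    rw [Z.za0] at h2
    omega
  · refine hp ((vS hK14 hb hv (i := 9 * K) (by omega) h0 (by omega)).2 ?_)
    rw [Z.zatop]; omega
  · refine hn fun h1 => hp ((vS hK14 hb hv (by omega) h0 (by omega)).2 ?_)
    have h2 : n + 1 ≤ Z.Za i := (vS hK14 hb hv (n := n + 1) (by omega) (by omega) (by omega)).1 h1
    omega
  · refine hn fun h1 => hp ((vS hK14 hb hv (i := i + 1) (by omega) h0 (by omega)).2 ?_)
    exact ((vS hK14 hb hv (by omega) h0 (by omega)).1 h1).trans Z.zamono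

theorem j5 (t k c n : ℕ) : Ho v (z5 K NP NW TB t k c n) := by
  refine ho_cd fun h => ?_
  simp only [Bool.and_eq_true, lb_iff, Nat.mul_eq] at h
  obtain ⟨⟨⟨ht, hk⟩, hc⟩, h5⟩ := h
  have hK0 := M.hK0
  refine hn fun h1 => ?_
  have h2 := (vZ hK14 hb hv (t := 0) (k := 0) (by omega) (by norm_num) hc).1 h1
  have h3 := Z.zcza ht hk
  rw [h2] at h3
  by_cases hn0 : n = 0
  · subst hn0
    rw [Nat.beq_refl, cond_true]
    refine hp' fun h4 => hp ((vZ hK14 hb hv ht hk hc).2 ?_)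
    have h5 : ¬ 1 ≤ Z.Za (3 * t + k) := fun h6 => h4 ((vS hK14 hb hv (i := 3 * t + k) (by omega) le_rfl (by omega)).2 h6)
    have h6 : Z.Za (3 * t + k) = 0 := by omega
    rw [h3, h6]; omega
  · rw [nbf0 hn0, cond_false]
    refine hn fun h4 => hp' fun h5' => hp ((vZ hK14 hb hv ht hk (Nat.mod_lt _ (by norm_num))).2 ?_)
    have h6 := (vS hK14 hb hv (i := 3 * t + k) (by omega) (by omega) (by omega)).1 h4
    have h7 : ¬ n + 1 ≤ Z.Za (3 * t + k) := fun h6 =>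
      h5' ((vS hK14 hb hv (i := 3 * t + k) (n := n + 1) (by omega) (by omega) (by omega)).2 h6)
    have h8 : Z.Za (3 * t + k) = n := by omega
    rw [h3, h8]; rfl

omit hK14 hb hv in
/-- the six rules: letters -/
theorem rul {t sd c m : ℕ} (ht : t < 6 * K) (hsd : sd < 2) (hm : m < 6) (hc : cC m c = true)
    (hz : Z.Zc t (2 * sd) = c) (h1 : cE m = 1 → ¬ Z.E) (h2 : cE m ≠ 0 → cE m ≠ 1 → Z.E) :
    ¬ M.LT 0 t sd 1 (cI m) ∧ ¬ M.LT 0 t sd 0 (cO m) := by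
  subst hz
  interval_cases m
  · have hc : (Nat.ble (Z.Zc t (2 * sd)) 2 || Nat.ble 6 (Z.Zc t (2 * sd))) = true := hc
    simp only [Bool.or_eq_true, Nat.ble_eq] at hc
    exact Z.lA ht hsd hc
  · have hc : (Nat.ble 2 (Z.Zc t (2 * sd)) && Nat.ble (Z.Zc t (2 * sd)) 6) = true := hc
    simp only [Bool.and_eq_true, Nat.ble_eq] at hc
    exact Z.lB ht hsd hc.1 hc.2
  · have hc : Nat.ble (Z.Zc t (2 * sd)) 4 = true := hc
    exact Z.lC ht hsd (Nat.le_of_ble_eq_true hc) (h1 rfl)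
  · have hc : Nat.ble (Z.Zc t (2 * sd)) 4 = true := hc
    exact Z.lC' ht hsd (Nat.le_of_ble_eq_true hc) (h2 (by decide) (by decide))
  · have hc : (Nat.beq (Z.Zc t (2 * sd)) 0 || Nat.ble 4 (Z.Zc t (2 * sd))) = true := hc
    simp only [Bool.or_eq_true, Nat.ble_eq, nbeq] at hc
    exact Z.lD ht hsd hc (h1 rfl)
  · have hc : (Nat.beq (Z.Zc t (2 * sd)) 0 || Nat.ble 4 (Z.Zc t (2 * sd))) = true := hc
    simp only [Bool.or_eq_true, Nat.ble_eq, nbeq] at hc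
    exact Z.lD' ht hsd hc (h2 (by decide) (by decide))

include hNW in
theorem j6 (t sd c m b : ℕ) : Ho v (z6 K NP NW TB t sd c m b) := by
  refine ho_cd fun h => ?_
  simp only [Bool.and_eq_true, lb_iff, Nat.mul_eq] at h
  obtain ⟨⟨⟨⟨ht, hsd⟩, hc⟩, hm⟩, hcc⟩ := h
  refine hn fun h1 => ho_eL hb hv fun h2 h3 => hng ?_
  have h4 := rul ht hsd hm hcc ((vZ hK14 hb hv (k := 2 * sd) ht (by omega) hc).1 h1) h2 h3
  cases Nat.beq b 0
  · exact fun h5 => h4.2 ((bTA hv hNW ht hsd (by norm_num)).1 h5)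
  · exact fun h5 => h4.1 ((bTA hv hNW ht hsd (by norm_num)).1 h5)

omit hK14 hb hv in
/-- the six rules: neighbours -/
theorem rul' {t c m : ℕ} (ht : t < 6 * K) (hn : nbf K TB 0 t < NP) (hm : m < 6) (hc : cC m c = true)
    (hz : Z.Zc t 1 = c) (h1 : cE m = 1 → ¬ Z.E) (h2 : cE m ≠ 0 → cE m ≠ 1 → Z.E) :
    NS2 M (nbf K TB 0 t) t (cI m) (cO m) := by
  subst hz
  interval_cases m
  · have hc : (Nat.ble (Z.Zc t 1) 2 || Nat.ble 6 (Z.Zc t 1)) = true := hc
    simp only [Bool.or_eq_true, Nat.ble_eq] at hc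
    exact Z.nA ht hn hc
  · have hc : (Nat.ble 2 (Z.Zc t 1) && Nat.ble (Z.Zc t 1) 6) = true := hc
    simp only [Bool.and_eq_true, Nat.ble_eq] at hc
    exact Z.nB ht hn hc.1 hc.2
  · have hc : Nat.ble (Z.Zc t 1) 4 = true := hc
    exact Z.nC ht hn (Nat.le_of_ble_eq_true hc) (h1 rfl)
  · have hc : Nat.ble (Z.Zc t 1) 4 = true := hc
    exact Z.nC' ht hn (Nat.le_of_ble_eq_true hc) (h2 (by decide) (by decide))
  · have hc : (Nat.beq (Z.Zc t 1) 0 || Nat.ble 4 (Z.Zc t 1)) = true := hc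
    simp only [Bool.or_eq_true, Nat.ble_eq, nbeq] at hc
    exact Z.nD ht hn hc (h1 rfl)
  · have hc : (Nat.beq (Z.Zc t 1) 0 || Nat.ble 4 (Z.Zc t 1)) = true := hc
    simp only [Bool.or_eq_true, Nat.ble_eq, nbeq] at hc
    exact Z.nD' ht hn hc (h2 (by decide) (by decide))

theorem j7 (t c m i : ℕ) : Ho v (z7 K NP NW TB t c m i) := by
  refine ho_cd fun h => ?_
  have hNP := M.hNP
  have hK := M.hK
  have hadl := ad_lt (K := K) (a := t) (s := 3 * K) M.hK0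
  simp only [Bool.and_eq_true, lb_iff, Nat.mul_eq] at h
  obtain ⟨⟨⟨⟨⟨ht, hn'⟩, hc⟩, hm⟩, hi⟩, hcc⟩ := h
  refine hn fun h1 => ho_eL hb hv fun h2 h3 => hng fun h5 => ?_
  have h4 := rul' ht hn' hm hcc ((vZ hK14 hb hv ht (by norm_num) hc).1 h1) h2 h3
  interval_cases i
  · exact h4.far ((bPH hv (by omega) (by omega)).1 h5)
  · exact h4.m1 ((bPV hv (by omega) (by omega) (by omega)).1 h5)
  · exact h4.m2 ((bPV hv (by omega) (by omega) (by omega)).1 h5)
  · exact h4.near ((bPH hv (by omega) (by omega)).1 h5)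

theorem j8 (t c q : ℕ) : Ho v (z8 K NP NW TB t c q) := by
  refine ho_cd fun h => ?_
  have hNP := M.hNP
  simp only [Bool.and_eq_true, lb_iff, Nat.mul_eq, nbeq] at h
  obtain ⟨⟨⟨⟨ht, hn'⟩, hc⟩, hq⟩, hcq⟩ := h
  refine hn fun h1 => hng fun h2 => ?_
  have h3 := (vZ hK14 hb hv ht (by norm_num) hc).1 h1
  have h4 := (bP hv (by omega)).1 h2
  have hcq : c % 4 = bif lb q 2 then 2 else 0 := hcq
  by_cases h5 : q < 2
  · rw [lb_iff.2 h5, cond_true] at hcq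
    have h6 := Z.pAB ht hn' (by omega)
    interval_cases q
    · exact h6.1 h4
    · exact h6.2 h4
  · have h7 : lb q 2 = false := by rw [← Bool.not_eq_true, lb_iff]; exact h5
    rw [h7, cond_false] at hcq
    have h6 := Z.pCD ht hn' (by omega)
    interval_cases q
    · exact h6.1 h4
    · exact h6.2 h4

include hNW in
omit hK14 hb in
/-- an exact letter -/
theorem exact_or (Z' : DZ M) {t sd : ℕ} (ht : t < 6 * K) (hsd : sd < 2) (h4 : ¬ v (uA 0 t sd 4)) (h5 : ¬ v (uA 0 t sd 5)) :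
    (Exl M t sd 0 1 ∧ ∀ q < 6, M.LU 0 t sd q → q < 2) ∨ (Exl M t sd 2 3 ∧ ∀ q < 6, M.LU 0 t sd q → 2 ≤ q) := by
  rcases Z'.lex ht hsd (fun h => h4 ((bUA hv hNW ht hsd).2 h)) (fun h => h5 ((bUA hv hNW ht hsd).2 h)) with h | h
  · exact Or.inl ⟨h, fun q hq hl => Z'.lex1 ht hsd hq h hl⟩
  · exact Or.inr ⟨h, fun q hq hl => Z'.lex2 ht hsd hq h hl⟩

include hNW in
theorem j9 (t sd b : ℕ) : Ho v (z9 K NP NW TB t sd b) := by
  refine ho_cd fun h => ?_
  simp only [Bool.and_eq_true, lb_iff, Nat.mul_eq] at h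
  obtain ⟨ht, hsd⟩ := h
  refine hp' fun h4 => hp' fun h5 => ?_
  have hx := exact_or hNW hv Z ht hsd h4 h5
  have u : ∀ q, v (uA 0 t sd q) ↔ M.LU 0 t sd q := fun q => bUA hv hNW ht hsd
  refine ho_bif ?_ (ho_bif ?_ (ho_bif ?_ (ho_bif ?_ (ho_bif ?_ (ho_bif ?_ (ho_bif ?_ ?_))))))
  · rcases hx with ⟨h6, -⟩ | ⟨h6, -⟩
    · exact hp ((u 0).2 h6.l1)
    · exact Vale.Agent.P032.H240.W.ht (hp ((u 2).2 h6.l1))
  · refine hn fun h7 => hp ((u 1).2 ?_)
    rcases hx with ⟨h6, -⟩ | ⟨-, h6⟩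
    · exact h6.l2
    · have := h6 0 (by norm_num) ((u 0).1 h7); omega
  · refine hn fun h7 => hp ((u 0).2 ?_)
    rcases hx with ⟨h6, -⟩ | ⟨-, h6⟩
    · exact h6.l1
    · have := h6 1 (by norm_num) ((u 1).1 h7); omega
  · refine hn fun h7 => hp ((u 3).2 ?_)
    rcases hx with ⟨-, h6⟩ | ⟨h6, -⟩
    · have := h6 2 (by norm_num) ((u 2).1 h7); omega
    · exact h6.l2
  · refine hn fun h7 => hp ((u 2).2 ?_)
    rcases hx with ⟨-, h6⟩ | ⟨h6, -⟩
    · have := h6 3 (by norm_num) ((u 3).1 h7); omega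
    · exact h6.l1
  · refine hn fun h7 => hng fun h8 => ?_
    rcases hx with ⟨-, h6⟩ | ⟨-, h6⟩
    · have := h6 2 (by norm_num) ((u 2).1 h8); omega
    · have := h6 0 (by norm_num) ((u 0).1 h7); omega
  · refine hn fun h7 => ?_
    rcases hx with ⟨h6, -⟩ | ⟨-, h6⟩
    · rcases Z.lAB ht hsd h6 with h8 | h8
      · exact hp ((vZ hK14 hb hv (k := 2 * sd) ht (by omega) (by norm_num)).2 h8)
      · exact Vale.Agent.P032.H240.W.ht (hp ((vZ hK14 hb hv (k := 2 * sd) ht (by omega) (by norm_num)).2 h8))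
    · have := h6 0 (by norm_num) ((u 0).1 h7); omega
  · refine hn fun h7 => ?_
    rcases hx with ⟨-, h6⟩ | ⟨h6, -⟩
    · have := h6 2 (by norm_num) ((u 2).1 h7); omega
    · rcases Z.lCD ht hsd h6 with h8 | h8
      · exact hp ((vZ hK14 hb hv (k := 2 * sd) ht (by omega) (by norm_num)).2 h8)
      · exact Vale.Agent.P032.H240.W.ht (hp ((vZ hK14 hb hv (k := 2 * sd) ht (by omega) (by norm_num)).2 h8))

omit hK14 hb in
include hNW hw hG in
/-- wedges of the exact letters -/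
theorem wdg {t sd c e b q : ℕ} (ht : t < 6 * K) (hsd : sd < 2) (hc : c < 8) (he : c % 2 = 0) (h1 : 1 ≤ e) (h2 : e < 3)
    (hb2 : b < 2) (hq : q < 6) (h4 : ¬ v (uA 0 t sd 4)) (h5 : ¬ v (uA 0 t sd 5))
    (h6 : v (uA 0 t sd (bif Nat.beq (c % 4) 0 then 0 else 2))) (h7 : Z.Zc t (2 * sd) = c) (h8 : e = 1 → ¬ Z.E)
    (h9 : e ≠ 0 → e ≠ 1 → Z.E) : v (mA 0 (op K t b) sd q) ↔ q = wc c e b := by
  have hx := exact_or hNW hv Z ht hsd h4 h5
  have u : ∀ q, v (uA 0 t sd q) ↔ M.LU 0 t sd q := fun q => bUA hv hNW ht hsd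
  have hm : v (mA 0 (op K t b) sd q) ↔ Z.MW (op K t b) sd q := by
    rw [← hG]; exact bM hw hv hNW (op_lt M.hK0 ht) hsd hq
  rw [hm]
  have e3 : Nat.mul 3 K = 3 * K := rfl
  have hAB : c % 4 = 0 → Exl M t sd 0 1 := by
    intro h
    rw [h] at h6
    have h6 : v (uA 0 t sd 0) := h6
    rcases hx with ⟨h7, -⟩ | ⟨-, h7⟩
    · exact h7
    · have := h7 0 (by norm_num) ((u 0).1 h6); omega
  have hCD : c % 4 = 2 → Exl M t sd 2 3 := by
    intro h
    rw [h] at h6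
    have h6 : v (uA 0 t sd 2) := h6
    rcases hx with ⟨-, h7⟩ | ⟨h7, -⟩
    · have := h7 2 (by norm_num) ((u 2).1 h6); omega
    · exact h7
  have hcs : c = 0 ∨ c = 2 ∨ c = 4 ∨ c = 6 := by omega
  have hes : e = 1 ∨ e = 2 := by omega
  have hbs : b = 0 ∨ b = 1 := by omega
  rcases hcs with rfl | rfl | rfl | rfl
  · have hE := hAB rfl
    rcases hes with rfl | rfl
    · have hd := Z.d0 ht hsd hq hE h7 (h8 rfl)
      rcases hbs with rfl | rfl
      · exact hd.1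
      · exact hd.2
    · have hd := Z.d0' ht hsd hq hE h7 (h9 (by norm_num) (by norm_num))
      rcases hbs with rfl | rfl
      · exact hd.1
      · exact hd.2
  · have hE := hCD rfl
    have hd := Z.d2 ht hsd hq hE h7
    rcases hbs with rfl | rfl
    · exact hd.1
    · exact hd.2
  · have hE := hAB rfl
    rcases hes with rfl | rfl
    · have hd := Z.d4 ht hsd hq hE h7 (h8 rfl)
      rcases hbs with rfl | rfl
      · exact hd.1
      · exact hd.2
    · have hd := Z.d4' ht hsd hq hE h7 (h9 (by norm_num) (by norm_num))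
      rcases hbs with rfl | rfl
      · exact hd.1
      · exact hd.2
  · have hE := hCD rfl
    have hd := Z.d6 ht hsd hq hE h7
    rcases hbs with rfl | rfl
    · exact hd.1
    · exact hd.2

include hNW hw hG in
theorem j10 (t sd c e b q : ℕ) : Ho v (z10 K NP NW TB t sd c e b q) := by
  refine ho_cd fun h => ?_
  simp only [Bool.and_eq_true, lb_iff, Nat.mul_eq, nbeq] at h
  obtain ⟨⟨⟨⟨⟨⟨⟨ht, hsd⟩, hc⟩, he⟩, h3⟩, h0⟩, hb2⟩, hq⟩ := h
  refine hp' fun h4 => hp' fun h5 => hn fun h6 => hn fun h7 => ho_eL hb hv fun h8 h9 => ?_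
  have key := wdg hNW hw hG hv ht hsd hc he h0 h3 hb2 hq h4 h5 h6
    ((vZ hK14 hb hv (k := 2 * sd) ht (by omega) hc).1 h7) h8 h9
  by_cases hqc : q = wc c e b
  · rw [nbeq.2 hqc, cond_true]
    exact hp (key.2 hqc)
  · rw [nbf0 hqc, cond_false]
    exact hng fun h10 => hqc (key.1 h10)

omit hK14 hb in
theorem j11 (Z' : DZ M) (q : ℕ) : Ho v (z11 K NP NW TB q) := by
  refine ho_cd fun h => ?_
  rw [lb_iff] at h
  have hK0 := M.hK0
  by_cases h6 : q = 6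
  · rw [nbeq.2 h6, cond_true]
    exact hp ((bX hv (by norm_num)).2 Z'.x0)
  · rw [nbf0 h6, cond_false]
    by_cases h4 : q < 4
    · rw [lb_iff.2 h4, cond_true]
      exact hp ((bT hv (by norm_num)).2 ((Z'.t0 (by omega)).2 h4))
    · rw [show lb q 4 = false by rw [← Bool.not_eq_true, lb_iff]; exact h4, cond_false]
      exact hng fun h5 => h4 ((Z'.t0 (by omega)).1 ((bT hv (by norm_num)).1 h5))

omit hK14 in
include hNW hw hG in
/-- **every clause of the zones holds in the model** -/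
theorem gZ_ho (n : ℕ) : Ho v (gZ K NP NW TB n) := by
  refine ho_cd fun h => ?_
  have hK14 : K ≤ 14 := Nat.le_of_ble_eq_true h
  exact ho_bif (j6 hNW hK14 hb hv _ _ _ _ _) (ho_bif (j7 hK14 hb hv _ _ _ _)
    (ho_bif (j10 hNW hK14 hb hw hG hv _ _ _ _ _ _) (ho_bif (j9 hNW hK14 hb hv _ _ _)
    (ho_bif (j8 hK14 hb hv _ _ _) (ho_bif (j0 hK14 hb hv _ _) (ho_bif (j1 hK14 hb hv _ _ _ _)
    (ho_bif (j2 hK14 hb hv _ _ _) (ho_bif (j3 hK14 hb hv _ _ _) (ho_bif (j4 hK14 hb hv _ _ _)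
    (ho_bif (j5 hK14 hb hv _ _ _ _) (ho_bif (j11 hv Z _) ho_trv)))))))))))

end

/-- a generator with the clauses of the zones (kind 60) and of the wedges (kind 61) -/
def genD (K NP NW TB : ℕ) (g : ℕ → List ℕ) (n : ℕ) : List ℕ :=
  bif Nat.beq (Nat.land n 63) 61 then gG K NP NW TB n else bif Nat.beq (Nat.land n 63) 60 then gZ K NP NW TB n else g n

theorem genD_ho {K NP NW TB : ℕ} {M : MdW K NP NW (nbf K TB)} {Z : DZ M} {G : WG M} (hNW : 0 < NW) (hb : BitZ M Z)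
    (hw : BitW M G) (hG : G.MW 0 = Z.MW) {v : ℕ → Prop} (hv : Ag M v) {g : ℕ → List ℕ} (hg : ∀ n, Ho v (g n)) (n : ℕ) :
    Ho v (genD K NP NW TB g n) :=
  ho_bif (gG_ho hw hv n) (ho_bif (gZ_ho hNW hb hw hG hv n) (hg n))

/-- **Soundness of certificates** with the clauses of the zones and the wedges. -/
theorem chkD_sound {K NP NW TB : ℕ} {e : List (List ℕ)} {t : ℕ → List ℕ} {B HB dA d : ℕ} {A C D H : List ℕ}
    (h : chkG (genD K NP NW TB (genW K NP NW TB e t)) B HB dA d A C D H = true) {M : MdW K NP NW (nbf K TB)} {Z : DZ M}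
    {G : WG M} (hNW : 0 < NW) (hb : BitZ M Z) (hw : BitW M G) (hG : G.MW 0 = Z.MW)
    (he : ∀ c ∈ e, Ho (vx M.bv t) c) : False :=
  chkG_sound h fun n => genD_ho hNW hb hw hG (ag_vx M t)
    (fun n => genX_ho (fun n => gen_ho (ag_vx M t) n) he n) n

end Vale.Agent.P032.H254
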