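import Vale.Agent.P032.H254.D0
import Vale.Agent.P032.H254.DZ
import Vale.Agent.P032.H993.MkL
import Vale.Agent.P032.H515.Letters

/-!
# P032: the instance of the rules of a two-pair centre

`Lk U T K a σ NP NW Y W M` : the atoms of the model `M : MdW` mean what they should for the cover `T`.
`exists_dz` : frame `Irr U T` + `Mn U T`, a two-pair point `Y 0` with the pairs `0 1 | 2 3`, words with wedge palettes
`H556.Wm` : the rules `DZ M`, with `MW t sd q` the wedge colours.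
-/

open Set Filter Topology Metric

noncomputable section

namespace Vale.Agent.P032.H254

open Vale.Agent.P032.Six Vale.Agent.P032.H892 Vale.Agent.P032.H913 Vale.Agent.P032.S5.H767 Vale.Agent.P032.H61
  Vale.Agent.P032.H357 Vale.Agent.P032.H357.MK Vale.Agent.P032.H556
open Vale.Agent.P032.H820.K (df ad hcell gk gt)
open Vale.Agent.P032.H240.W (MdW)
open Vale.Agent.P032.H993.MkW (LW LL lw_iff ll_iff Tab ad_mod)

variable {U : Fin 6 → Set ℂ} {T : ℂ → Set (Fin 6)} {K : ℕ} {a : ℕ → ℝ} {σ : Equiv.Perm (Fin 6)} {NP NW : ℕ}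
  {nb : ℕ → ℕ → ℕ} {Y : ℕ → ℂ} {W : ℕ → Fin NW → ℕ → ℕ → ℕ → Set (Fin 6)}
  {Mw : ℕ → Fin NW → ℕ → ℕ → Set (Fin 6)}

/-- the atoms of the model mean what they should -/
structure Lk (U : Fin 6 → Set ℂ) (T : ℂ → Set (Fin 6)) (K : ℕ) (a : ℕ → ℝ) (σ : Equiv.Perm (Fin 6)) (NP NW : ℕ)
    (nb : ℕ → ℕ → ℕ) (Y : ℕ → ℂ) (W : ℕ → Fin NW → ℕ → ℕ → ℕ → Set (Fin 6)) (M : MdW K NP NW nb) : Prop where
  v : ∀ {k x j q}, M.V k x j q ↔ Cl (Sq T (co σ q)) (Y x) a k j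
  pv : ∀ {k x j q}, M.PV k x j q ↔ Cl (U (co σ q)) (Y x) a k j
  ph : ∀ {x s q}, M.PH x s q ↔ HI (U (co σ q)) (Y x) a s
  t : ∀ {x q}, M.T x q ↔ co σ q ∈ T (Y x)
  p : ∀ {x q}, M.P x q ↔ co σ q ∈ Pal U (Y x)
  x : ∀ {x}, M.X x ↔ Y x ∈ XX U
  lt : ∀ {x t sd io q}, M.LT x t sd io q ↔ LW σ K NW W io x t sd q

/-- a colour in the directions of `z` is a colour of `z` -/
theorem wg_sub (h : Irr U T) {z : ℂ} {s : ℝ} : Wg T z s ⊆ T z := by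
  intro c hc
  have hc : ∃ᶠ p in 𝓝 ((0 : ℝ), s + 3 / 2), p ∈ H357.PS (Sq T c) z := hc
  have h1 : Tendsto (fun p : ℝ × ℝ => po z p) (𝓝 ((0 : ℝ), s + 3 / 2)) (𝓝 z) := by
    have := (continuous_po z).tendsto ((0 : ℝ), s + 3 / 2)
    rwa [po_zero] at this
  refine (h.closed c).mem_of_frequently_of_tendsto (hc.mono fun p hp => ?_) h1
  have h3 : T (po z p) = {c} := hp.2
  show c ∈ T (po z p)
  rw [h3]; rfl

section
variable (h : Irr U T)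
  (hM : ∀ z, 4 ≤ (T z).ncard → ∀ s, s ⊆ T z → s ≠ T z → ¬ ∀ᶠ w in 𝓝 z, ∃ i ∈ s, w ∈ U i ∨ (w ∈ XX U ∧ i ∈ Pal U w))
  (A : Tick K a) (hz : DPt T (Y 0) (co σ 0) (co σ 1) (co σ 2) (co σ 3))
  (hNW : 0 < NW) (D : ∀ r, Wm U T K a (fun j : Fin NW => Y j) (W r) (Mw r))

theorem co_ne {p q : ℕ} (hp : p < 6) (hq : q < 6) (hne : p ≠ q) : co σ p ≠ co σ q :=
  fun e => hne (co_inj σ hp hq e)

include h hM hz D

/-- an exact letter is one of the two pairs -/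
theorem exact_pair {t sd : ℕ} (h4 : co σ 4 ∉ W (t % K) ⟨0, hNW⟩ t sd 0 ∪ W (t % K) ⟨0, hNW⟩ t sd 1)
    (h5 : co σ 5 ∉ W (t % K) ⟨0, hNW⟩ t sd 0 ∪ W (t % K) ⟨0, hNW⟩ t sd 1) :
    W (t % K) ⟨0, hNW⟩ t sd 0 ∪ W (t % K) ⟨0, hNW⟩ t sd 1 = {co σ 0, co σ 1} ∨
      W (t % K) ⟨0, hNW⟩ t sd 0 ∪ W (t % K) ⟨0, hNW⟩ t sd 1 = {co σ 2, co σ 3} := by
  obtain ⟨τ, h1, -⟩ := (D (t % K)).at_some sd
  refine H515.pair_of_sub h hM hz (h1 (⟨0, hNW⟩, t)) fun c hc => ?_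
  obtain ⟨q, hq, rfl⟩ := co_surj σ c
  have hpal := hz.pal
  rw [hpal]
  interval_cases q
  · exact Or.inl rfl
  · exact Or.inr (Or.inl rfl)
  · exact Or.inr (Or.inr (Or.inl rfl))
  · exact Or.inr (Or.inr (Or.inr rfl))
  · exact absurd hc h4
  · exact absurd hc h5

end

section inst
variable (h : Irr U T)
  (hM : ∀ z, 4 ≤ (T z).ncard → ∀ s, s ⊆ T z → s ≠ T z → ¬ ∀ᶠ w in 𝓝 z, ∃ i ∈ s, w ∈ U i ∨ (w ∈ XX U ∧ i ∈ Pal U w))
  (A : Tick K a) (hz : DPt T (Y 0) (co σ 0) (co σ 1) (co σ 2) (co σ 3))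
  (hNW : 0 < NW) (D : ∀ r, Wm U T K a (fun j : Fin NW => Y j) (W r) (Mw r)) {M : MdW K NP NW nb}
  (L : Lk U T K a σ NP NW nb Y W M)

include L in
theorem lu_iff {t sd q : ℕ} :
    M.LU 0 t sd q ↔ co σ q ∈ W (t % K) ⟨0, hNW⟩ t sd 0 ∪ W (t % K) ⟨0, hNW⟩ t sd 1 := by
  unfold MdW.LU
  rw [L.lt, L.lt, lw_iff hNW, lw_iff hNW]; rfl

include h hM hz D L in
theorem exl_iff {t sd : ℕ} :
    (Exl M t sd 0 1 ↔ W (t % K) ⟨0, hNW⟩ t sd 0 ∪ W (t % K) ⟨0, hNW⟩ t sd 1 = {co σ 0, co σ 1}) ∧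
      (Exl M t sd 2 3 ↔ W (t % K) ⟨0, hNW⟩ t sd 0 ∪ W (t % K) ⟨0, hNW⟩ t sd 1 = {co σ 2, co σ 3}) := by
  have n4 : ∀ q < 4, co σ 4 ≠ co σ q := fun q hq => co_ne (by norm_num) (by omega) (by omega)
  have n5 : ∀ q < 4, co σ 5 ≠ co σ q := fun q hq => co_ne (by norm_num) (by omega) (by omega)
  constructor
  · constructor
    · intro e
      have e1 := (lu_iff hNW L).1 e.l1
      rcases exact_pair h hM hz hNW D (fun h4 => e.f4 ((lu_iff hNW L).2 h4))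
        (fun h5 => e.f5 ((lu_iff hNW L).2 h5)) with h1 | h1
      · exact h1
      · rw [h1] at e1
        rcases e1 with e1 | e1
        · exact absurd e1 (co_ne (by norm_num) (by norm_num) (by norm_num))
        · exact absurd e1 (co_ne (by norm_num) (by norm_num) (by norm_num))
    · intro e
      refine ⟨(lu_iff hNW L).2 (by rw [e]; exact Or.inl rfl), (lu_iff hNW L).2 (by rw [e]; exact Or.inr rfl),
        fun h4 => ?_, fun h5 => ?_⟩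
      · have := (lu_iff hNW L).1 h4
        rw [e] at this
        rcases this with h1 | h1
        · exact n4 0 (by norm_num) h1
        · exact n4 1 (by norm_num) h1
      · have := (lu_iff hNW L).1 h5
        rw [e] at this
        rcases this with h1 | h1
        · exact n5 0 (by norm_num) h1
        · exact n5 1 (by norm_num) h1
  · constructor
    · intro e
      have e1 := (lu_iff hNW L).1 e.l1
      rcases exact_pair h hM hz hNW D (fun h4 => e.f4 ((lu_iff hNW L).2 h4))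
        (fun h5 => e.f5 ((lu_iff hNW L).2 h5)) with h1 | h1
      · rw [h1] at e1
        rcases e1 with e1 | e1
        · exact absurd e1 (co_ne (by norm_num) (by norm_num) (by norm_num))
        · exact absurd e1 (co_ne (by norm_num) (by norm_num) (by norm_num))
      · exact h1
    · intro e
      refine ⟨(lu_iff hNW L).2 (by rw [e]; exact Or.inl rfl), (lu_iff hNW L).2 (by rw [e]; exact Or.inr rfl),
        fun h4 => ?_, fun h5 => ?_⟩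
      · have := (lu_iff hNW L).1 h4
        rw [e] at this
        rcases this with h1 | h1
        · exact n4 2 (by norm_num) h1
        · exact n4 3 (by norm_num) h1
      · have := (lu_iff hNW L).1 h5
        rw [e] at this
        rcases this with h1 | h1
        · exact n5 2 (by norm_num) h1
        · exact n5 3 (by norm_num) h1

/-- the wedge colours -/
def MW (σ : Equiv.Perm (Fin 6)) (K : ℕ) {NW : ℕ} (Mw : ℕ → Fin NW → ℕ → ℕ → Set (Fin 6)) (t sd q : ℕ) : Prop :=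
  ∃ hx : 0 < NW, co σ q ∈ Mw (t % K) ⟨0, hx⟩ t sd

theorem mw_iff {t sd q : ℕ} : MW σ K Mw t sd q ↔ co σ q ∈ Mw (t % K) ⟨0, hNW⟩ t sd :=
  ⟨fun ⟨_, h⟩ => h, fun h => ⟨hNW, h⟩⟩

include D in
theorem mw_opp {t sd q : ℕ} :
    MW σ K Mw (ad K t (3 * K)) sd q ↔ co σ q ∈ Mw (t % K) ⟨0, hNW⟩ (t + 3 * K) sd := by
  rw [mw_iff hNW, ad_mod K t (3 * K) (Nat.mul_mod_left 3 K), ad_eq, (D _).perM]

variable {w : Wn} {c d : ℕ}

include D in
/-- a generic direction on the side `sd` of the tick `t` -/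
theorem at_gen (w : Wn) {t sd : ℕ} (hsd : sd < 2) :
    ∃ v, IP U T (Y 0) v (W (t % K) ⟨0, hNW⟩ t sd 0) (W (t % K) ⟨0, hNW⟩ t sd 1) ∧
      (w.cod v % 8).toNat = Zc w a t (2 * sd) ∧ Wg T (Y 0) v = Mw (t % K) ⟨0, hNW⟩ t sd ∧
        (Tick K a → Wg T (Y 0) (v + 3) = Mw (t % K) ⟨0, hNW⟩ (t + 3 * K) sd) := by
  obtain ⟨τ, h1, h2, h3⟩ := (D (t % K)).at_ev (ev_side w a t hsd)
  refine ⟨a t + τ, h2 (⟨0, hNW⟩, t), by unfold Zc; rw [h1], h3 (⟨0, hNW⟩, t), fun hT => ?_⟩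
  have h4 := h3 (⟨0, hNW⟩, t + 3 * K)
  simp only [CK.a_half hT] at h4
  rw [← h4]
  congr 1; ring

include h in
theorem xs_of {v : ℝ} {P Q E : Set (Fin 6)} (I : IP U T (Y 0) v P Q) (hE : P ∪ Q = E) : v ∈ XS T (Y 0) E := by
  show ∀ᶠ u in 𝓝 v, T (pt (Y 0) u) = E
  filter_upwards [I.loc] with u hu
  rw [hu, I.union h, hE]

/-- the rules which depend on the orientation, inside colour `c`, outside colour `d` -/
structure Hf (M : MdW K NP NW nb) (Zc : ℕ → ℕ → ℕ) (MW : ℕ → ℕ → ℕ → Prop) (c d : ℕ) : Prop where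
  lC : ∀ {t sd}, t < 6 * K → sd < 2 → Zc t (2 * sd) ≤ 4 → ¬ M.LT 0 t sd 1 c ∧ ¬ M.LT 0 t sd 0 d
  lD : ∀ {t sd}, t < 6 * K → sd < 2 → (Zc t (2 * sd) = 0 ∨ 4 ≤ Zc t (2 * sd)) →
    ¬ M.LT 0 t sd 1 d ∧ ¬ M.LT 0 t sd 0 c
  nC : ∀ {t}, t < 6 * K → nb 0 t < NP → Zc t 1 ≤ 4 → NS2 M (nb 0 t) t c d
  nD : ∀ {t}, t < 6 * K → nb 0 t < NP → (Zc t 1 = 0 ∨ 4 ≤ Zc t 1) → NS2 M (nb 0 t) t d c
  d0 : ∀ {t sd q}, t < 6 * K → sd < 2 → q < 6 → Exl M t sd 0 1 → Zc t (2 * sd) = 0 →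
    (MW t sd q ↔ q = c) ∧ (MW (ad K t (3 * K)) sd q ↔ q = d)
  d4 : ∀ {t sd q}, t < 6 * K → sd < 2 → q < 6 → Exl M t sd 0 1 → Zc t (2 * sd) = 4 →
    (MW t sd q ↔ q = d) ∧ (MW (ad K t (3 * K)) sd q ↔ q = c)

include A L in
theorem ns2_of (hY : Tab K a NP nb Y) (hNP : 0 < NP) {t i j : ℕ} (ht : t < 6 * K) (hn : nb 0 t < NP)
    (N : Nd U (Y 0) K a t (co σ i) (co σ j)) : NS2 M (nb 0 t) t i j := by
  have e := hY 0 hNP t ht hn
  refine ⟨fun h1 => N.far ?_, fun h1 => N.m1 ?_, fun h1 => N.m2 ?_, fun h1 => N.near ?_⟩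
  · rw [← e]; exact L.ph.1 h1
  · rw [← e]; exact L.pv.1 h1
  · rw [← e]; exact (cl_opp A).1 (L.pv.1 h1)
  · rw [← e]; exact (hi_opp A).1 (L.ph.1 h1)

include h hM A hz hNW D L in
theorem hf_of (hY : Tab K a NP nb Y) (hNP : 0 < NP) (hc : c < 4) (hd : d < 4)
    (Z : Zn U T (Y 0) (co σ 0) (co σ 1) (co σ c) (co σ d) w) : Hf M (Zc w a) (MW σ K Mw) c d := by
  have hW : ∀ t sd, Lt U T (Y 0) a t sd (W (t % K) ⟨0, hNW⟩ t sd 0) (W (t % K) ⟨0, hNW⟩ t sd 1) := fun t sd =>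
    lt_of_Wp (D (t % K)).wp ⟨0, hNW⟩ t sd
  refine ⟨?_, ?_, ?_, ?_, ?_, ?_⟩
  · intro t sd ht hsd h1
    have h2 := Z.let_C_in hsd (hW t sd) h h1
    rw [L.lt, L.lt, lw_iff hNW, lw_iff hNW]; exact h2
  · intro t sd ht hsd h1
    have h2 := Z.let_C_out hsd (hW t sd) h h1
    rw [L.lt, L.lt, lw_iff hNW, lw_iff hNW]; exact h2
  · intro t ht hn h1
    exact ns2_of A L hY hNP ht hn (Z.nd_C_in h A h1)
  · intro t ht hn h1
    exact ns2_of A L hY hNP ht hn (Z.nd_C_out h A h1)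
  · intro t sd q ht hsd hq he h1
    obtain ⟨v, I, h2, h3, h4⟩ := at_gen hNW D w (t := t) hsd
    have hv := xs_of h I (((exl_iff h hM hz hNW D L).1).1 he)
    obtain ⟨h5, h6⟩ := Z.wg_A0 h hv (by omega)
    rw [mw_iff hNW, mw_opp hNW D, ← h3, ← h4 A, h5, h6]
    exact ⟨⟨fun e => co_inj σ hq (by omega) e, fun e => by rw [e]; rfl⟩,
      ⟨fun e => co_inj σ hq (by omega) e, fun e => by rw [e]; rfl⟩⟩
  · intro t sd q ht hsd hq he h1
    obtain ⟨v, I, h2, h3, h4⟩ := at_gen hNW D w (t := t) hsd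
    have hv := xs_of h I (((exl_iff h hM hz hNW D L).1).1 he)
    obtain ⟨h5, h6⟩ := Z.wg_A4 h hv (by omega)
    rw [mw_iff hNW, mw_opp hNW D, ← h3, ← h4 A, h5, h6]
    exact ⟨⟨fun e => co_inj σ hq (by omega) e, fun e => by rw [e]; rfl⟩,
      ⟨fun e => co_inj σ hq (by omega) e, fun e => by rw [e]; rfl⟩⟩

/-- the rules which do not depend on the orientation -/
structure Cm (M : MdW K NP NW nb) (Zc : ℕ → ℕ → ℕ) (MW : ℕ → ℕ → ℕ → Prop) : Prop where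
  lA : ∀ {t sd}, t < 6 * K → sd < 2 → (Zc t (2 * sd) ≤ 2 ∨ 6 ≤ Zc t (2 * sd)) → ¬ M.LT 0 t sd 1 0 ∧ ¬ M.LT 0 t sd 0 1
  lB : ∀ {t sd}, t < 6 * K → sd < 2 → 2 ≤ Zc t (2 * sd) → Zc t (2 * sd) ≤ 6 → ¬ M.LT 0 t sd 1 1 ∧ ¬ M.LT 0 t sd 0 0
  lAB : ∀ {t sd}, t < 6 * K → sd < 2 → Exl M t sd 0 1 → Zc t (2 * sd) = 0 ∨ Zc t (2 * sd) = 4
  lCD : ∀ {t sd}, t < 6 * K → sd < 2 → Exl M t sd 2 3 → Zc t (2 * sd) = 2 ∨ Zc t (2 * sd) = 6
  nA : ∀ {t}, t < 6 * K → nb 0 t < NP → (Zc t 1 ≤ 2 ∨ 6 ≤ Zc t 1) → NS2 M (nb 0 t) t 0 1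
  nB : ∀ {t}, t < 6 * K → nb 0 t < NP → 2 ≤ Zc t 1 → Zc t 1 ≤ 6 → NS2 M (nb 0 t) t 1 0
  pCD : ∀ {t}, t < 6 * K → nb 0 t < NP → (Zc t 1 = 0 ∨ Zc t 1 = 4) → ¬ M.P (nb 0 t) 2 ∧ ¬ M.P (nb 0 t) 3
  pAB : ∀ {t}, t < 6 * K → nb 0 t < NP → (Zc t 1 = 2 ∨ Zc t 1 = 6) → ¬ M.P (nb 0 t) 0 ∧ ¬ M.P (nb 0 t) 1
  d2 : ∀ {t sd q}, t < 6 * K → sd < 2 → q < 6 → Exl M t sd 2 3 → Zc t (2 * sd) = 2 →
    (MW t sd q ↔ q = 1) ∧ (MW (ad K t (3 * K)) sd q ↔ q = 0)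
  d6 : ∀ {t sd q}, t < 6 * K → sd < 2 → q < 6 → Exl M t sd 2 3 → Zc t (2 * sd) = 6 →
    (MW t sd q ↔ q = 0) ∧ (MW (ad K t (3 * K)) sd q ↔ q = 1)

include h hM A hz hNW D L in
theorem cm_of (hY : Tab K a NP nb Y) (hNP : 0 < NP) (hcd : (c = 2 ∧ d = 3) ∨ (c = 3 ∧ d = 2))
    (Z : Zn U T (Y 0) (co σ 0) (co σ 1) (co σ c) (co σ d) w) : Cm M (Zc w a) (MW σ K Mw) := by
  have hW : ∀ t sd, Lt U T (Y 0) a t sd (W (t % K) ⟨0, hNW⟩ t sd 0) (W (t % K) ⟨0, hNW⟩ t sd 1) := fun t sd =>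
    lt_of_Wp (D (t % K)).wp ⟨0, hNW⟩ t sd
  have hset : ({co σ 2, co σ 3} : Set (Fin 6)) = {co σ c, co σ d} := by
    rcases hcd with ⟨rfl, rfl⟩ | ⟨rfl, rfl⟩
    · rfl
    · exact Set.pair_comm _ _
  refine ⟨?_, ?_, ?_, ?_, ?_, ?_, ?_, ?_, ?_, ?_⟩
  · intro t sd ht hsd h1
    have h2 := Z.let_A_in hsd (hW t sd) h h1
    rw [L.lt, L.lt, lw_iff hNW, lw_iff hNW]; exact h2
  · intro t sd ht hsd h1 h1'
    have h2 := Z.let_A_out hsd (hW t sd) h h1 h1'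
    rw [L.lt, L.lt, lw_iff hNW, lw_iff hNW]; exact h2
  · intro t sd ht hsd he
    exact Z.let_AB hsd (hW t sd) h (((exl_iff h hM hz hNW D L).1).1 he)
  · intro t sd ht hsd he
    exact Z.let_CD hsd (hW t sd) h (by rw [((exl_iff h hM hz hNW D L).2).1 he, hset])
  · intro t ht hn h1
    exact ns2_of A L hY hNP ht hn (Z.nd_A_in h A h1)
  · intro t ht hn h1 h1'
    exact ns2_of A L hY hNP ht hn (Z.nd_A_out h A h1 h1')
  · intro t ht hn h1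
    have h2 := Z.no_CD (a := a) (t := t) h h1
    rw [show pt (Y 0) (a t) = Y (nb 0 t) by rw [hY 0 hNP t ht hn, pt_eq]] at h2
    rw [L.p, L.p]
    rcases hcd with ⟨rfl, rfl⟩ | ⟨rfl, rfl⟩
    · exact h2
    · exact ⟨h2.2, h2.1⟩
  · intro t ht hn h1
    have h2 := Z.no_AB (a := a) (t := t) h h1
    rw [show pt (Y 0) (a t) = Y (nb 0 t) by rw [hY 0 hNP t ht hn, pt_eq]] at h2
    rw [L.p, L.p]
    exact h2
  · intro t sd q ht hsd hq he h1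
    obtain ⟨v, I, h2, h3, h4⟩ := at_gen hNW D w (t := t) hsd
    have hv := xs_of h I (((exl_iff h hM hz hNW D L).2).1 he)
    rw [hset] at hv
    obtain ⟨h5, h6⟩ := Z.wg_C2 h hv (by omega)
    rw [mw_iff hNW, mw_opp hNW D, ← h3, ← h4 A, h5, h6]
    exact ⟨⟨fun e => co_inj σ hq (by omega) e, fun e => by rw [e]; rfl⟩,
      ⟨fun e => co_inj σ hq (by omega) e, fun e => by rw [e]; rfl⟩⟩
  · intro t sd q ht hsd hq he h1
    obtain ⟨v, I, h2, h3, h4⟩ := at_gen hNW D w (t := t) hsd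
    have hv := xs_of h I (((exl_iff h hM hz hNW D L).2).1 he)
    rw [hset] at hv
    obtain ⟨h5, h6⟩ := Z.wg_C6 h hv (by omega)
    rw [mw_iff hNW, mw_opp hNW D, ← h3, ← h4 A, h5, h6]
    exact ⟨⟨fun e => co_inj σ hq (by omega) e, fun e => by rw [e]; rfl⟩,
      ⟨fun e => co_inj σ hq (by omega) e, fun e => by rw [e]; rfl⟩⟩

/-- the rules without the zone code -/
structure Cn (M : MdW K NP NW nb) (MW : ℕ → ℕ → ℕ → Prop) : Prop where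
  t0 : ∀ {q}, q < 6 → (M.T 0 q ↔ q < 4)
  x0 : M.X 0
  lex : ∀ {t sd}, t < 6 * K → sd < 2 → ¬ M.LU 0 t sd 4 → ¬ M.LU 0 t sd 5 → Exl M t sd 0 1 ∨ Exl M t sd 2 3
  lex1 : ∀ {t sd q}, t < 6 * K → sd < 2 → q < 6 → Exl M t sd 0 1 → M.LU 0 t sd q → q < 2
  lex2 : ∀ {t sd q}, t < 6 * K → sd < 2 → q < 6 → Exl M t sd 2 3 → M.LU 0 t sd q → 2 ≤ q
  mR : ∀ {t q}, t < 6 * K → q < 6 → MW t 1 q → M.V 0 0 t q
  mL : ∀ {t q}, t < 6 * K → q < 6 → MW (ad K t 1) 0 q → M.V 0 0 t q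
  mne : ∀ {t sd}, t < 6 * K → sd < 2 → ∃ q < 4, MW t sd q
  mdis : ∀ {t sd q}, t < 6 * K → sd < 2 → q < 6 → MW t sd q → ¬ M.LU 0 t sd q
  mdis' : ∀ {t sd q}, t < 6 * K → sd < 2 → q < 6 → MW (ad K t (3 * K)) sd q → ¬ M.LU 0 t sd q

include hz in
theorem t0_iff {q : ℕ} (hq : q < 6) : co σ q ∈ T (Y 0) ↔ q < 4 := by
  have hpal := hz.pal
  rw [hpal]
  constructor
  · rintro (e | e | e | e)
    · have := co_inj σ hq (by norm_num) e; omega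
    · have := co_inj σ hq (by norm_num) e; omega
    · have := co_inj σ hq (by norm_num) e; omega
    · have := co_inj σ hq (by norm_num) e; omega
  · intro h4
    interval_cases q
    · exact Or.inl rfl
    · exact Or.inr (Or.inl rfl)
    · exact Or.inr (Or.inr (Or.inl rfl))
    · exact Or.inr (Or.inr (Or.inr rfl))

include h hM A hz hNW D L in
theorem cn_of : Cn M (MW σ K Mw) := by
  refine ⟨?_, ?_, ?_, ?_, ?_, ?_, ?_, ?_, ?_, ?_⟩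
  · intro q hq
    rw [L.t]; exact t0_iff hz hq
  · rw [L.x]
    obtain ⟨p, hp1, hp2⟩ := hz.arc1
    have h1 : T p = {co σ 0, co σ 1} := hp2.self_of_nhdsWithin (mem_sphere.2 hp1)
    have h2 : co σ 0 ∈ T (Y 0) := by rw [hz.pal]; exact Or.inl rfl
    have h3 : co σ 0 ∈ T p := by rw [h1]; exact Or.inl rfl
    exact h.mem_XX (by rw [dist_comm]; exact hp1) h2 (h.sub _ h3)
  · intro t sd ht hsd h4 h5
    have e := exl_iff h hM hz hNW D L (t := t) (sd := sd)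
    rcases exact_pair h hM hz hNW D (fun h' => h4 ((lu_iff hNW L).2 h')) (fun h' => h5 ((lu_iff hNW L).2 h'))
      with h1 | h1
    · exact Or.inl (e.1.2 h1)
    · exact Or.inr (e.2.2 h1)
  · intro t sd q ht hsd hq he hl
    have h1 := (lu_iff hNW L).1 hl
    rw [(exl_iff h hM hz hNW D L).1.1 he] at h1
    rcases h1 with h1 | h1
    · have := co_inj σ hq (by norm_num) h1; omega
    · have := co_inj σ hq (by norm_num) h1; omega
  · intro t sd q ht hsd hq he hl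
    have h1 := (lu_iff hNW L).1 hl
    rw [(exl_iff h hM hz hNW D L).2.1 he] at h1
    rcases h1 with h1 | h1
    · have := co_inj σ hq (by norm_num) h1; omega
    · have := co_inj σ hq (by norm_num) h1; omega
  · intro t q ht hq hm
    rw [L.v]
    exact (D (t % K)).sector_R A ((mw_iff hNW).1 hm)
  · intro t q ht hq hm
    rw [L.v]
    have h1 := (mw_iff hNW).1 hm
    rw [ad_eq, (D _).perM] at h1
    exact (D _).sector_L A h1
  · intro t sd ht hsd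
    obtain ⟨c, hc⟩ := (D (t % K)).ne h ⟨0, hNW⟩ t sd
    obtain ⟨q, hq, rfl⟩ := co_surj σ c
    refine ⟨q, ?_, (mw_iff hNW).2 hc⟩
    obtain ⟨τ, -, h2⟩ := (D (t % K)).at_some sd
    rw [← h2 (⟨0, hNW⟩, t)] at hc
    exact (t0_iff hz hq).1 (wg_sub h hc)
  · intro t sd q ht hsd hq hm hl
    exact Set.disjoint_left.1 ((D (t % K)).disj h ⟨0, hNW⟩ t sd) ((mw_iff hNW).1 hm) ((lu_iff hNW L).1 hl)
  · intro t sd q ht hsd hq hm hl
    exact Set.disjoint_left.1 ((D (t % K)).disj' h A ⟨0, hNW⟩ t sd) ((mw_opp hNW D).1 hm) ((lu_iff hNW L).1 hl)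

/-- the three parts give the rules -/
def mkDZ (A : Tick K a) (ok : w.Ok) (E : Prop) {MW : ℕ → ℕ → ℕ → Prop} (n : Cn M MW) (m : Cm M (Zc w a) MW)
    (f : ¬ E → Hf M (Zc w a) MW 2 3) (f' : E → Hf M (Zc w a) MW 3 2) : DZ M where
  Zc := Zc w a
  Za := Za w a
  E := E
  MW := MW
  t0 := n.t0
  x0 := n.x0
  zlt := zc_lt _ _
  zhalf := fun {t k} _ _ => by rw [ad_eq, zc_mod A, zc_half A]
  za0 := za_zero
  zatop := za_top A
  zamono := za_mono A (Nat.le_succ _)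
  zcza := fun _ _ => zc_za A _ _
  zeven := fun _ he => zc_even ok he
  lA := m.lA
  lB := m.lB
  lC := fun ht hsd hc hE => (f hE).lC ht hsd hc
  lC' := fun ht hsd hc hE => (f' hE).lC ht hsd hc
  lD := fun ht hsd hc hE => (f hE).lD ht hsd hc
  lD' := fun ht hsd hc hE => (f' hE).lD ht hsd hc
  lex := n.lex
  lex1 := n.lex1
  lex2 := n.lex2
  lAB := m.lAB
  lCD := m.lCD
  nA := m.nA
  nB := m.nB
  nC := fun ht hn hc hE => (f hE).nC ht hn hc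
  nC' := fun ht hn hc hE => (f' hE).nC ht hn hc
  nD := fun ht hn hc hE => (f hE).nD ht hn hc
  nD' := fun ht hn hc hE => (f' hE).nD ht hn hc
  pCD := m.pCD
  pAB := m.pAB
  mR := n.mR
  mL := n.mL
  mne := n.mne
  d0 := fun ht hsd hq he hc hE => (f hE).d0 ht hsd hq he hc
  d0' := fun ht hsd hq he hc hE => (f' hE).d0 ht hsd hq he hc
  d4 := fun ht hsd hq he hc hE => (f hE).d4 ht hsd hq he hc
  d4' := fun ht hsd hq he hc hE => (f' hE).d4 ht hsd hq he hc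
  d2 := m.d2
  d6 := m.d6
  mdis := n.mdis
  mdis' := n.mdis'

include h hM A hz hNW D L in
/-- **the two-pair centre has the rules `DZ`** -/
theorem exists_dz (hY : Tab K a NP nb Y) : ∃ Z : DZ M, Z.MW = MW σ K Mw := by
  have hNP : 0 < NP := lt_of_lt_of_le hNW M.hNW
  have n := cn_of h hM A hz hNW D L
  obtain ⟨w, Z | Z⟩ := exists_Zn h hz
  · exact ⟨mkDZ A Z.win.ok False n (cm_of h hM A hz hNW D L hY hNP (Or.inl ⟨rfl, rfl⟩) Z)
      (fun _ => hf_of h hM A hz hNW D L hY hNP (by norm_num) (by norm_num) Z) (fun e => e.elim), rfl⟩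
  · exact ⟨mkDZ A Z.win.ok True n (cm_of h hM A hz hNW D L hY hNP (Or.inr ⟨rfl, rfl⟩) Z)
      (fun e => absurd trivial e) (fun _ => hf_of h hM A hz hNW D L hY hNP (by norm_num) (by norm_num) Z), rfl⟩

end inst

end Vale.Agent.P032.H254
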