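import Vale.Agent.P032.H254.WG
import Vale.Agent.P032.H254.MkDZ

/-!
# P032: the instance of the wedge palettes

`exists_wg` : frame `Irr U T`, words with wedge palettes `H556.Wm` : the rules `WG M`.
-/

open Set Filter Topology Metric

noncomputable section

namespace Vale.Agent.P032.H254

open Vale.Agent.P032.Six Vale.Agent.P032.H892 Vale.Agent.P032.H913 Vale.Agent.P032.S5.H767 Vale.Agent.P032.H61
  Vale.Agent.P032.H357 Vale.Agent.P032.H357.MK Vale.Agent.P032.H556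
open Vale.Agent.P032.H820.K (df ad hcell gk gt)
open Vale.Agent.P032.H240.W (MdW)
open Vale.Agent.P032.H993.MkW (LW LL lw_iff ll_iff Tab ad_mod)

variable {U : Fin 6 → Set ℂ} {T : ℂ → Set (Fin 6)} {c : Fin 6}

/-! ### signs -/

/-- all small shifts of the wedge and of the letter -/
def Sg (a : ℕ → ℝ) (sd sd' t s : ℕ) (P : ℝ → Prop) : Prop :=
  ∀ᶠ τ in sdf sd, ∀ᶠ τ' in sdf sd', P (Real.cos ((ra a t + τ - (a s + τ')) * (Real.pi / 3)))

theorem sdf_ab (sd : ℕ) {r : ℝ} (hr : 0 < r) : ∀ᶠ τ in sdf sd, |τ| < r := by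
  have h1 : ∀ᶠ τ in 𝓝 (0 : ℝ), |τ| < r := by
    filter_upwards [Ioo_mem_nhds (neg_lt_zero.2 hr) hr] with τ hτ using abs_lt.2 hτ
  unfold sdf
  split_ifs
  · exact h1.filter_mono nhdsWithin_le_nhds
  · exact h1.filter_mono nhdsWithin_le_nhds

theorem sdf0_neg : ∀ᶠ τ in sdf 0, τ < 0 := by
  rw [sdf_ne (by norm_num)]
  exact self_mem_nhdsWithin

theorem sdf1_pos : ∀ᶠ τ in sdf 1, 0 < τ := by
  rw [sdf_one]
  exact self_mem_nhdsWithin

theorem cneg_of {y : ℝ} (h1 : 3 / 2 < y) (h2 : y < 9 / 2) : Real.cos (y * (Real.pi / 3)) < 0 := cos_neg_of h1 h2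

theorem cpos_of {y : ℝ} (h1 : -(3 / 2) < y) (h2 : y < 3 / 2) : 0 < Real.cos (y * (Real.pi / 3)) := by
  have hpi := Real.pi_pos
  exact Real.cos_pos_of_mem_Ioo ⟨by nlinarith, by nlinarith⟩

theorem cpos_of' {y : ℝ} (h1 : 9 / 2 < y) (h2 : y < 15 / 2) : 0 < Real.cos (y * (Real.pi / 3)) := by
  have e : y * (Real.pi / 3) = (y - 6) * (Real.pi / 3) + 2 * Real.pi := by ring
  rw [e, Real.cos_add_two_pi]
  exact cpos_of (by linarith) (by linarith)

variable {K : ℕ} {a : ℕ → ℝ}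

/-- the cosine depends on `t` modulo `6 K` -/
theorem cos_mod (A : Tick K a) {t s : ℕ} (ht : t < 6 * K) (hs : s < 6 * K) (y : ℝ) :
    Real.cos ((ra a t - y) * (Real.pi / 3)) = Real.cos ((ra a (s + df K t s) - y) * (Real.pi / 3)) := by
  rcases df_cases ht hs with ⟨h1, h2⟩ | ⟨h1, h2⟩
  · rw [h2, show s + (t - s) = t by omega]
  · rw [h2, show s + (t + 6 * K - s) = t + 6 * K by omega, CK.ra_full A,
      show (ra a t + 6 - y) * (Real.pi / 3) = (ra a t - y) * (Real.pi / 3) + 2 * Real.pi by ring,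
      Real.cos_add_two_pi]

/-- the sign of the cosine for every admissible pair of shifts; `f` is the shift of the letter or zero -/
theorem sgn (A : Tick K a) {t s sd : ℕ} (ht : t < 6 * K) (hs : s < 6 * K) :
    ∃ r > 0, ∀ τ τ' : ℝ, |τ| < r → |τ'| < r →
      ((df K t s = 0 ∨ df K t s = 3 * K) → (sd = 0 → τ < τ') ∧ (sd = 1 → τ' < τ)) → sd < 2 →
        (wpos K sd t s = true → 0 < Real.cos ((ra a t + τ - (a s + τ')) * (Real.pi / 3))) ∧
          (wpos K sd t s = false → Real.cos ((ra a t + τ - (a s + τ')) * (Real.pi / 3)) < 0) := by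
  have hK := A.pos
  have hlt := df_lt ht hs
  have key : ∀ τ τ' : ℝ, Real.cos ((ra a t + τ - (a s + τ')) * (Real.pi / 3)) =
      Real.cos ((ra a (s + df K t s) - (a s) + (τ - τ')) * (Real.pi / 3)) := by
    intro τ τ'
    rw [show (ra a t + τ - (a s + τ')) = ra a t - (a s - (τ - τ')) by ring, cos_mod A ht hs,
      show ra a (s + df K t s) - (a s - (τ - τ')) = ra a (s + df K t s) - a s + (τ - τ') by ring]
  unfold wpos
  rw [show Nat.mul 3 K = 3 * K from rfl]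
  generalize df K t s = d at key hlt
  have r0 : ra a s = a s + 3 / 2 := rfl
  have h3K := CK.ra_half A s
  have h6K := CK.ra_full A s
  by_cases h0 : d = 0
  · subst h0
    refine ⟨1, one_pos, fun τ τ' h1 h2 h3 h4 => ?_⟩
    obtain ⟨h5, h6⟩ := abs_lt.1 h1
    obtain ⟨h7, h8⟩ := abs_lt.1 h2
    obtain ⟨h9, h10⟩ := h3 (Or.inl rfl)
    rw [key, add_zero]
    simp only [Nat.beq_refl, cond_true]
    interval_cases sd
    · have := h9 rfl
      exact ⟨fun _ => cpos_of (by linarith) (by linarith), fun h => absurd h (by decide)⟩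
    · have := h10 rfl
      exact ⟨fun h => absurd h (by decide), fun _ => cneg_of (by linarith) (by linarith)⟩
  by_cases h3 : d = 3 * K
  · subst h3
    refine ⟨1, one_pos, fun τ τ' h1 h2 h3 h4 => ?_⟩
    obtain ⟨h5, h6⟩ := abs_lt.1 h1
    obtain ⟨h7, h8⟩ := abs_lt.1 h2
    obtain ⟨h9, h10⟩ := h3 (Or.inr rfl)
    rw [key, nbeq_zero h0]
    simp only [Nat.beq_refl, cond_true, cond_false]
    interval_cases sd
    · have := h9 rfl
      exact ⟨fun h => absurd h (by decide), fun _ => cneg_of (by linarith) (by linarith)⟩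
    · have := h10 rfl
      exact ⟨fun _ => cpos_of' (by linarith) (by linarith), fun h => absurd h (by decide)⟩
  · have hb : Nat.beq d (3 * K) = false := by rw [← Bool.not_eq_true, nbeq]; exact h3
    rw [nbeq_zero h0, hb]
    simp only [cond_false]
    by_cases h4 : 3 * K < d
    · have m1 := CK.ra_lt A (show s + 3 * K < s + d by omega)
      have m2 := CK.ra_lt A (show s + d < s + 6 * K by omega)
      refine ⟨min ((ra a (s + d) - ra a (s + 3 * K)) / 2) ((ra a (s + 6 * K) - ra a (s + d)) / 2),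
        lt_min (by linarith) (by linarith), fun τ τ' h1 h2 _ _ => ?_⟩
      obtain ⟨h5, h6⟩ := abs_lt.1 (h1.trans_le (min_le_left _ _))
      obtain ⟨h7, h8⟩ := abs_lt.1 (h2.trans_le (min_le_left _ _))
      obtain ⟨h5', h6'⟩ := abs_lt.1 (h1.trans_le (min_le_right _ _))
      obtain ⟨h7', h8'⟩ := abs_lt.1 (h2.trans_le (min_le_right _ _))
      rw [key]
      refine ⟨fun _ => cpos_of' (by linarith) (by linarith), fun h => ?_⟩
      rw [Nat.ble_eq_true_of_le (show (3 * K).succ ≤ d from h4)] at h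
      exact absurd h (by decide)
    · have m1 := CK.ra_lt A (show s < s + d by omega)
      have m2 := CK.ra_lt A (show s + d < s + 3 * K by omega)
      refine ⟨min ((ra a (s + d) - ra a s) / 2) ((ra a (s + 3 * K) - ra a (s + d)) / 2),
        lt_min (by linarith) (by linarith), fun τ τ' h1 h2 _ _ => ?_⟩
      obtain ⟨h5, h6⟩ := abs_lt.1 (h1.trans_le (min_le_left _ _))
      obtain ⟨h7, h8⟩ := abs_lt.1 (h2.trans_le (min_le_left _ _))
      obtain ⟨h5', h6'⟩ := abs_lt.1 (h1.trans_le (min_le_right _ _))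
      obtain ⟨h7', h8'⟩ := abs_lt.1 (h2.trans_le (min_le_right _ _))
      rw [key]
      refine ⟨fun h => absurd (Nat.le_of_ble_eq_true h) h4, fun _ => cneg_of (by linarith) (by linarith)⟩

/-- shifts of the letter -/
theorem ev_two (A : Tick K a) {t s sd sd' : ℕ} (ht : t < 6 * K) (hs : s < 6 * K) (hsd : sd < 2) (hsd' : sd' < 2)
    (hg : wgen K sd sd' t s = true) :
    (wpos K sd t s = true → Sg a sd sd' t s (fun y => 0 < y)) ∧
      (wpos K sd t s = false → Sg a sd sd' t s (fun y => y < 0)) := by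
  obtain ⟨r, hr, h1⟩ := sgn A (sd := sd) ht hs
  have h2 : ∀ᶠ τ in sdf sd, ∀ᶠ τ' in sdf sd', |τ| < r ∧ |τ'| < r ∧
      ((df K t s = 0 ∨ df K t s = 3 * K) → (sd = 0 → τ < τ') ∧ (sd = 1 → τ' < τ)) := by
    have h3 : (df K t s = 0 ∨ df K t s = 3 * K) → sd ≠ sd' := by
      rintro h4 rfl
      unfold wgen at hg
      rw [Nat.beq_refl, show Nat.mul 3 K = 3 * K from rfl] at hg
      simp only [Bool.not_true, Bool.false_or, Bool.not_eq_true', Bool.or_eq_false_iff] at hg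
      rcases h4 with h4 | h4
      · rw [nbeq.2 h4] at hg; exact absurd hg.1 (by decide)
      · rw [nbeq.2 h4] at hg; exact absurd hg.2 (by decide)
    interval_cases sd <;> interval_cases sd'
    · filter_upwards [sdf_ab 0 hr] with τ h4
      filter_upwards [sdf_ab 0 hr] with τ' h5
      exact ⟨h4, h5, fun h6 => absurd rfl (h3 h6)⟩
    · filter_upwards [sdf_ab 0 hr, sdf0_neg] with τ h4 h6
      filter_upwards [sdf_ab 1 hr, sdf1_pos] with τ' h5 h7
      exact ⟨h4, h5, fun _ => ⟨fun _ => by linarith, fun h => absurd h (by norm_num)⟩⟩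
    · filter_upwards [sdf_ab 1 hr, sdf1_pos] with τ h4 h6
      filter_upwards [sdf_ab 0 hr, sdf0_neg] with τ' h5 h7
      exact ⟨h4, h5, fun _ => ⟨fun h => absurd h (by norm_num), fun _ => by linarith⟩⟩
    · filter_upwards [sdf_ab 1 hr] with τ h4
      filter_upwards [sdf_ab 1 hr] with τ' h5
      exact ⟨h4, h5, fun h6 => absurd rfl (h3 h6)⟩
  constructor
  · intro hp
    filter_upwards [h2] with τ h3
    filter_upwards [h3] with τ' h4
    exact (h1 τ τ' h4.1 h4.2.1 h4.2.2 hsd).1 hp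
  · intro hp
    filter_upwards [h2] with τ h3
    filter_upwards [h3] with τ' h4
    exact (h1 τ τ' h4.1 h4.2.1 h4.2.2 hsd).2 hp

/-- the neighbour -/
theorem ev_one (A : Tick K a) {t s sd : ℕ} (ht : t < 6 * K) (hs : s < 6 * K) (hsd : sd < 2) :
    (wpos K sd t s = true → ∀ᶠ τ in sdf sd, 0 < Real.cos ((ra a t + τ - a s) * (Real.pi / 3))) ∧
      (wpos K sd t s = false → ∀ᶠ τ in sdf sd, Real.cos ((ra a t + τ - a s) * (Real.pi / 3)) < 0) := by
  obtain ⟨r, hr, h1⟩ := sgn A (sd := sd) ht hs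
  have h2 : ∀ᶠ τ in sdf sd, |τ| < r ∧ (sd = 0 → τ < 0) ∧ (sd = 1 → 0 < τ) := by
    interval_cases sd
    · filter_upwards [sdf_ab 0 hr, sdf0_neg] with τ h4 h6
      exact ⟨h4, fun _ => h6, fun h => absurd h (by norm_num)⟩
    · filter_upwards [sdf_ab 1 hr, sdf1_pos] with τ h4 h6
      exact ⟨h4, fun h => absurd h (by norm_num), fun _ => h6⟩
  have h0 : |(0 : ℝ)| < r := by rwa [abs_zero]
  constructor
  · intro hp
    filter_upwards [h2] with τ h3
    have := (h1 τ 0 h3.1 h0 (fun _ => h3.2) hsd).1 hp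
    rwa [add_zero] at this
  · intro hp
    filter_upwards [h2] with τ h3
    have := (h1 τ 0 h3.1 h0 (fun _ => h3.2) hsd).2 hp
    rwa [add_zero] at this

/-! ### sources and half planes of the wedges -/

section fam
variable {J : Type*} {X : J → ℂ} {W W' : J → ℕ → ℕ → ℕ → Set (Fin 6)} {Mw : J → ℕ → ℕ → Set (Fin 6)}
  (D : Wm U T K a X W Mw) (D' : Wp U T K a X W')
include D D'

theorem ow_in (h : Irr U T) {j : J} {t s sd sd' : ℕ} (S : Sg a sd sd' t s (fun y => 0 < y))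
    (hM : Mw j t sd ⊆ {c}) : c ∉ W' j s sd' 1 := by
  obtain ⟨τ, h0, -, h2⟩ := D.at_ev S
  refine (D'.fam sd').ci_ev h (j := (j, s)) ?_
  filter_upwards [h0] with τ' h3
  rw [pt_eq]
  refine ds_ci h (θ := a t + τ + 3 / 2) (fun r hr => ?_) ?_
  · have h4 : r ∈ Wg T (X j) (a t + τ) := hr
    rw [h2 (j, t)] at h4
    simpa using hM h4
  · rwa [show a t + τ + 3 / 2 - (a s + τ') = ra a t + τ - (a s + τ') by unfold ra; ring]

theorem ow_out (h : Irr U T) {j : J} {t s sd sd' : ℕ} (S : Sg a sd sd' t s (fun y => y < 0))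
    (hM : Mw j t sd ⊆ {c}) : c ∉ W' j s sd' 0 := by
  obtain ⟨τ, h0, -, h2⟩ := D.at_ev S
  refine (D'.fam sd').co_ev h (j := (j, s)) ?_
  filter_upwards [h0] with τ' h3
  rw [pt_eq]
  refine ds_co h (θ := a t + τ + 3 / 2) (fun r hr => ?_) ?_
  · have h4 : r ∈ Wg T (X j) (a t + τ) := hr
    rw [h2 (j, t)] at h4
    simpa using hM h4
  · rwa [show a t + τ + 3 / 2 - (a s + τ') = ra a t + τ - (a s + τ') by unfold ra; ring]

theorem hp_in (h : Irr U T) {j : J} {t s sd sd' : ℕ} (S : Sg a sd sd' t s (fun y => y < 0))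
    (hc : c ∈ Mw j t sd) : ¬ W' j s sd' 0 ⊆ {c} := by
  intro hW
  obtain ⟨τ, h0, -, h2⟩ := D.at_ev S
  rw [← h2 (j, t)] at hc
  have h3 : a t + τ + 3 / 2 ∈ DS (U c) (X j) := ds_u h hc
  obtain ⟨τ', h4, h5⟩ := (D'.fam sd').exists_at h0
  refine hit_in h h3 (v := a s + τ') ?_ (by rw [(h5 (j, s)).eqP]; exact hW)
  rwa [show a t + τ + 3 / 2 - (a s + τ') = ra a t + τ - (a s + τ') by unfold ra; ring]

theorem hp_out (h : Irr U T) {j : J} {t s sd sd' : ℕ} (S : Sg a sd sd' t s (fun y => 0 < y))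
    (hc : c ∈ Mw j t sd) : ¬ W' j s sd' 1 ⊆ {c} := by
  intro hW
  obtain ⟨τ, h0, -, h2⟩ := D.at_ev S
  rw [← h2 (j, t)] at hc
  have h3 : a t + τ + 3 / 2 ∈ DS (U c) (X j) := ds_u h hc
  obtain ⟨τ', h4, h5⟩ := (D'.fam sd').exists_at h0
  refine hit_out h h3 (v := a s + τ') ?_ (by rw [(h5 (j, s)).eqQ]; exact hW)
  rwa [show a t + τ + 3 / 2 - (a s + τ') = ra a t + τ - (a s + τ') by unfold ra; ring]

end fam

/-! ### the instance -/

/-- the wedge colours of the word points -/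
def MX (σ : Equiv.Perm (Fin 6)) (K : ℕ) {NW : ℕ} (Mw : ℕ → Fin NW → ℕ → ℕ → Set (Fin 6)) (x t sd q : ℕ) : Prop :=
  ∃ hx : x < NW, co σ q ∈ Mw (t % K) ⟨x, hx⟩ t sd

theorem mx_zero (σ : Equiv.Perm (Fin 6)) (K : ℕ) {NW : ℕ} (Mw : ℕ → Fin NW → ℕ → ℕ → Set (Fin 6)) :
    MX σ K Mw 0 = MW σ K Mw := rfl

variable {σ : Equiv.Perm (Fin 6)} {NP NW : ℕ} {nb : ℕ → ℕ → ℕ} {Y : ℕ → ℂ}
  {W : ℕ → Fin NW → ℕ → ℕ → ℕ → Set (Fin 6)} {Mw : ℕ → Fin NW → ℕ → ℕ → Set (Fin 6)}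

section
variable {x t sd q : ℕ} (hx : x < NW)
include hx

theorem mx_iff : MX σ K Mw x t sd q ↔ co σ q ∈ Mw (t % K) ⟨x, hx⟩ t sd :=
  ⟨fun ⟨_, h⟩ => h, fun h => ⟨hx, h⟩⟩

theorem mx_opp (D : ∀ r, Wm U T K a (fun j : Fin NW => Y j) (W r) (Mw r)) :
    MX σ K Mw x (ad K t (3 * K)) sd q ↔ co σ q ∈ Mw (t % K) ⟨x, hx⟩ (t + 3 * K) sd := by
  rw [mx_iff hx, ad_mod K t (3 * K) (Nat.mul_mod_left 3 K), ad_eq, (D _).perM]

theorem mx_sub (hs : ∀ r < 6, r ≠ q → ¬ MX σ K Mw x t sd r) : Mw (t % K) ⟨x, hx⟩ t sd ⊆ {co σ q} := by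
  intro i hi
  obtain ⟨r, hr, rfl⟩ := co_surj σ i
  by_contra hne
  exact hs r hr (fun e => hne (by rw [e]; rfl)) ((mx_iff hx).2 hi)

theorem not_sub {io : ℕ} {M : MdW K NP NW nb} (L : Lk U T K a σ NP NW nb Y W M)
    (hn : ¬ W (t % K) ⟨x, hx⟩ t sd io ⊆ {co σ q}) : ∃ r < 6, r ≠ q ∧ M.LT x t sd io r := by
  rw [Set.not_subset] at hn
  obtain ⟨i, hi, hne⟩ := hn
  obtain ⟨r, hr, rfl⟩ := co_surj σ i
  exact ⟨r, hr, fun e => hne (by rw [e]; rfl), L.lt.2 ((lw_iff hx).2 hi)⟩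

end

/-- **the wedge palettes have the rules `WG`** -/
theorem exists_wg (h : Irr U T) (A : Tick K a) (D : ∀ r, Wm U T K a (fun j : Fin NW => Y j) (W r) (Mw r))
    {M : MdW K NP NW nb} (L : Lk U T K a σ NP NW nb Y W M) (hY : Tab K a NP nb Y) :
    ∃ G : WG M, G.MW = MX σ K Mw := by
  have lu : ∀ {x t sd q : ℕ} (hx : x < NW),
      M.LU x t sd q ↔ co σ q ∈ W (t % K) ⟨x, hx⟩ t sd 0 ∪ W (t % K) ⟨x, hx⟩ t sd 1 := by
    intro x t sd q hx
    unfold MdW.LU
    rw [L.lt, L.lt, lw_iff hx, lw_iff hx]; rfl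
  have lt : ∀ {x t sd io q : ℕ} (hx : x < NW), M.LT x t sd io q ↔ co σ q ∈ W (t % K) ⟨x, hx⟩ t sd io := by
    intro x t sd io q hx
    rw [L.lt, lw_iff hx]
  refine ⟨⟨MX σ K Mw, ?_, ?_, ?_, ?_, ?_, ?_, ?_, ?_, ?_, ?_, ?_, ?_, ?_, ?_⟩, rfl⟩
  · intro x t sd hx ht hsd
    obtain ⟨c, hc⟩ := (D (t % K)).ne h ⟨x, hx⟩ t sd
    obtain ⟨q, hq, rfl⟩ := co_surj σ c
    exact ⟨q, hq, (mx_iff hx).2 hc⟩
  · intro x t sd q hx ht hsd hq hm
    have hc := (mx_iff hx).1 hm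
    obtain ⟨τ, -, h2⟩ := (D (t % K)).at_some sd
    rw [← h2 (⟨x, hx⟩, t)] at hc
    exact L.t.2 (wg_sub h hc)
  · intro x t q hx ht hq hm
    exact L.v.2 ((D (t % K)).sector_R A ((mx_iff hx).1 hm))
  · intro x t q hx ht hq hm
    have h1 := (mx_iff hx).1 hm
    rw [ad_eq, (D _).perM] at h1
    exact L.v.2 ((D _).sector_L A h1)
  · intro x t sd q hx ht hsd hq hm hl
    exact Set.disjoint_left.1 ((D (t % K)).disj h ⟨x, hx⟩ t sd) ((mx_iff hx).1 hm) ((lu hx).1 hl)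
  · intro x t sd q hx ht hsd hq hm hl
    exact Set.disjoint_left.1 ((D (t % K)).disj' h A ⟨x, hx⟩ t sd) ((mx_opp hx D).1 hm) ((lu hx).1 hl)
  · intro x t sd io q hx ht hsd hio hq hm
    have h1 := (D (t % K)).both h ((mx_iff hx).1 hm)
    interval_cases io
    · exact not_sub hx L h1.1
    · exact not_sub hx L h1.2
  · intro x t sd io q hx ht hsd hio hq hm
    have h1 := (D (t % K)).both' h A ((mx_opp hx D).1 hm)
    interval_cases io
    · exact not_sub hx L h1.1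
    · exact not_sub hx L h1.2
  · intro x t s sd q hx ht hs hsd hq hn hp hso
    have hxp : x < NP := lt_of_lt_of_le hx M.hNW
    have c := (D (t % K)).ci_ev h (mx_sub hx hso) ((ev_one A ht hs hsd).1 hp)
    have e := hY x hxp s hs hn
    rw [← e] at c
    refine ⟨fun h1 => (c.kill h e).1 (L.ph.1 h1), fun h1 => (c.kill h e).2 (L.pv.1 h1),
      fun h1 => (c.kill' A h e) ((cl_opp A).1 (L.pv.1 h1))⟩
  · intro x t s sd q hx ht hs hsd hq hn hp hso
    have hxp : x < NP := lt_of_lt_of_le hx M.hNW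
    have c := (D (t % K)).co_ev h (mx_sub hx hso) ((ev_one A ht hs hsd).2 hp)
    have e := hY x hxp s hs hn
    rw [← e] at c
    exact fun h1 => (c.kill A h e) ((hi_opp A).1 (L.ph.1 h1))
  · intro x t s sd sd' q hx ht hs hsd hsd' hq hg hp hso hl
    exact ow_in (D (t % K)) (D (s % K)).wp h ((ev_two A ht hs hsd hsd' hg).1 hp) (mx_sub hx hso) ((lt hx).1 hl)
  · intro x t s sd sd' q hx ht hs hsd hsd' hq hg hp hso hl
    exact ow_out (D (t % K)) (D (s % K)).wp h ((ev_two A ht hs hsd hsd' hg).2 hp) (mx_sub hx hso) ((lt hx).1 hl)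
  · intro x t s sd sd' q hx ht hs hsd hsd' hq hg hp hm
    exact not_sub hx L (hp_in (D (t % K)) (D (s % K)).wp h ((ev_two A ht hs hsd hsd' hg).2 hp) ((mx_iff hx).1 hm))
  · intro x t s sd sd' q hx ht hs hsd hsd' hq hg hp hm
    exact not_sub hx L (hp_out (D (t % K)) (D (s % K)).wp h ((ev_two A ht hs hsd hsd' hg).1 hp) ((mx_iff hx).1 hm))

end Vale.Agent.P032.H254
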