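import Vale.Agent.P032.H254.Cod
import Vale.Agent.P032.H556.Wp

/-!
# P032: zone codes at the ticks, frame `Irr U T`

Ticks `Tick K a`.  `Zc w a t k` : the zone code modulo 8 just before (`k = 0`), at (`k = 1`), just after (`k = 2`) the
direction `a t`; `Za w a i` : number of steps from the position `0` to the position `i = 3 t + k`.

* order: `zc_lt`, `zc_half`, `zc_mod`, `za_zero`, `za_top`, `za_mono`, `zc_za`, `zc_even`,
* letters (`IP`, `FamP`, `Wp` at the two-pair point `z`): `Zn.let_A_in`, `let_A_out`, `let_C_in`, `let_C_out`, `let_AB`,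
  `let_CD`,
* points `z + dir (a t)`: `Zn.nd_A_in` and so on (`Nd` : no colour `i` outside `S(z)`, no colour `j` inside, as cells).
-/

open Set Filter Topology Metric

noncomputable section

namespace Vale.Agent.P032.H254

open Vale.Agent.P032.Six Vale.Agent.P032.H892 Vale.Agent.P032.H913 Vale.Agent.P032.S5.H767 Vale.Agent.P032.H357
  Vale.Agent.P032.H556 Vale.Agent.P032.H61

variable {U : Fin 6 → Set ℂ} {T : ℂ → Set (Fin 6)} {z : ℂ} {s t' φ : ℝ} {A B C D : Fin 6} {w : Wn}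
  {K : ℕ} {a : ℕ → ℝ}

/-- the code at the position `i = 3 t + k` -/
def zp (w : Wn) (a : ℕ → ℝ) (i : ℕ) : ℤ :=
  if i % 3 = 0 then w.codL (a (i / 3)) else if i % 3 = 1 then w.cod (a (i / 3)) else w.codR (a (i / 3))

theorem zp_0 (t : ℕ) : zp w a (3 * t) = w.codL (a t) := by
  unfold zp
  rw [if_pos (by omega), show 3 * t / 3 = t by omega]

theorem zp_1 (t : ℕ) : zp w a (3 * t + 1) = w.cod (a t) := by
  unfold zp
  rw [if_neg (by omega), if_pos (by omega), show (3 * t + 1) / 3 = t by omega]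

theorem zp_2 (t : ℕ) : zp w a (3 * t + 2) = w.codR (a t) := by
  unfold zp
  rw [if_neg (by omega), if_neg (by omega), show (3 * t + 2) / 3 = t by omega]

theorem zp_half (hT : Tick K a) (i : ℕ) : zp w a (i + 9 * K) = zp w a i + 4 := by
  have h1 : (i + 9 * K) % 3 = i % 3 := by omega
  have h2 : (i + 9 * K) / 3 = i / 3 + 3 * K := by omega
  have h3 : a (i / 3 + 3 * K) = a (i / 3) + 3 := CK.a_half hT _
  unfold zp
  rw [h1, h2, h3, Wn.codL_add_three, Wn.cod_add_three, Wn.codR_add_three]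
  split_ifs <;> rfl

theorem zp_succ (hT : Tick K a) (i : ℕ) : zp w a i ≤ zp w a (i + 1) := by
  obtain ⟨t, rfl | rfl | rfl⟩ : ∃ t, i = 3 * t ∨ i = 3 * t + 1 ∨ i = 3 * t + 2 := ⟨i / 3, by omega⟩
  · rw [zp_0, zp_1]; exact w.codL_le _
  · rw [zp_1, show 3 * t + 1 + 1 = 3 * t + 2 by rfl, zp_2]; exact w.le_codR _
  · rw [zp_2, show 3 * t + 2 + 1 = 3 * (t + 1) by ring, zp_0]
    exact w.codR_le_codL (hT.mono (Nat.lt_succ_self t))

theorem zp_mono (hT : Tick K a) {i j : ℕ} (hij : i ≤ j) : zp w a i ≤ zp w a j := by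
  induction j, hij using Nat.le_induction with
  | base => exact le_rfl
  | succ j _ ih => exact ih.trans (zp_succ hT j)

/-- the zone code before, at, after a tick -/
def Zc (w : Wn) (a : ℕ → ℝ) (t k : ℕ) : ℕ := (zp w a (3 * t + k) % 8).toNat

/-- the number of steps from the position `0` -/
def Za (w : Wn) (a : ℕ → ℝ) (i : ℕ) : ℕ := (zp w a i - zp w a 0).toNat

theorem zc_lt (t k : ℕ) : Zc w a t k < 8 := by unfold Zc; omega

theorem zc_half (hT : Tick K a) (t k : ℕ) : Zc w a (t + 3 * K) k = (Zc w a t k + 4) % 8 := by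
  unfold Zc
  rw [show 3 * (t + 3 * K) + k = 3 * t + k + 9 * K by ring, zp_half hT]
  omega

theorem zc_full (hT : Tick K a) (t k : ℕ) : Zc w a (t + 6 * K) k = Zc w a t k := by
  rw [show t + 6 * K = t + 3 * K + 3 * K by ring, zc_half hT, zc_half hT]
  have := zc_lt (w := w) (a := a) t k
  omega

theorem zc_mod (hT : Tick K a) (t k : ℕ) : Zc w a (t % (6 * K)) k = Zc w a t k := by
  have h : ∀ q, Zc w a (t % (6 * K) + 6 * K * q) k = Zc w a (t % (6 * K)) k := by
    intro q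
    induction q with
    | zero => simp
    | succ q ih =>
      rw [← ih, show t % (6 * K) + 6 * K * (q + 1) = t % (6 * K) + 6 * K * q + 6 * K by ring, zc_full hT]
  have := h (t / (6 * K))
  rw [Nat.mod_add_div] at this
  exact this.symm

theorem za_zero : Za w a 0 = 0 := by unfold Za; omega

theorem za_top (hT : Tick K a) : Za w a (9 * K) = 4 := by
  have := zp_half (w := w) hT 0
  rw [zero_add] at this
  unfold Za; omega

theorem za_mono (hT : Tick K a) {i j : ℕ} (hij : i ≤ j) : Za w a i ≤ Za w a j := by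
  have := zp_mono (w := w) hT hij
  unfold Za; omega

theorem zc_za (hT : Tick K a) (t k : ℕ) : Zc w a t k = (Zc w a 0 0 + Za w a (3 * t + k)) % 8 := by
  have := zp_mono (w := w) hT (Nat.zero_le (3 * t + k))
  unfold Zc Za
  simp only [mul_zero, add_zero]
  omega

/-- a zone code at a tick is the code on both sides -/
theorem zc_even (ok : w.Ok) {t : ℕ} (h : Zc w a t 1 % 2 = 0) : Zc w a t 0 = Zc w a t 1 ∧ Zc w a t 2 = Zc w a t 1 := by
  unfold Zc at h ⊢
  rw [add_zero, zp_0, zp_1, zp_2]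
  rw [zp_1] at h
  obtain ⟨h1, h2⟩ := Wn.cod_even ok (φ := a t) (by omega)
  rw [h1, h2]
  exact ⟨rfl, rfl⟩

/-- the code of the generic directions on the side `sd` -/
theorem ev_side (w : Wn) (a : ℕ → ℝ) (t : ℕ) {sd : ℕ} (hsd : sd < 2) :
    ∀ᶠ τ in sdf sd, w.cod (a t + τ) = zp w a (3 * t + 2 * sd) := by
  rcases (show sd = 0 ∨ sd = 1 by omega) with rfl | rfl
  · rw [sdf_ne (by norm_num), mul_zero, add_zero, zp_0]
    have h1 : Tendsto (fun τ : ℝ => a t + τ) (𝓝[<] 0) (𝓝[<] (a t)) := by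
      refine tendsto_nhdsWithin_iff.2 ⟨?_, ?_⟩
      · have h2 : Continuous fun τ : ℝ => a t + τ := by fun_prop
        have h3 := h2.tendsto 0
        rw [add_zero] at h3
        exact h3.mono_left nhdsWithin_le_nhds
      · filter_upwards [self_mem_nhdsWithin] with τ hτ
        show a t + τ < a t
        have : τ < 0 := hτ
        linarith
    exact h1.eventually (w.ev_codL (a t))
  · rw [sdf_one, mul_one, zp_2]
    have h1 : Tendsto (fun τ : ℝ => a t + τ) (𝓝[>] 0) (𝓝[>] (a t)) := by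
      refine tendsto_nhdsWithin_iff.2 ⟨?_, ?_⟩
      · have h2 : Continuous fun τ : ℝ => a t + τ := by fun_prop
        have h3 := h2.tendsto 0
        rw [add_zero] at h3
        exact h3.mono_left nhdsWithin_le_nhds
      · filter_upwards [self_mem_nhdsWithin] with τ hτ
        show a t < a t + τ
        have : 0 < τ := hτ
        linarith
    exact h1.eventually (w.ev_codR (a t))

/-! ### letters -/

theorem IP.sides {x : ℂ} {P Q : Set (Fin 6)} {i j : Fin 6} (I : IP U T x s P Q) (h : Irr U T)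
    (hs : Sd U x (pt x s) i j) : i ∉ Q ∧ j ∉ P := by
  constructor
  · intro hi
    obtain ⟨y, h1, h2⟩ := (((I.out i).1 hi).and_eventually hs).exists
    exact h2.1 h1.2 (h.sub y (by rw [h1.1]; rfl))
  · intro hj
    obtain ⟨y, h1, h2⟩ := (((I.inn j).1 hj).and_eventually hs).exists
    exact h2.2 h1.2 (h.sub y (by rw [h1.1]; rfl))

/-- generic letters of `z` at the tick `t`, side `sd` -/
def Lt (U : Fin 6 → Set ℂ) (T : ℂ → Set (Fin 6)) (z : ℂ) (a : ℕ → ℝ) (t sd : ℕ) (P Q : Set (Fin 6)) : Prop :=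
  ∃ᶠ τ in sdf sd, IP U T z (a t + τ) P Q

theorem lt_of_Wp {J : Type*} {X : J → ℂ} {W : J → ℕ → ℕ → ℕ → Set (Fin 6)} (D : Wp U T K a X W) (j : J)
    (t sd : ℕ) : Lt U T (X j) a t sd (W j t sd 0) (W j t sd 1) :=
  (D.fam sd).mono fun _ hτ => hτ (j, t)

theorem let_at {t sd : ℕ} (hsd : sd < 2) {P Q : Set (Fin 6)} (L : Lt U T z a t sd P Q) :
    ∃ v, IP U T z v P Q ∧ (w.cod v % 8).toNat = Zc w a t (2 * sd) := by
  obtain ⟨τ, h1, h2⟩ := (L.and_eventually (ev_side w a t hsd)).exists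
  exact ⟨a t + τ, h1, by unfold Zc; rw [h2]⟩

namespace Zn

variable (Z : Zn U T z A B C D w)
include Z

section letters
variable {t sd : ℕ} (hsd : sd < 2) {P Q : Set (Fin 6)} (L : Lt U T z a t sd P Q)
include hsd L

/-- codes 6, 7, 0, 1, 2 : `A` only inside, `B` only outside -/
theorem let_A_in (h : Irr U T) (hc : Zc w a t (2 * sd) ≤ 2 ∨ 6 ≤ Zc w a t (2 * sd)) : A ∉ Q ∧ B ∉ P := by
  obtain ⟨v, I, hv⟩ := let_at (w := w) hsd L
  exact IP.sides I h (Z.sdA_in h (by omega))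

/-- codes 2, .., 6 : `B` only inside, `A` only outside -/
theorem let_A_out (h : Irr U T) (hc : 2 ≤ Zc w a t (2 * sd)) (hc' : Zc w a t (2 * sd) ≤ 6) : B ∉ Q ∧ A ∉ P := by
  obtain ⟨v, I, hv⟩ := let_at (w := w) hsd L
  exact IP.sides I h (Z.sdA_out h (by omega) (by omega))

/-- codes 0, .., 4 : `C` only inside, `D` only outside -/
theorem let_C_in (h : Irr U T) (hc : Zc w a t (2 * sd) ≤ 4) : C ∉ Q ∧ D ∉ P := by
  obtain ⟨v, I, hv⟩ := let_at (w := w) hsd L
  exact IP.sides I h (Z.sdC_in h (by omega))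

/-- codes 4, 5, 6, 7, 0 : `D` only inside, `C` only outside -/
theorem let_C_out (h : Irr U T) (hc : Zc w a t (2 * sd) = 0 ∨ 4 ≤ Zc w a t (2 * sd)) : D ∉ Q ∧ C ∉ P := by
  obtain ⟨v, I, hv⟩ := let_at (w := w) hsd L
  exact IP.sides I h (Z.sdC_out h (by omega))

/-- the exact letter `AB` has the code 0 or 4 -/
theorem let_AB (h : Irr U T) (hE : P ∪ Q = {A, B}) : Zc w a t (2 * sd) = 0 ∨ Zc w a t (2 * sd) = 4 := by
  obtain ⟨v, I, hv⟩ := let_at (w := w) hsd L
  have h1 : v ∈ XS T z {A, B} := by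
    show ∀ᶠ u in 𝓝 v, T (pt z u) = {A, B}
    filter_upwards [I.loc] with u hu
    rw [hu, I.union h, hE]
  have := Z.exact_A h h1
  omega

/-- the exact letter `CD` has the code 2 or 6 -/
theorem let_CD (h : Irr U T) (hE : P ∪ Q = {C, D}) : Zc w a t (2 * sd) = 2 ∨ Zc w a t (2 * sd) = 6 := by
  obtain ⟨v, I, hv⟩ := let_at (w := w) hsd L
  have h1 : v ∈ XS T z {C, D} := by
    show ∀ᶠ u in 𝓝 v, T (pt z u) = {C, D}
    filter_upwards [I.loc] with u hu
    rw [hu, I.union h, hE]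
  have := Z.exact_C h h1
  omega

end letters

end Zn

/-! ### points -/

/-- no `i` outside `S(z)`, no `j` inside `S(z)` near `z + dir (a t)`, in cells -/
structure Nd (U : Fin 6 → Set ℂ) (z : ℂ) (K : ℕ) (a : ℕ → ℝ) (t : ℕ) (i j : Fin 6) : Prop where
  far : ¬ HI (U i) (z + dir (a t)) a t
  m1 : ¬ Cl (U i) (z + dir (a t)) a 2 t
  m2 : ¬ Cl (U i) (z + dir (a t)) a 2 (t + 3 * K)
  near : ¬ HI (U j) (z + dir (a t)) a (t + 3 * K)

theorem nd_of_sd (h : Irr U T) (hT : Tick K a) {t : ℕ} {i j : Fin 6} (hs : Sd U z (pt z (a t)) i j) :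
    Nd U z K a t i j := by
  rw [pt_eq] at hs
  have hop : ∀ᶠ x in 𝓝 (z + dir (a t)), ∀ᶠ x' in 𝓝 x, (1 < dist x' z → i ∉ Pal U x') ∧
      (dist x' z < 1 → j ∉ Pal U x') := eventually_eventually_nhds.2 hs
  -- an open set at distance at least one has points at distance larger than one
  have key : ∀ x : ℂ, (∀ᶠ x' in 𝓝 x, (1 < dist x' z → i ∉ Pal U x') ∧ (dist x' z < 1 → j ∉ Pal U x')) →
      x ∈ U i → 1 ≤ dist x z → False := by
    intro x hx hxU hd
    rcases hd.eq_or_lt with h1 | h1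
    · obtain ⟨g, ⟨h2, h3⟩, h4⟩ := (((freq_out h1.symm).and_eventually hx).and_eventually
        ((h.mx.isOpen i).mem_nhds hxU)).exists
      exact h3.1 h2 (subset_closure h4)
    · exact hx.self_of_nhds.1 h1 (subset_closure hxU)
  refine ⟨fun hf => ?_, fun hf => ?_, fun hf => ?_, fun hf => ?_⟩
  · obtain ⟨x, ⟨h1, h2⟩, h3⟩ := (Frequently.and_eventually (show ∃ᶠ w in 𝓝 (z + dir (a t)), w ∈ U i ∧
      dist w (z + dir (a t) + dir (a t)) < 1 from hf) hop).exists
    refine key x h3 h1 ?_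
    have h4 : dist z (z + dir (a t) + dir (a t)) = 2 := by
      rw [dist_eq_norm, show z - (z + dir (a t) + dir (a t)) = -(2 * dir (a t)) by ring, norm_neg, norm_mul,
        norm_dir]
      simp
    have h5 := dist_triangle_left z (z + dir (a t) + dir (a t)) x
    linarith
  · rw [cl_pos (by norm_num)] at hf
    have h1 : Tendsto (fun p : ℝ × ℝ => po (z + dir (a t)) p) (𝓝 ((0 : ℝ), ra a t)) (𝓝 (z + dir (a t))) := by
      have := (continuous_po (z + dir (a t))).tendsto ((0 : ℝ), ra a t)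
      rwa [po_zero] at this
    obtain ⟨p, ⟨h2, h3⟩, h4⟩ := (hf.and_eventually (h1.eventually hop)).exists
    have h5 := (zn_two.1 h3).2
    rw [add_sub_cancel_right] at h5
    exact key _ h4 h2.2 h5
  · rw [cl_pos (by norm_num)] at hf
    have h1 : Tendsto (fun p : ℝ × ℝ => po (z + dir (a t)) p) (𝓝 ((0 : ℝ), ra a (t + 3 * K)))
        (𝓝 (z + dir (a t))) := by
      have := (continuous_po (z + dir (a t))).tendsto ((0 : ℝ), ra a (t + 3 * K))
      rwa [po_zero] at this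
    obtain ⟨p, ⟨h2, h3⟩, h4⟩ := (hf.and_eventually (h1.eventually hop)).exists
    have h5 := (zn_two.1 h3).1
    rw [CK.dir_half hT, add_neg_cancel_right] at h5
    exact key _ h4 h2.2 h5
  · have hf' : ∃ᶠ w in 𝓝 (z + dir (a t)), w ∈ U j ∧ dist w (z + dir (a t) + dir (a (t + 3 * K))) < 1 := hf
    rw [CK.dir_half hT, add_neg_cancel_right] at hf'
    obtain ⟨x, ⟨h1, h2⟩, h3⟩ := (hf'.and_eventually hs).exists
    exact h3.2 h2 (subset_closure h1)

/-- `Pal` on one side and on the other side is impossible: `i`, `j` are absent near the point -/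
theorem absent (h : Irr U T) {i j : Fin 6} (h1 : Sd U z (pt z φ) i j) (h2 : Sd U z (pt z φ) j i) :
    i ∉ Pal U (pt z φ) ∧ j ∉ Pal U (pt z φ) := by
  have key : ∀ i j : Fin 6, Sd U z (pt z φ) i j → Sd U z (pt z φ) j i → i ∉ Pal U (pt z φ) := by
    intro i j h1 h2 hi
    have h3 : ∀ᶠ x in 𝓝 (pt z φ), ∀ᶠ x' in 𝓝 x, ((1 < dist x' z → i ∉ Pal U x') ∧ (dist x' z < 1 → j ∉ Pal U x')) ∧
      ((1 < dist x' z → j ∉ Pal U x') ∧ (dist x' z < 1 → i ∉ Pal U x')) :=
      eventually_eventually_nhds.2 (h1.and h2)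
    have h4 : ∃ᶠ x in 𝓝 (pt z φ), x ∈ U i := mem_closure_iff_frequently.1 hi
    obtain ⟨x, h5, h6⟩ := (h4.and_eventually h3).exists
    rcases lt_trichotomy (dist x z) 1 with h7 | h7 | h7
    · exact h6.self_of_nhds.2.2 h7 (subset_closure h5)
    · obtain ⟨g, ⟨h8, h9⟩, h10⟩ := (((freq_out h7).and_eventually h6).and_eventually
        ((h.mx.isOpen i).mem_nhds h5)).exists
      exact h9.1.1 h8 (subset_closure h10)
    · exact h6.self_of_nhds.1.1 h7 (subset_closure h5)
  exact ⟨key i j h1 h2, key j i h2 h1⟩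

namespace Zn

variable (Z : Zn U T z A B C D w) {t : ℕ}
include Z

theorem nd_A_in (h : Irr U T) (hT : Tick K a) (hc : Zc w a t 1 ≤ 2 ∨ 6 ≤ Zc w a t 1) : Nd U z K a t A B := by
  unfold Zc at hc; rw [zp_1] at hc
  exact nd_of_sd h hT (Z.sdA_in h (by omega))

theorem nd_A_out (h : Irr U T) (hT : Tick K a) (hc : 2 ≤ Zc w a t 1) (hc' : Zc w a t 1 ≤ 6) :
    Nd U z K a t B A := by
  unfold Zc at hc hc'; rw [zp_1] at hc hc'
  exact nd_of_sd h hT (Z.sdA_out h (by omega) (by omega))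

theorem nd_C_in (h : Irr U T) (hT : Tick K a) (hc : Zc w a t 1 ≤ 4) : Nd U z K a t C D := by
  unfold Zc at hc; rw [zp_1] at hc
  exact nd_of_sd h hT (Z.sdC_in h (by omega))

theorem nd_C_out (h : Irr U T) (hT : Tick K a) (hc : Zc w a t 1 = 0 ∨ 4 ≤ Zc w a t 1) : Nd U z K a t D C := by
  unfold Zc at hc; rw [zp_1] at hc
  exact nd_of_sd h hT (Z.sdC_out h (by omega))

/-- in the open zones `A`, `B` : no `C`, no `D` at the point -/
theorem no_CD (h : Irr U T) (hc : Zc w a t 1 = 0 ∨ Zc w a t 1 = 4) :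
    C ∉ Pal U (pt z (a t)) ∧ D ∉ Pal U (pt z (a t)) := by
  unfold Zc at hc; rw [zp_1] at hc
  exact absent h (Z.sdC_in h (by omega)) (Z.sdC_out h (by omega))

/-- in the open zones `C`, `D` : no `A`, no `B` at the point -/
theorem no_AB (h : Irr U T) (hc : Zc w a t 1 = 2 ∨ Zc w a t 1 = 6) :
    A ∉ Pal U (pt z (a t)) ∧ B ∉ Pal U (pt z (a t)) := by
  unfold Zc at hc; rw [zp_1] at hc
  exact absent h (Z.sdA_in h (by omega)) (Z.sdA_out h (by omega) (by omega))

end Zn

end Vale.Agent.P032.H254
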