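import Vale.Agent.P032.H254.Bdy
import Vale.Agent.P032.H254.MkWG
import Vale.Agent.P032.H254.GenM
import Vale.Agent.P032.H254.GenG
import Vale.Agent.P032.H240.W.GenA
import Vale.Agent.P032.H993.MkE
import Vale.Agent.P032.H635.W.PdrW

/-!
# P032: the state bits of a two-pair centre in the wild run

Kind 14, the bits `X x j k q` of the models of `H635.W`:
* `k = 0, 1` : `X x t sd q` wedge palettes (`H254.MX`),
* `k = 2` : `X i r 2 q` : the event `i` has been seen in the reading `r` (0 start, 1 before, 2 after, 3 end),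
* `k = 3` : free,
* `k = 4, 5` : the graphs `Eg`, `Wl` of `H993.MkE`,
* `k = 6` : `X i 0 6 c` the zone code at the position `i` is `c`; `k = 7` : `X i 0 7 n` advance, `X 0 1 7 0` orientation,
  `X t (sd + 2) 7 pr` exact letters.

State atoms: `En 14 m 0 6 c` (the zone code of the state in the slot `m` is `c`), `En 14 i 0 2 0` (event `i`).
* `Ctr`, `exists_ctr` : windows and orientation of a two-pair point,
* `XD` : **the bits of `H635.W.XB`**, `okD`, `ok0D`, `rD`,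
* `exD` : every legal model has the rules `MdE`, `DZ` with `BZ`, `WG` with `BitW`.
-/

open Set Filter Topology Metric

noncomputable section

namespace Vale.Agent.P032.H254

open Vale.Agent.P032.Six Vale.Agent.P032.H892 Vale.Agent.P032.H913 Vale.Agent.P032.S5.H767 Vale.Agent.P032.H61
  Vale.Agent.P032.H357 Vale.Agent.P032.H357.MK Vale.Agent.P032.H556 Vale.Agent.P032.H515
open Vale.Agent.P032.H993.MkW
open Vale.Agent.P032.H240.W (MdW lv Ho BZ)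
open Vale.Agent.P032.H820.K (nbf En a0 a1 a2 a3 a4 ps ng)
open Vale.Agent.P032.H635.W

/-! ### the centre -/

/-- the base point has the number `0` -/
def zt (TC : ℕ) : Bool :=
  Nat.beq (cf 2 TC 0 0) 8 && Nat.beq (cf 2 TC 0 1) 8 && Nat.beq (cf 2 TC 0 2) 8 && Nat.beq (cf 2 TC 0 3) 8

theorem zt_fx0 {TC : ℕ} (h : zt TC = true) : fx0 TC 0 = true := by
  unfold zt at h
  unfold fx0
  rw [Bool.and_eq_true, Bool.and_eq_true, Bool.and_eq_true] at h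
  rw [Bool.and_eq_true]
  exact ⟨h.1.2, h.2⟩

theorem yt_base {TC : ℕ} (h : zt TC = true) (u1 u : ℝ) (z : ℂ) : Yt (t2 u1 u) 2 TC z 0 = z := by
  rw [yt_yc (zt_fx0 h)]
  unfold zt at h
  rw [Bool.and_eq_true, Bool.and_eq_true, Bool.and_eq_true, nbeq, nbeq] at h
  unfold Yc
  rw [h.1.1.1, h.1.1.2]
  push_cast
  ring

/-- windows and orientation of a two-pair point -/
structure Ctr (U : Fin 6 → Set ℂ) (T : ℂ → Set (Fin 6)) (z : ℂ) (σ : Equiv.Perm (Fin 6)) where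
  w : Wn
  E : Prop
  ok : w.Ok
  zn : (¬ E ∧ Zn U T z (co σ 0) (co σ 1) (co σ 2) (co σ 3) w) ∨ (E ∧ Zn U T z (co σ 0) (co σ 1) (co σ 3) (co σ 2) w)

variable {U : Fin 6 → Set ℂ} {T : ℂ → Set (Fin 6)} {z : ℂ} {σ : Equiv.Perm (Fin 6)}

theorem exists_ctr (h : Irr U T) (hz : DPt T z (co σ 0) (co σ 1) (co σ 2) (co σ 3)) : Nonempty (Ctr U T z σ) := by
  obtain ⟨w, Z | Z⟩ := exists_Zn h hz
  · exact ⟨⟨w, False, Z.win.ok, Or.inl ⟨fun h => h, Z⟩⟩⟩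
  · exact ⟨⟨w, True, Z.win.ok, Or.inr ⟨trivial, Z⟩⟩⟩

/-! ### the bits -/

/-- an exact letter of the pair `pr` at the centre -/
def Xl (σ : Equiv.Perm (Fin 6)) {NW : ℕ} (W : WD NW) (t sd pr : ℕ) : Prop :=
  (LW σ 2 NW W 0 0 t sd (2 * pr) ∨ LW σ 2 NW W 1 0 t sd (2 * pr)) ∧
    (LW σ 2 NW W 0 0 t sd (2 * pr + 1) ∨ LW σ 2 NW W 1 0 t sd (2 * pr + 1)) ∧
    ¬ (LW σ 2 NW W 0 0 t sd 4 ∨ LW σ 2 NW W 1 0 t sd 4) ∧ ¬ (LW σ 2 NW W 0 0 t sd 5 ∨ LW σ 2 NW W 1 0 t sd 5)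

/-- the bits, without the history -/
def bitD (T : ℂ → Set (Fin 6)) (σ : Equiv.Perm (Fin 6)) (w : Wn) (E : Prop) (u1 u : ℝ) (TC : ℕ) {NW : ℕ} (z : ℂ)
    (W : WD NW) (Mw : ℕ → Fin NW → ℕ → ℕ → Set (Fin 6)) (x j k q : ℕ) : Prop :=
  if k = 4 then Eg T (Yt (t2 u1 u) 2 TC z x) (co σ j) (co σ q) else
  if k = 5 then Wl T (Yt (t2 u1 u) 2 TC z x) (co σ j) (co σ q) else
  if k = 6 then (zp w (t2 u1 u) x % 8).toNat = q else
  if k = 7 then (if j = 0 then q ≤ Za w (t2 u1 u) x else if j = 1 then E else Xl σ W x (j - 2) q) else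
  MX σ 2 Mw x j k q

section
variable {T : ℂ → Set (Fin 6)} {σ : Equiv.Perm (Fin 6)} {w : Wn} {E : Prop} {u1 u : ℝ} {TC NW : ℕ} {z : ℂ}
  {W : WD NW} {Mw : ℕ → Fin NW → ℕ → ℕ → Set (Fin 6)} {x j k q : ℕ}

theorem bitD_4 (hk : k = 4) : bitD T σ w E u1 u TC z W Mw x j k q ↔
    Eg T (Yt (t2 u1 u) 2 TC z x) (co σ j) (co σ q) := by
  subst hk
  unfold bitD
  rw [if_pos rfl]

theorem bitD_5 (hk : k = 5) : bitD T σ w E u1 u TC z W Mw x j k q ↔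
    Wl T (Yt (t2 u1 u) 2 TC z x) (co σ j) (co σ q) := by
  subst hk
  unfold bitD
  rw [if_neg (by norm_num), if_pos rfl]

theorem bitD_6 (hk : k = 6) : bitD T σ w E u1 u TC z W Mw x j k q ↔ (zp w (t2 u1 u) x % 8).toNat = q := by
  subst hk
  unfold bitD
  rw [if_neg (by norm_num), if_neg (by norm_num), if_pos rfl]

theorem bitD_70 (hk : k = 7) (hj : j = 0) : bitD T σ w E u1 u TC z W Mw x j k q ↔ q ≤ Za w (t2 u1 u) x := by
  subst hk hj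
  unfold bitD
  rw [if_neg (by norm_num), if_neg (by norm_num), if_neg (by norm_num), if_pos rfl, if_pos rfl]

theorem bitD_71 (hk : k = 7) (hj : j = 1) : bitD T σ w E u1 u TC z W Mw x j k q ↔ E := by
  subst hk hj
  unfold bitD
  rw [if_neg (by norm_num), if_neg (by norm_num), if_neg (by norm_num), if_pos rfl, if_neg (by norm_num), if_pos rfl]

theorem bitD_7 (hk : k = 7) (hj : 2 ≤ j) : bitD T σ w E u1 u TC z W Mw x j k q ↔ Xl σ W x (j - 2) q := by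
  subst hk
  unfold bitD
  rw [if_neg (by norm_num), if_neg (by norm_num), if_neg (by norm_num), if_pos rfl, if_neg (by omega),
    if_neg (by omega)]

theorem bitD_w (hk : k < 4) : bitD T σ w E u1 u TC z W Mw x j k q ↔ MX σ 2 Mw x j k q := by
  unfold bitD
  rw [if_neg (by omega), if_neg (by omega), if_neg (by omega), if_neg (by omega)]

end

/-- the event of the number `i` -/
def inH {NH : ℕ} (S : Set (Fin NH)) (i : ℕ) : Prop := ∃ h : i < NH, (⟨i, h⟩ : Fin NH) ∈ S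

section
variable (U T z σ)

/-- the relation of the data and the bits -/
def PXD (C : Ctr U T z σ) (u1 : ℝ) {NH : ℕ} (NP NW TB TC : ℕ) (Q : Fin NH → (MK.Cn NW TC × Fin 6 → SP) → Prop)
    (s0 s1 : MK.Cn NW TC × Fin 6 → SP) : RelX NW TC (Fin NH) := fun u L R b W J X =>
  DtW U T NP NW TB TC z σ u1 u s0 s1 L R W J ∧
  (∃ Mw, (∀ r, Wm U T 2 (t2 u1 u) (fun j : Fin NW => Yt (t2 u1 u) 2 TC z j.val) (W r) (Mw r)) ∧
    ∀ x j k q, k ≠ 2 → k ≠ 3 → (X x j k q ↔ bitD T σ C.w C.E u1 u TC z W Mw x j k q)) ∧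
  ∀ x r q, X x r 2 q ↔ inH (hsW U T z u1 Q s0 R b r) x

end

/-- state atoms -/
def okD (n : ℕ) : Bool :=
  Nat.beq (Nat.mod n 16) 14 && Nat.beq (Nat.mod (Nat.div n 65536) 256) 0 &&
    (Nat.beq (Nat.mod (Nat.div n 16777216) 8) 2 ||
      (Nat.beq (Nat.mod (Nat.div n 16777216) 8) 6 && Nat.ble (Nat.succ (Nat.mod (Nat.div n 16) 4096)) 6))

theorem okD_spec {n : ℕ} (h : okD n = true) : a0 n = 14 ∧ a2 n = 0 ∧ (a3 n = 2 ∨ (a3 n = 6 ∧ a1 n < 6)) := by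
  unfold okD at h
  rw [Bool.and_eq_true, Bool.and_eq_true, Bool.or_eq_true, Bool.and_eq_true, nbeq, nbeq, nbeq, nbeq, Nat.ble_eq] at h
  exact ⟨h.1.1, h.1.2, h.2⟩

/-- class 0 atoms -/
def ok0D (TC n : ℕ) : Bool :=
  bif Nat.beq (Nat.mod (Nat.div n 16777216) 8) 4 || Nat.beq (Nat.mod (Nat.div n 16777216) 8) 5 then
    fx0 TC (Nat.mod (Nat.div n 16) 4096) else
  bif Nat.beq (Nat.mod (Nat.div n 16777216) 8) 6 then
    Nat.beq (Nat.mod (Nat.div (Nat.mod (Nat.div n 16) 4096) 3) 2) 0 else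
  Nat.beq (Nat.mod (Nat.div n 16777216) 8) 7 &&
    (bif Nat.beq (Nat.mod (Nat.div n 65536) 256) 0 then
      Nat.beq (Nat.mod (Nat.div (Nat.mod (Nat.div n 16) 4096) 3) 2) 0 else
    bif Nat.beq (Nat.mod (Nat.div n 65536) 256) 1 then true else
      Nat.ble (Nat.mod (Nat.div n 65536) 256) 3 && Nat.beq (Nat.mod (Nat.mod (Nat.div n 16) 4096) 2) 0)

theorem ok0D_spec {TC n : ℕ} (h : ok0D TC n = true) : ((a3 n = 4 ∨ a3 n = 5) ∧ fx0 TC (a1 n) = true) ∨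
    (a3 n = 6 ∧ a1 n / 3 % 2 = 0) ∨ (a3 n = 7 ∧ ((a2 n = 0 ∧ a1 n / 3 % 2 = 0) ∨ a2 n = 1 ∨
      ((a2 n = 2 ∨ a2 n = 3) ∧ a1 n % 2 = 0))) := by
  unfold ok0D at h
  have e1 : Nat.mod (Nat.div n 16) 4096 = a1 n := rfl
  have e2 : Nat.mod (Nat.div n 65536) 256 = a2 n := rfl
  have e3 : Nat.mod (Nat.div n 16777216) 8 = a3 n := rfl
  have e4 : Nat.mod (Nat.div (a1 n) 3) 2 = a1 n / 3 % 2 := rfl
  have e5 : Nat.mod (a1 n) 2 = a1 n % 2 := rfl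
  rw [e1, e2, e3, e4, e5] at h
  simp only [Bool.cond_eq_ite, Bool.or_eq_true, nbeq] at h
  split_ifs at h with k0 k1 k2 k3
  · exact Or.inl ⟨k0, h⟩
  · exact Or.inr (Or.inl ⟨k1, nbeq.1 h⟩)
  · rw [Bool.and_eq_true, nbeq, nbeq] at h
    exact Or.inr (Or.inr ⟨h.1, Or.inl ⟨k2, h.2⟩⟩)
  · rw [Bool.and_eq_true, nbeq] at h
    exact Or.inr (Or.inr ⟨h.1, Or.inr (Or.inl k3)⟩)
  · rw [Bool.and_eq_true, Bool.and_eq_true, Nat.ble_eq, nbeq, nbeq] at h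
    exact Or.inr (Or.inr ⟨h.1, Or.inr (Or.inr ⟨by omega, h.2.2⟩)⟩)

/-- the position of the reading `r` in the slot `m` -/
def ps6 (r m : ℕ) : ℕ :=
  bif Nat.beq r 0 then Nat.add (Nat.mul 6 m) 2 else bif Nat.beq r 1 then Nat.add (Nat.mul 6 m) 3 else
  bif Nat.beq r 2 then Nat.add (Nat.mul 6 m) 5 else Nat.mod (Nat.add (Nat.mul 6 m) 6) 36

/-- the readings of the state atoms -/
def rD (r n : ℕ) : ℕ :=
  bif Nat.beq (Nat.mod (Nat.div n 16777216) 8) 2 then En 14 (Nat.mod (Nat.div n 16) 4096) r 2 0 else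
    En 14 (ps6 r (Nat.mod (Nat.div n 16) 4096)) 0 6 (Nat.div n 134217728)

theorem rD_eq (r n : ℕ) :
    rD r n = if a3 n = 2 then En 14 (a1 n) r 2 0 else En 14 (ps6 r (a1 n)) 0 6 (a4 n) := by
  have e1 : Nat.mod (Nat.div n 16) 4096 = a1 n := rfl
  have e3 : Nat.mod (Nat.div n 16777216) 8 = a3 n := rfl
  have e4 : Nat.div n 134217728 = a4 n := rfl
  unfold rD
  rw [e1, e3, e4]
  by_cases h : a3 n = 2
  · rw [if_pos h, nbeq.2 h, cond_true]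
  · have hb : Nat.beq (a3 n) 2 = false := by rw [← Bool.not_eq_true, nbeq]; exact h
    rw [if_neg h, hb, cond_false]

theorem a0_en {x j k q : ℕ} : a0 (En 14 x j k q) = 14 := by
  rw [H820.K.en_eq]
  unfold a0
  omega

theorem rD_kind (r n : ℕ) : a0 (rD r n) = 14 := by
  rw [rD_eq]
  split_ifs
  · exact a0_en
  · exact a0_en

theorem ps6_eq (r m : ℕ) : ps6 r m = if r = 0 then 6 * m + 2 else if r = 1 then 6 * m + 3 else
    if r = 2 then 6 * m + 5 else (6 * m + 6) % 36 := by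
  unfold ps6
  by_cases h0 : r = 0
  · subst h0; rfl
  by_cases h1 : r = 1
  · subst h1; rfl
  by_cases h2 : r = 2
  · subst h2; rfl
  · rw [if_neg h0, if_neg h1, if_neg h2]
    have e0 : Nat.beq r 0 = false := by rw [← Bool.not_eq_true, nbeq]; exact h0
    have e1 : Nat.beq r 1 = false := by rw [← Bool.not_eq_true, nbeq]; exact h1
    have e2 : Nat.beq r 2 = false := by rw [← Bool.not_eq_true, nbeq]; exact h2
    rw [e0, e1, e2]
    rfl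

/-- the value of a state atom -/
def xvD (w : Wn) (u1 : ℝ) {NH : ℕ} (A _B : GB (Fin 4)) (S : Set (Fin NH)) (n : ℕ) : Prop :=
  if a3 n = 2 then inH S (a1 n) else ∃ h : a1 n < 6, (Zs w u1 A ⟨a1 n, h⟩ % 8).toNat = a4 n

/-- positions modulo 36 -/
theorem zp_mod36 {w : Wn} {u1 u : ℝ} (hu : u ∈ Ioo u1 (u1 + 1)) (i : ℕ) (hi : i < 72) :
    (zp w (t2 u1 u) (i % 36) % 8).toNat = (zp w (t2 u1 u) i % 8).toNat := by
  rcases Nat.lt_or_ge i 36 with h | h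
  · rw [Nat.mod_eq_of_lt h]
  · have e1 : i = i % 36 + 9 * 2 + 9 * 2 := by omega
    have h1 := zp_half (w := w) (tick_t2 hu) (i % 36 + 9 * 2)
    have h2 := zp_half (w := w) (tick_t2 hu) (i % 36)
    rw [← e1] at h1
    rw [h1, h2]
    omega

/-- the reading `r` of the zone code -/
theorem zs_rd {w : Wn} {u1 u : ℝ} (hu : u ∈ Ioo u1 (u1 + 1)) {r m : ℕ} (hr : r < 4) (hm : m < 6) :
    (zp w (t2 u1 u) (ps6 r m) % 8).toNat = (Zs w u1 (bAw (Bd w) r u1 u) ⟨m, hm⟩ % 8).toNat := by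
  rw [ps6_eq]
  unfold bAw
  interval_cases r
  · rw [if_pos rfl, if_pos rfl]
    exact congrArg (fun i : ℤ => (i % 8).toNat) (zs_0 ⟨m, hm⟩)
  · rw [if_neg (by norm_num), if_pos rfl, if_neg (by norm_num), if_pos rfl]
    exact congrArg (fun i : ℤ => (i % 8).toNat) (zs_1 hu ⟨m, hm⟩)
  · rw [if_neg (by norm_num), if_neg (by norm_num), if_pos rfl, if_neg (by norm_num), if_neg (by norm_num), if_pos rfl]
    exact congrArg (fun i : ℤ => (i % 8).toNat) (zs_2 hu ⟨m, hm⟩)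
  · rw [if_neg (by norm_num), if_neg (by norm_num), if_neg (by norm_num), if_neg (by norm_num), if_neg (by norm_num),
      if_neg (by norm_num), zp_mod36 hu _ (by omega)]
    exact congrArg (fun i : ℤ => (i % 8).toNat) (zs_3 ⟨m, hm⟩)

/-! ### the bits of the run -/

section inst
variable {NP NW TB TC NH : ℕ} {u1 : ℝ} {s0 s1 : MK.Cn NW TC × Fin 6 → SP}
  {Q : Fin NH → (MK.Cn NW TC × Fin 6 → SP) → Prop}

/-- positions at even ticks -/
theorem zp_tr {w : Wn} {u u' : ℝ} {i : ℕ} (hi : i / 3 % 2 = 0) : zp w (t2 u1 u) i = zp w (t2 u1 u') i := by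
  unfold zp
  rw [t2_tr (v := u') hi]

theorem lw0_tr {u u' : ℝ} {L R L' R' : MK.Cn NW TC × Fin 6 → SP} {W W' : WD NW} {J J' : ℕ → ℕ → ℕ → ℕ}
    (h0 : zt TC = true) (D : DtW U T NP NW TB TC z σ u1 u s0 s1 L R W J)
    (D' : DtW U T NP NW TB TC z σ u1 u' s0 s1 L' R' W' J') {t sd io : ℕ} (ht : t % 2 = 0) (hsd : sd < 2) (hio : io < 2)
    (q : ℕ) : LW σ 2 NW W io 0 t sd q ↔ LW σ 2 NW W' io 0 t sd q := by
  by_cases hN : 0 < NW
  · rw [lw_iff hN, lw_iff hN]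
    have e1 := D.hW ⟨0, hN, zt_fx0 h0⟩ t sd io hsd hio
    have e2 := D'.hW ⟨0, hN, zt_fx0 h0⟩ t sd io hsd hio
    have e3 : (fc ⟨0, hN, zt_fx0 h0⟩ : Fin NW) = ⟨0, hN⟩ := rfl
    rw [e3] at e1 e2
    have e4 : stW s0 s1 L R (⟨0, hN, zt_fx0 h0⟩ : MK.Cn NW TC) t sd =
        stW s0 s1 L' R' (⟨0, hN, zt_fx0 h0⟩ : MK.Cn NW TC) t sd := stW_even ht
    rw [e1, e2, e4]
  · unfold LW
    simp [hN]

theorem xl_tr {u u' : ℝ} {L R L' R' : MK.Cn NW TC × Fin 6 → SP} {W W' : WD NW} {J J' : ℕ → ℕ → ℕ → ℕ}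
    (h0 : zt TC = true) (D : DtW U T NP NW TB TC z σ u1 u s0 s1 L R W J)
    (D' : DtW U T NP NW TB TC z σ u1 u' s0 s1 L' R' W' J') {t sd : ℕ} (ht : t % 2 = 0) (hsd : sd < 2) (pr : ℕ) :
    Xl σ W t sd pr ↔ Xl σ W' t sd pr := by
  unfold Xl
  have k := fun (io : ℕ) (hio : io < 2) (q : ℕ) => lw0_tr h0 D D' ht hsd hio q
  rw [k 0 (by norm_num), k 1 (by norm_num), k 0 (by norm_num), k 1 (by norm_num), k 0 (by norm_num), k 1 (by norm_num),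
    k 0 (by norm_num), k 1 (by norm_num)]

theorem eg_tr {x : ℕ} (hx : fx0 TC x = true) (u u' : ℝ) : Yt (t2 u1 u) 2 TC z x = Yt (t2 u1 u') 2 TC z x := by
  rw [yt_yc hx, yt_yc hx]

variable (C : Ctr U T z σ)

/-- the readings -/
theorem rd_D {u : ℝ} {L R : MK.Cn NW TC × Fin 6 → SP} {b : Set (Fin NH)} {W : WD NW} {J : ℕ → ℕ → ℕ → ℕ}
    {X : ℕ → ℕ → ℕ → ℕ → Prop} (hu : u ∈ Ioo u1 (u1 + 1)) (hP : PXD U T z σ C u1 NP NW TB TC Q s0 s1 u L R b W J X)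
    (n : ℕ) (hn : okD n = true) (r : ℕ) (hr : r < 4) :
    X (a1 (rD r n)) (a2 (rD r n)) (a3 (rD r n)) (a4 (rD r n)) ↔
      xvD C.w u1 (bAw (Bd C.w) r u1 u) (bBw (Bd C.w) r u1 u) (hsW U T z u1 Q s0 R b r) n := by
  obtain ⟨-, ⟨Mw, -, hX⟩, hH⟩ := hP
  obtain ⟨-, -, hk⟩ := okD_spec hn
  have hc : a1 n < 4096 := Nat.mod_lt _ (by norm_num)
  rw [rD_eq]
  unfold xvD
  rcases hk with h2 | ⟨h6, hm⟩
  · rw [if_pos h2, if_pos h2]
    obtain ⟨-, e1, e2, e3, e4⟩ := H820.K.dec (kd := 14) (x := a1 n) (j := r) (k := 2) (q := 0) (by norm_num) hc (by omega)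
      (by norm_num)
    rw [e1, e2, e3, e4]
    exact hH _ _ _
  · have h2 : ¬ a3 n = 2 := by omega
    rw [if_neg h2, if_neg h2]
    have hp : ps6 r (a1 n) < 4096 := by rw [ps6_eq]; split_ifs <;> omega
    obtain ⟨-, e1, e2, e3, e4⟩ := H820.K.dec (kd := 14) (x := ps6 r (a1 n)) (j := 0) (k := 6) (q := a4 n) (by norm_num)
      hp (by norm_num) (by norm_num)
    rw [e1, e2, e3, e4, hX _ _ _ _ (by norm_num) (by norm_num), bitD_6 rfl, zs_rd hu hr hm]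
    exact ⟨fun h => ⟨hm, h⟩, fun ⟨_, h⟩ => h⟩

/-- bits of class 0 -/
theorem c0_D (h0 : zt TC = true) {u u' : ℝ} {L R L' R' : MK.Cn NW TC × Fin 6 → SP} {b b' : Set (Fin NH)} {W W' : WD NW}
    {J J' : ℕ → ℕ → ℕ → ℕ} {X X' : ℕ → ℕ → ℕ → ℕ → Prop}
    (hP : PXD U T z σ C u1 NP NW TB TC Q s0 s1 u L R b W J X)
    (hP' : PXD U T z σ C u1 NP NW TB TC Q s0 s1 u' L' R' b' W' J' X') (n : ℕ) (hn : ok0D TC n = true) :
    X (a1 n) (a2 n) (a3 n) (a4 n) ↔ X' (a1 n) (a2 n) (a3 n) (a4 n) := by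
  obtain ⟨D, ⟨Mw, -, hX⟩, -⟩ := hP
  obtain ⟨D', ⟨Mw', -, hX'⟩, -⟩ := hP'
  have hk := ok0D_spec hn
  rw [hX _ _ _ _ (by omega) (by omega), hX' _ _ _ _ (by omega) (by omega)]
  rcases hk with ⟨hk | hk, hx⟩ | ⟨hk, hx⟩ | ⟨hk, ⟨hj, hx⟩ | hj | ⟨hj, hx⟩⟩
  · rw [bitD_4 hk, bitD_4 hk, eg_tr hx u u']
  · rw [bitD_5 hk, bitD_5 hk, eg_tr hx u u']
  · rw [bitD_6 hk, bitD_6 hk, zp_tr (u' := u') hx]
  · rw [bitD_70 hk hj, bitD_70 hk hj]
    unfold Za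
    rw [zp_tr (u' := u') hx, zp_tr (i := 0) (u' := u') rfl]
  · rw [bitD_71 hk hj, bitD_71 hk hj]
  · rw [bitD_7 hk (by omega), bitD_7 hk (by omega)]
    exact xl_tr h0 D D' hx (by omega) _

/-- existence -/
theorem ex_D (h : Irr U T) (B : Tb NP NW TB TC) (k0 : s0 ∈ RSt DO (IPs U T (nX (Zf u1 TC z NW)) nO) u1)
    (k1 : s1 ∈ LSt DO (IPs U T (nX (Zf u1 TC z NW)) nO) (u1 + 1)) {u : ℝ} (hu : u ∈ Ioo u1 (u1 + 1))
    {L R : MK.Cn NW TC × Fin 6 → SP} {b : Set (Fin NH)} (hL : L ∈ LSt DO (IPs U T (nX (Zf u1 TC z NW)) nO) u)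
    (hR : R ∈ RSt DO (IPs U T (nX (Zf u1 TC z NW)) nO) u) :
    ∃ W J X, DtW U T NP NW TB TC z σ u1 u s0 s1 L R W J ∧ PXD U T z σ C u1 NP NW TB TC Q s0 s1 u L R b W J X := by
  let e : Fin NW → Option (MK.Cn NW TC) := fun j =>
    if h : fx0 TC j.val = true then some ⟨j.val, j.isLt, h⟩ else none
  have he : ∀ j c, e j = some c → Yw u1 u TC z NW j = Zf u1 TC z NW c := by
    intro j c hj
    have hj : (if h : fx0 TC j.val = true then some (⟨j.val, j.isLt, h⟩ : MK.Cn NW TC) else none) = some c := hj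
    split_ifs at hj with h1
    have h2 : (⟨j.val, j.isLt, h1⟩ : MK.Cn NW TC) = c := Option.some.inj hj
    rw [← h2]
    exact yw_fc ⟨j.val, j.isLt, h1⟩
  have hfc : ∀ c, e (fc c) = some c := by
    intro c
    show (if h : fx0 TC c.val = true then some (⟨c.val, c.2.1, h⟩ : MK.Cn NW TC) else none) = some c
    rw [dif_pos c.2.2]
    rfl
  obtain ⟨W, Mw, w, Dm, -, k⟩ := exists_wm_all h he hu k0 k1 hL hR
  obtain ⟨J, hJ⟩ := exists_J h (tick_t2 hu) σ (hY_of_tchk (NP := NP) (TB := TB) (TC := TC) (tick_t2 hu) z B.ht)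
  have D : DtW U T NP NW TB TC z σ u1 u s0 s1 L R W J := by
    refine ⟨k0, k1, hL, hR, fun r => (Dm r).wp, hJ, fun c t sd io hsd hio => ?_⟩
    obtain ⟨⟨⟨k1, k2⟩, ⟨k3, k4⟩, ⟨k5, k6⟩, k7, k8⟩, -⟩ := k (fc c) c (hfc c) (t / 2)
    have hsd' : sd = 0 ∨ sd = 1 := by omega
    have hio' : io = 0 ∨ io = 1 := by omega
    rcases Nat.mod_two_eq_zero_or_one t with ht | ht
    · have e1 : 2 * (t / 2) = t := by omega
      rw [e1] at k1 k2 k3 k4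
      rcases hsd' with rfl | rfl <;> rcases hio' with rfl | rfl
      · simpa [cm, stW, ht] using k3
      · simpa [cm, stW, ht] using k4
      · simpa [cm, stW, ht] using k1
      · simpa [cm, stW, ht] using k2
    · have e1 : 2 * (t / 2) + 1 = t := by omega
      rw [e1] at k5 k6 k7 k8
      rcases hsd' with rfl | rfl <;> rcases hio' with rfl | rfl
      · simpa [cm, stW, ht] using k7
      · simpa [cm, stW, ht] using k8
      · simpa [cm, stW, ht] using k5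
      · simpa [cm, stW, ht] using k6
  refine ⟨W, J, fun x j k q => if k = 2 then inH (hsW U T z u1 Q s0 R b j) x else
    bitD T σ C.w C.E u1 u TC z W Mw x j k q, D, D, ⟨Mw, Dm, fun x j k q h2 h3 => ?_⟩, fun x r q => ?_⟩
  · show (if k = 2 then _ else _) ↔ _
    rw [if_neg h2]
  · show (if (2 : ℕ) = 2 then _ else _) ↔ _
    rw [if_pos rfl]

/-- **The state bits of a two-pair centre.** -/
def XD (h : Irr U T) (B : Tb NP NW TB TC) (h0 : zt TC = true) (Q : Fin NH → (MK.Cn NW TC × Fin 6 → SP) → Prop)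
    (k0 : s0 ∈ RSt DO (IPs U T (nX (Zf u1 TC z NW)) nO) u1)
    (k1 : s1 ∈ LSt DO (IPs U T (nX (Zf u1 TC z NW)) nO) (u1 + 1)) :
    XB U T NP NW TB TC okD (ok0D TC) rD z σ u1 s0 s1 where
  β := Fin 4
  finβ := inferInstance
  Dx := Bd C.w
  hD := bd_closed C.w
  H := Fin NH
  finH := inferInstance
  Q := Q
  PX := PXD U T z σ C u1 NP NW TB TC Q s0 s1
  xv := xvD C.w u1
  rd := fun {_ _ _ _ _ _ _} hu hP n hn r hr => rd_D C hu hP n hn r hr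
  c0 := fun {_ _ _ _ _ _ _ _ _ _ _ _ _ _} hP hP' n hn => c0_D C h0 hP hP' n hn
  ex := fun {_ _ _ _} hu hL hR _ _ _ => ex_D C h B k0 k1 hu hL hR

/-- **Every legal model has the rules of a two-pair centre.** -/
theorem exD (h : Irr U T) (hm : Mn U T) (hl : Ln U T)
    (hM : ∀ z, 4 ≤ (T z).ncard → ∀ s, s ⊆ T z → s ≠ T z → ¬ ∀ᶠ w in 𝓝 z, ∃ i ∈ s, w ∈ U i ∨ (w ∈ XX U ∧ i ∈ Pal U w))
    (B : Tb NP NW TB TC) (h0 : zt TC = true) (hNW : 0 < NW) (hz : DPt T z (co σ 0) (co σ 1) (co σ 2) (co σ 3))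
    (k0 : s0 ∈ RSt DO (IPs U T (nX (Zf u1 TC z NW)) nO) u1)
    (k1 : s1 ∈ LSt DO (IPs U T (nX (Zf u1 TC z NW)) nO) (u1 + 1)) {M : MdW 2 NP NW (nbf 2 TB)}
    (hL : LegW h B (XD C h B h0 Q k0 k1) M) :
    H993.MdE M ∧ (∃ Z : DZ M, BZ M Z) ∧ ∃ G : WG M, BitW M G := by
  obtain ⟨u, hu, L, R, b, W, J, Bx, D, -, hP, rfl⟩ := hL
  obtain ⟨-, ⟨Mw, Dm, hX⟩, -⟩ := hP
  have A := tick_t2 hu
  have hY := hY_of_tchk (NP := NP) (TB := TB) (TC := TC) A z B.ht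
  have Lk0 : Lk U T 2 (t2 u1 u) σ NP NW (nbf 2 TB) (Yt (t2 u1 u) 2 TC z) W (mkW h B hu D Bx) :=
    ⟨Iff.rfl, Iff.rfl, Iff.rfl, Iff.rfl, Iff.rfl, Iff.rfl, Iff.rfl⟩
  have hz' : DPt T (Yt (t2 u1 u) 2 TC z 0) (co σ 0) (co σ 1) (co σ 2) (co σ 3) := by
    rw [yt_base h0]; exact hz
  have hNP : 0 < NP := lt_of_lt_of_le hNW B.hNW
  refine ⟨mkMdE h hm hl A σ (by norm_num) B.hNP B.hNW _ hY (fun r => sw_pw (D.D r) h) D.hJ ⟨fun x i j => ?_,
    fun x i j => ?_⟩, ?_, ?_⟩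
  · rw [hX _ _ _ _ (by norm_num) (by norm_num), bitD_4 rfl]
  · rw [hX _ _ _ _ (by norm_num) (by norm_num), bitD_5 rfl]
  · have n := cn_of h hM A hz' hNW Dm Lk0
    obtain ⟨Z, e1, e2, e3, e4⟩ : ∃ Z : DZ (mkW h B hu D Bx), Z.Zc = Zc C.w (t2 u1 u) ∧ Z.Za = Za C.w (t2 u1 u) ∧
        (Z.E ↔ C.E) ∧ Z.MW = MW σ 2 Mw := by
      rcases C.zn with ⟨hE, Zn0⟩ | ⟨hE, Zn0⟩
      · have Zn1 : Zn U T (Yt (t2 u1 u) 2 TC z 0) (co σ 0) (co σ 1) (co σ 2) (co σ 3) C.w := by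
          rw [yt_base h0]; exact Zn0
        exact ⟨mkDZ A C.ok C.E n (cm_of h hM A hz' hNW Dm Lk0 hY hNP (Or.inl ⟨rfl, rfl⟩) Zn1)
          (fun _ => hf_of h hM A hz' hNW Dm Lk0 hY hNP (by norm_num) (by norm_num) Zn1) (fun e => absurd e hE),
          rfl, rfl, Iff.rfl, rfl⟩
      · have Zn1 : Zn U T (Yt (t2 u1 u) 2 TC z 0) (co σ 0) (co σ 1) (co σ 3) (co σ 2) C.w := by
          rw [yt_base h0]; exact Zn0
        exact ⟨mkDZ A C.ok C.E n (cm_of h hM A hz' hNW Dm Lk0 hY hNP (Or.inr ⟨rfl, rfl⟩) Zn1)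
          (fun e => absurd hE e) (fun _ => hf_of h hM A hz' hNW Dm Lk0 hY hNP (by norm_num) (by norm_num) Zn1),
          rfl, rfl, Iff.rfl, rfl⟩
    have hx : ∀ t sd pr, Xl σ W t sd pr ↔ Exl (mkW h B hu D Bx) t sd (2 * pr) (2 * pr + 1) := fun t sd pr =>
      ⟨fun ⟨h1, h2, h3, h4⟩ => ⟨h1, h2, h3, h4⟩, fun ⟨h1, h2, h3, h4⟩ => ⟨h1, h2, h3, h4⟩⟩
    refine ⟨Z, hNW, ?_, ?_, ?_, ?_, ?_, ?_⟩
    · intro t k c ht hk hc
      refine (hX _ _ _ _ (by norm_num) (by norm_num)).trans ?_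
      rw [bitD_6 rfl, e1]
      exact Iff.rfl
    · intro i n hi
      refine (hX _ _ _ _ (by norm_num) (by norm_num)).trans ?_
      rw [bitD_70 rfl rfl, e2]
    · refine (hX _ _ _ _ (by norm_num) (by norm_num)).trans ?_
      rw [bitD_71 rfl rfl, e3]
    · intro t sd ht hs
      refine (hX _ _ _ _ (by norm_num) (by norm_num)).trans ?_
      rw [bitD_7 rfl (by omega), show sd + 2 - 2 = sd by omega]
      exact hx t sd 0
    · intro t sd ht hs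
      refine (hX _ _ _ _ (by norm_num) (by norm_num)).trans ?_
      rw [bitD_7 rfl (by omega), show sd + 2 - 2 = sd by omega]
      exact hx t sd 1
    · intro t sd q ht hs hq
      refine (hX _ _ _ _ (by omega) (by omega)).trans ?_
      rw [bitD_w (by omega), e4]
      exact Iff.rfl
  · obtain ⟨G, hG⟩ := exists_wg h A Dm Lk0 hY
    refine ⟨G, ⟨fun {x t sd q} hx ht hs hq => ?_⟩⟩
    refine (hX _ _ _ _ (by omega) (by omega)).trans ?_
    rw [bitD_w (by omega), hG]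

end inst

end Vale.Agent.P032.H254
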