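import Vale.Agent.P032.S5.H80.Anti
import Vale.Agent.P032.H892.Dir
import Vale.Agent.P032.H892.Facts
import Vale.Agent.P032.H913.Geo

/-!
# P032: the zones of a two-pair point, frame `Irr U T`

Angles in units of 60 degrees, `sn x = sin (60 x)`, `XS T z P` : open set of the directions `s` with constant palette `P`
of `S(z)` near `pt z s`.  `Zo U T z A B` : the oriented directions of the exact `AB` arcs of `S(z)`: `A` is inside at `t`,
or `B` is inside at `t + 3`.

* `exists_ori` : for a two-pair point `A B | C D`, after a possible exchange of `C` and `D`, every direction of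
  `Zo A B` is followed by every direction of `Zo C D` within a half turn,
* `Ori.sdC`, `Ori.sdA` : sides at every point of `S(z)` from one oriented direction,
* `Win`, `Ori.exists_win` : the windows `al0 < al1 ≤ ga0 < ga1 ≤ al0 + 3`,
* `cod` : the zone code (monotone integer, `cod (s + 3) = cod s + 4`), `Win.side_A` and so on: sides from the code,
  `Win.exact_A`, `Win.exact_C`, one sided codes `codL`, `codR`.
-/

open Set Filter Topology Metric

noncomputable section

namespace Vale.Agent.P032.H254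

open Vale.Agent.P032.Six Vale.Agent.P032.H892 Vale.Agent.P032.H913 Vale.Agent.P032.S5.H767

variable {U : Fin 6 → Set ℂ} {T : ℂ → Set (Fin 6)} {z : ℂ} {s t φ : ℝ} {A B C D : Fin 6}

/-! ### the sine -/

/-- the sine of an angle in units of 60 degrees -/
def sn (x : ℝ) : ℝ := Real.sin (x * (Real.pi / 3))

theorem sn_neg (x : ℝ) : sn (-x) = -sn x := by
  unfold sn; rw [neg_mul, Real.sin_neg]

theorem sn_sub (x y : ℝ) : sn (x - y) = -sn (y - x) := by
  rw [← sn_neg, neg_sub]

theorem sn_add_three (x : ℝ) : sn (x + 3) = -sn x := by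
  unfold sn
  rw [show (x + 3) * (Real.pi / 3) = x * (Real.pi / 3) + Real.pi by ring, Real.sin_add_pi]

theorem sn_sub_three (x : ℝ) : sn (x - 3) = -sn x := by
  have := sn_add_three (x - 3)
  rw [sub_add_cancel] at this
  linarith

theorem sn_int (x : ℝ) (n : ℤ) : sn (x - 6 * n) = sn x := by
  unfold sn
  rw [show (x - 6 * (n : ℝ)) * (Real.pi / 3) = x * (Real.pi / 3) - (n : ℝ) * (2 * Real.pi) by ring,
    Real.sin_sub_int_mul_two_pi]

theorem continuous_sn : Continuous sn := by
  unfold sn; fun_prop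

theorem sn_pos {x : ℝ} (h0 : 0 < x) (h3 : x < 3) : 0 < sn x := by
  have := Real.pi_pos
  exact Real.sin_pos_of_pos_of_lt_pi (by positivity) (by nlinarith)

theorem sn_neg' {x : ℝ} (h0 : -3 < x) (h3 : x < 0) : sn x < 0 := by
  have := sn_pos (x := -x) (by linarith) (by linarith)
  rw [sn_neg] at this; linarith

theorem sn_zero : sn 0 = 0 := by unfold sn; simp

theorem sn_three : sn 3 = 0 := by
  have := sn_add_three 0
  rw [zero_add, sn_zero] at this; linarith

/-- a positive sine in a window of length nine -/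
theorem mem_of_sn {x : ℝ} (h : 0 < sn x) (h0 : -3 < x) (h6 : x < 6) : 0 < x ∧ x < 3 := by
  constructor
  · by_contra hcon
    rcases eq_or_lt_of_le (not_lt.1 hcon) with h1 | h1
    · rw [h1, sn_zero] at h; exact lt_irrefl _ h
    · linarith [sn_neg' h0 h1]
  · by_contra hcon
    rcases eq_or_lt_of_le (not_lt.1 hcon) with h1 | h1
    · rw [← h1, sn_three] at h; exact lt_irrefl _ h
    · have h2 := sn_pos (x := x - 3) (by linarith) (by linarith)
      rw [sn_sub_three] at h2; linarith

theorem exists_int {x : ℝ} (h : 0 < sn x) : ∃ n : ℤ, 0 < x - 6 * n ∧ x - 6 * n < 3 := by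
  refine ⟨⌊x / 6⌋, mem_of_sn (by rwa [sn_int]) ?_ ?_⟩
  · have := Int.floor_le (x / 6); linarith
  · have := Int.lt_floor_add_one (x / 6); linarith

/-- the sine takes negative values near a zero -/
theorem frequently_neg {x : ℝ} (h : sn x = 0) : ∃ᶠ y in 𝓝 x, sn y < 0 := by
  have hpi := Real.pi_pos
  have key : ∀ y, sn y = Real.cos (x * (Real.pi / 3)) * Real.sin ((y - x) * (Real.pi / 3)) := by
    intro y
    unfold sn at h ⊢
    rw [show y * (Real.pi / 3) = x * (Real.pi / 3) + (y - x) * (Real.pi / 3) by ring, Real.sin_add, h]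
    ring
  have hc : Real.cos (x * (Real.pi / 3)) ≠ 0 := by
    intro h0
    have := Real.sin_sq_add_cos_sq (x * (Real.pi / 3))
    unfold sn at h
    rw [h, h0] at this; norm_num at this
  rcases lt_or_gt_of_ne hc with hc | hc
  · have h1 : ∀ᶠ y in 𝓝[>] x, sn y < 0 := by
      filter_upwards [Ioo_mem_nhdsGT (show x < x + 1 by linarith)] with y hy
      rw [key]
      exact mul_neg_of_neg_of_pos hc (Real.sin_pos_of_pos_of_lt_pi (by nlinarith [hy.1]) (by nlinarith [hy.2]))
    exact h1.frequently.filter_mono nhdsWithin_le_nhds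
  · have h1 : ∀ᶠ y in 𝓝[<] x, sn y < 0 := by
      filter_upwards [Ioo_mem_nhdsLT (show x - 1 < x by linarith)] with y hy
      rw [key]
      refine mul_neg_of_pos_of_neg hc ?_
      have h2 : (y - x) * (Real.pi / 3) = -((x - y) * (Real.pi / 3)) := by ring
      rw [h2, Real.sin_neg, neg_lt_zero]
      exact Real.sin_pos_of_pos_of_lt_pi (by nlinarith [hy.2]) (by nlinarith [hy.1])
    exact h1.frequently.filter_mono nhdsWithin_le_nhds

/-! ### exact directions -/

/-- directions with the constant palette `P` near them -/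
def XS (T : ℂ → Set (Fin 6)) (z : ℂ) (P : Set (Fin 6)) : Set ℝ := {s | ∀ᶠ v in 𝓝 s, T (pt z v) = P}

theorem XS_open (P : Set (Fin 6)) : IsOpen (XS T z P) := by
  rw [isOpen_iff_mem_nhds]
  intro s hs
  exact eventually_eventually_nhds.2 hs

theorem arc_of_XS {P : Set (Fin 6)} (hs : s ∈ XS T z P) : Arc T z (pt z s) P :=
  ⟨dist_pt z s, S5.H767.ev_circle z hs⟩

theorem XS_of_arc {P : Set (Fin 6)} (hs : Arc T z (pt z s) P) : s ∈ XS T z P := by
  have h1 : Tendsto (pt z) (𝓝 s) (𝓝[sphere z 1] (pt z s)) :=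
    tendsto_nhdsWithin_iff.2 ⟨(continuous_pt z).continuousAt, Eventually.of_forall fun v => dist_pt z v⟩
  exact h1.eventually hs.2

theorem XS_mem {P : Set (Fin 6)} (hs : s ∈ XS T z P) : T (pt z s) = P := (arc_of_XS hs).mem

theorem XS_int {P : Set (Fin 6)} (hs : s ∈ XS T z P) (n : ℤ) : s - 6 * n ∈ XS T z P := by
  have h1 := arc_of_XS hs
  apply XS_of_arc
  have h2 : pt z (s - 6 * n) = pt z s := by
    have := pt_per z (s - 6 * n) n
    rw [sub_add_cancel] at this; exact this.symm
  rw [h2]; exact h1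

/-- the sides at the directions near `s` -/
theorem sd_open {i j : Fin 6} (h : Sd U z (pt z s) i j) : ∀ᶠ v in 𝓝 s, Sd U z (pt z v) i j := by
  have h1 : ∀ᶠ y in 𝓝 (pt z s), Sd U z y i j := eventually_eventually_nhds.2 h
  exact ((continuous_pt z).tendsto s).eventually h1

/-- `A` on the ray `s + 3/2`, `B` on the ray `s - 3/2` -/
def PR (U : Fin 6 → Set ℂ) (z : ℂ) (A B : Fin 6) (s : ℝ) : Prop :=
  Ray (U A) z (Complex.I * dir s) ∧ Ray (U B) z (-(Complex.I * dir s))

theorem ip_I_dir (s t : ℝ) : ip (Complex.I * dir s) (dir t) = sn (t - s) := by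
  rw [ip_I]
  unfold cr dir sn
  rw [cis_re, cis_im, cis_re, cis_im, sub_mul, Real.sin_sub]
  ring

theorem PR.pos (h : Irr U T) (r : PR U z A B s) (ht : 0 < sn (t - s)) : Sd U z (pt z t) A B :=
  h.mx.sd_of_rays r.1 r.2 (dist_pt z t) (by
    have e : pt z t - z = dir t := by rw [pt_eq]; ring
    rw [e, ip_I_dir]; exact ht)

theorem PR.neg (h : Irr U T) (r : PR U z A B s) (ht : sn (t - s) < 0) : Sd U z (pt z t) B A :=
  h.mx.sd_of_rays' r.1 r.2 (dist_pt z t) (by
    have e : pt z t - z = dir t := by rw [pt_eq]; ring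
    rw [e, ip_I_dir]; exact ht)

theorem d0' (h : Irr U T) (hz : DPt T z A B C D) (hs : s ∈ XS T z {C, D}) : PR U z A B s ∨ PR U z B A s := by
  have e : pt z s - z = dir s := by rw [pt_eq]; ring
  have := h.d0 hz (arc_of_XS hs)
  rw [e] at this
  exact this

/-- oriented directions of the exact `AB` arcs -/
def Zo (U : Fin 6 → Set ℂ) (T : ℂ → Set (Fin 6)) (z : ℂ) (A B : Fin 6) : Set ℝ :=
  {t | (t ∈ XS T z {A, B} ∧ Sd U z (pt z t) A B) ∨ (t + 3 ∈ XS T z {A, B} ∧ Sd U z (pt z (t + 3)) B A)}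

theorem zo_open : IsOpen (Zo U T z A B) := by
  rw [isOpen_iff_mem_nhds]
  rintro t (⟨h1, h2⟩ | ⟨h1, h2⟩)
  · filter_upwards [(XS_open (T := T) (z := z) _).mem_nhds h1, sd_open h2] with v h3 h4
    exact Or.inl ⟨h3, h4⟩
  · have h5 : Tendsto (fun v : ℝ => v + 3) (𝓝 t) (𝓝 (t + 3)) :=
      (continuous_id.add continuous_const).tendsto t
    filter_upwards [h5.eventually ((XS_open (T := T) (z := z) _).mem_nhds h1),
      h5.eventually (sd_open h2)] with v h3 h4
    exact Or.inr ⟨h3, h4⟩

theorem pt_sub_int (z : ℂ) (s : ℝ) (n : ℤ) : pt z (s - 6 * n) = pt z s := by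
  have := pt_per z (s - 6 * n) n
  rw [sub_add_cancel] at this; exact this.symm

theorem zo_int (ht : t ∈ Zo U T z A B) (n : ℤ) : t - 6 * n ∈ Zo U T z A B := by
  rcases ht with ⟨h1, h2⟩ | ⟨h1, h2⟩
  · exact Or.inl ⟨XS_int h1 n, by rwa [pt_sub_int]⟩
  · refine Or.inr ⟨?_, ?_⟩
    · have := XS_int h1 n
      rwa [show t + 3 - 6 * (n : ℝ) = t - 6 * n + 3 by ring] at this
    · have := pt_sub_int z (t + 3) n
      rw [show t + 3 - 6 * (n : ℝ) = t - 6 * n + 3 by ring] at this
      rwa [this]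

/-- an exact direction is oriented in one way -/
theorem zo_of_XS (h : Irr U T) (hz : DPt T z A B C D) (ht : t ∈ XS T z {A, B}) :
    t ∈ Zo U T z A B ∨ t + 3 ∈ Zo U T z A B := by
  rcases h.sides hz (dist_pt z t) with h1 | h1
  · exact Or.inl (Or.inl ⟨ht, h1⟩)
  · right; right
    have e : t + 3 + 3 = t - 6 * ((-1 : ℤ) : ℝ) := by push_cast; ring
    rw [e, pt_sub_int]
    exact ⟨XS_int ht _, h1⟩

theorem zo_nonempty (h : Irr U T) (hz : DPt T z A B C D) : (Zo U T z A B).Nonempty := by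
  obtain ⟨p, hp⟩ := hz.arc1
  obtain ⟨u, rfl⟩ := exists_pt hp.1
  rcases zo_of_XS h hz (XS_of_arc hp) with h1 | h1
  · exact ⟨_, h1⟩
  · exact ⟨_, h1⟩

theorem zo_swap (ht : t ∈ Zo U T z B A) : t + 3 ∈ Zo U T z A B := by
  rcases ht with ⟨h1, h2⟩ | ⟨h1, h2⟩
  · right
    have e : t + 3 + 3 = t - 6 * ((-1 : ℤ) : ℝ) := by push_cast; ring
    rw [e, pt_sub_int]
    rw [pair_comm] at h1
    exact ⟨XS_int h1 _, h2⟩
  · left
    rw [pair_comm] at h1
    exact ⟨h1, h2⟩

/-- **key**: the side of the rays of an exact `CD` direction against the oriented `AB` directions -/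
theorem key1 (h : Irr U T) (ht : t ∈ Zo U T z A B) (r : PR U z A B s) : 0 < sn (t - s) := by
  have hd : ∀ v, v ∈ Zo U T z A B → ¬ sn (v - s) < 0 := by
    rintro v (⟨h1, h2⟩ | ⟨h1, h2⟩) h3
    · exact h.sd_unique (a := A) (by rw [XS_mem h1]; simp) h2 (r.neg h h3)
    · have h4 := r.pos h (t := v + 3) (by
        rw [show v + 3 - s = v - s + 3 by ring, sn_add_three]; linarith)
      exact h.sd_unique (a := B) (by rw [XS_mem h1]; simp) h2 h4
  rcases lt_trichotomy (sn (t - s)) 0 with h1 | h1 | h1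
  · exact absurd h1 (hd t ht)
  · exfalso
    have h2 := frequently_neg h1
    have h3 : Tendsto (fun y : ℝ => y + s) (𝓝 (t - s)) (𝓝 t) := by
      have h4 : Continuous fun y : ℝ => y + s := by fun_prop
      have h5 := h4.tendsto (t - s)
      rwa [sub_add_cancel] at h5
    obtain ⟨y, h6, h7⟩ := (h2.and_eventually (h3.eventually (zo_open.mem_nhds ht))).exists
    exact hd (y + s) h7 (by rwa [add_sub_cancel_right])
  · exact h1

theorem key1' (h : Irr U T) (ht : t ∈ Zo U T z A B) (r : PR U z B A s) : sn (t - s) < 0 := by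
  have r' : PR U z A B (s + 3) := by
    refine ⟨?_, ?_⟩
    · have := r.2; rwa [← mul_neg, ← dir_add_three] at this
    · rw [dir_add_three, mul_neg, neg_neg]; exact r.1
  have := key1 h ht r'
  rw [show t - (s + 3) = t - s - 3 by ring, sn_sub_three] at this
  linarith

/-- the rays of an oriented direction -/
theorem zo_rays (h : Irr U T) (hz : DPt T z A B C D) (ht : s ∈ Zo U T z C D) :
    PR U z A B s ∨ PR U z B A s := by
  rcases ht with ⟨h1, -⟩ | ⟨h1, -⟩
  · exact d0' h hz h1
  · rcases d0' h hz h1 with h2 | h2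
    · right
      refine ⟨?_, ?_⟩
      · have := h2.2; rwa [dir_add_three, mul_neg, neg_neg] at this
      · have := h2.1; rwa [dir_add_three, mul_neg] at this
    · left
      refine ⟨?_, ?_⟩
      · have := h2.2; rwa [dir_add_three, mul_neg, neg_neg] at this
      · have := h2.1; rwa [dir_add_three, mul_neg] at this

/-- the orientation: the `CD` directions follow the `AB` directions -/
structure Ori (U : Fin 6 → Set ℂ) (T : ℂ → Set (Fin 6)) (z : ℂ) (A B C D : Fin 6) : Prop where
  dpt : DPt T z A B C D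
  pos : ∀ t ∈ Zo U T z A B, ∀ s ∈ Zo U T z C D, 0 < sn (s - t)

/-- **Existence of the orientation** -/
theorem exists_ori (h : Irr U T) (hz : DPt T z A B C D) : Ori U T z A B C D ∨ Ori U T z A B D C := by
  have hne : ∀ t ∈ Zo U T z A B, ∀ s ∈ Zo U T z C D, 0 < sn (s - t) ∨ sn (s - t) < 0 := by
    intro t ht s hs
    rcases zo_rays h hz hs with r | r
    · right; have := key1 h ht r; rw [sn_sub]; linarith
    · left; have := key1' h ht r; rw [sn_sub]; linarith
  have st : ∀ t1 ∈ Zo U T z A B, ∀ t2 ∈ Zo U T z A B, ∀ s ∈ Zo U T z C D, 0 < sn (s - t1) → 0 < sn (s - t2) := by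
    intro t1 h1 t2 h2 s hs h3
    rcases zo_rays h hz hs with r | r
    · have := key1 h h1 r; rw [sn_sub] at this; linarith
    · have := key1' h h2 r; rw [sn_sub]; linarith
  have ss : ∀ t ∈ Zo U T z A B, ∀ s1 ∈ Zo U T z C D, ∀ s2 ∈ Zo U T z C D, 0 < sn (s1 - t) → 0 < sn (s2 - t) := by
    intro t ht s1 h1 s2 h2 h3
    rcases zo_rays h hz.swap ht with r | r
    · exact key1 h h2 r
    · have := key1' h h1 r; linarith
  obtain ⟨t0, ht0⟩ := zo_nonempty h hz
  obtain ⟨s0, hs0⟩ := zo_nonempty h hz.swap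
  rcases hne t0 ht0 s0 hs0 with h1 | h1
  · exact Or.inl ⟨hz, fun t ht s hs => st t0 ht0 t ht s hs (ss t0 ht0 s0 hs0 s hs h1)⟩
  · refine Or.inr ⟨hz.swap34, fun t ht s hs => ?_⟩
    rcases hne t ht (s + 3) (zo_swap hs) with h2 | h2
    · have := st t ht t0 ht0 s0 hs0 (ss t ht (s + 3) (zo_swap hs) s0 hs0 h2)
      linarith
    · rw [show s + 3 - t = s - t + 3 by ring, sn_add_three] at h2
      linarith

namespace Ori

variable (O : Ori U T z A B C D)
include O

/-- the sides `C`, `D` from an oriented `AB` direction -/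
theorem sdC (h : Irr U T) (ht : t ∈ Zo U T z A B) (hφ : 0 < sn (φ - t)) : Sd U z (pt z φ) C D := by
  obtain ⟨s0, hs0⟩ := zo_nonempty h O.dpt.swap
  rcases zo_rays h O.dpt.swap ht with r | r
  · exact r.pos h hφ
  · have h1 := key1' h hs0 r
    have h2 := O.pos t ht s0 hs0
    linarith

theorem sdC' (h : Irr U T) (ht : t ∈ Zo U T z A B) (hφ : sn (φ - t) < 0) : Sd U z (pt z φ) D C := by
  obtain ⟨s0, hs0⟩ := zo_nonempty h O.dpt.swap
  rcases zo_rays h O.dpt.swap ht with r | r
  · exact r.neg h hφ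
  · have h1 := key1' h hs0 r
    have h2 := O.pos t ht s0 hs0
    linarith

/-- the sides `A`, `B` from an oriented `CD` direction -/
theorem sdA (h : Irr U T) (hs : s ∈ Zo U T z C D) (hφ : sn (φ - s) < 0) : Sd U z (pt z φ) A B := by
  obtain ⟨t0, ht0⟩ := zo_nonempty h O.dpt
  rcases zo_rays h O.dpt hs with r | r
  · have h1 := key1 h ht0 r
    have h2 := O.pos t0 ht0 s hs
    rw [sn_sub] at h2; linarith
  · exact r.neg h hφ

theorem sdA' (h : Irr U T) (hs : s ∈ Zo U T z C D) (hφ : 0 < sn (φ - s)) : Sd U z (pt z φ) B A := by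
  obtain ⟨t0, ht0⟩ := zo_nonempty h O.dpt
  rcases zo_rays h O.dpt hs with r | r
  · have h1 := key1 h ht0 r
    have h2 := O.pos t0 ht0 s hs
    rw [sn_sub] at h2; linarith
  · exact r.pos h hφ

end Ori

end Vale.Agent.P032.H254
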